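import Vale.Agent.P236T.Coh
import Vale.Agent.P257.H545.Bock
import Vale.Agent.P257.H314.Line

/-!
# P236T: the interface between the topological and the algebraic side

`HQ s w` is the cohomology of `Cob (Laz / 3)`, the `E₂`-term of the `MU`-based Adams spectral
sequence of the Moore spectrum `S / 3` (stem `2 w - s`).  `Delta` lists the properties of the
differential `d₅` which are proved on the topological side, `AlgFacts` the consequences which are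
proved on the algebraic side.
-/

namespace Vale.Agent.P236T

open Vale.Agent.P251 Vale.Agent.P251.F Vale.Agent.P251.I Vale.Agent.P257.H314 Vale.Agent.P257

/-- `Laz / 3` -/
abbrev Q3 : Type := QI 3 1

/-- cohomology modulo three -/
abbrev HQ (s : ℕ) (w : ℤ) : Type := H Q3 s w

theorem hom3 : IsLawHom (Ideal.Quotient.mk (Laz.I 3 1)) := isLawHom_mkI 3 1

/-- reduction modulo three -/
noncomputable def rd (s : ℕ) : Cob Laz s →+* Cob Q3 s :=
  Cob.mapRing (Ideal.Quotient.mk (Laz.I 3 1)) s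

variable {s : ℕ} {w : ℤ}

theorem mem_IC_iff {z : Cob Laz s} : z ∈ IC 3 1 s ↔ ∃ y, (3 : ℤ) • y = z := by
  have h0 : Laz.v 3 0 = ((3 : ℕ) : Laz) := vv_zero 3 _
  have h1 : IC 3 0 s = ⊥ := by
    rw [IC, Laz.I, Ih]
    simp
  rw [mem_IC_succ_iff, h1, h0, map_natCast]
  constructor
  · rintro ⟨y, hy, b, rfl⟩
    exact ⟨b, by rw [Ideal.mem_bot.1 hy, zero_add, zsmul_eq_mul, mul_comm]; rfl⟩
  · rintro ⟨y, rfl⟩
    exact ⟨0, zero_mem _, y, by rw [zero_add, zsmul_eq_mul, mul_comm]; rfl⟩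

theorem rd_eq_zero {z : Cob Laz s} : rd s z = 0 ↔ z ∈ IC 3 1 s := mapRing_eq_zero_iff z

theorem rd_three (z : Cob Laz s) : rd s ((3 : ℤ) • z) = 0 := rd_eq_zero.2 (mem_IC_iff.2 ⟨z, rfl⟩)

theorem rd_d (z : Cob Laz s) : rd (s + 1) (Cob.d s z) = Cob.d s (rd s z) := Cob.mapRing_d hom3 z

theorem isWt_rd {z : Cob Laz s} (hz : Cob.IsWt w z) : Cob.IsWt w (rd s z) := hz.mapRing hom3

theorem rd_cp {a b n : ℕ} (h : a + b = n) (x : Cob Laz a) (y : Cob Laz b) :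
    rd n (cp h x y) = cp h (rd a x) (rd b y) := mapRing_cp hom3 h x y

theorem exists_rd {z : Cob Q3 s} (hz : Cob.IsWt w z) : ∃ x, Cob.IsWt w x ∧ rd s x = z := by
  obtain ⟨x, hx⟩ := exists_lift_wt hz
  exact ⟨x.1, x.2, hx⟩

theorem d_rd {z : Cob Laz s} (hd : Cob.d s z ∈ IC 3 1 (s + 1)) : Cob.d s (rd s z) = 0 :=
  (rd_d z).symm.trans (rd_eq_zero.2 hd)

/-- The class of an integral cochain which is a cocycle modulo three. -/
noncomputable def cl (z : Cob Laz s) (hw : Cob.IsWt w z) (hd : Cob.d s z ∈ IC 3 1 (s + 1)) :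
    HQ s w := H.mk (rd s z) (isWt_rd hw) (d_rd hd)

theorem exists_cl (a : HQ s w) : ∃ z hw hd, a = cl z hw hd := by
  obtain ⟨x, hx, dx, rfl⟩ := H.exists_rep a
  obtain ⟨z, hz, rfl⟩ := exists_rd hx
  exact ⟨z, hz, rd_eq_zero.1 ((rd_d z).trans dx), rfl⟩

theorem cl_eq_cl_zero {x y : Cob Laz 0} {hx : Cob.IsWt w x} {hy : Cob.IsWt w y}
    {dx : Cob.d 0 x ∈ IC 3 1 1} {dy : Cob.d 0 y ∈ IC 3 1 1} :
    cl x hx dx = cl y hy dy ↔ x - y ∈ IC 3 1 0 := by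
  rw [cl, cl, H.mk_eq_mk, mem_Bc_zero, ← map_sub, rd_eq_zero]

theorem cl_eq_cl_succ {x y : Cob Laz (s + 1)} {hx : Cob.IsWt w x} {hy : Cob.IsWt w y}
    {dx : Cob.d (s + 1) x ∈ IC 3 1 (s + 1 + 1)} {dy : Cob.d (s + 1) y ∈ IC 3 1 (s + 1 + 1)} :
    cl x hx dx = cl y hy dy ↔
      ∃ u, Cob.IsWt w u ∧ x - y - Cob.d s u ∈ IC 3 1 (s + 1) := by
  rw [cl, cl, H.mk_eq_mk, mem_Bc_succ, ← map_sub]
  constructor
  · rintro ⟨u, hu⟩
    obtain ⟨u', hw', hu'⟩ :=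
      Cob.exists_isWt_of_d (isWt_rd ((Cob.wt Laz (s + 1) w).sub_mem hx hy)) hu
    obtain ⟨v, hv, rfl⟩ := exists_rd hw'
    exact ⟨v, hv, rd_eq_zero.1 (by rw [map_sub, rd_d, hu', sub_self])⟩
  · rintro ⟨u, -, hu⟩
    refine ⟨rd s u, ?_⟩
    rw [← rd_eq_zero, map_sub, sub_eq_zero, rd_d] at hu
    exact hu.symm

theorem three_smul (a : HQ s w) : (3 : ℤ) • a = 0 := by
  obtain ⟨z, hz, dz, rfl⟩ := exists_cl a
  rw [cl, H.mk_zsmul, H.mk_eq_zero, ← map_zsmul, rd_three]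
  exact zero_mem _

theorem eq_zero_of_algVan (h : AlgVan 3 1 s w) (a : HQ s w) : a = 0 := by
  obtain ⟨x, hx, dx, rfl⟩ := H.exists_rep a
  rw [H.mk_eq_zero]
  cases s with
  | zero => exact mem_Bc_zero.2 (algVan_zero_iff.1 h x hx dx)
  | succ s =>
    obtain ⟨y, -, hy⟩ := algVan_succ_iff.1 h x hx dx
    exact ⟨y, hy⟩

/-- Sparseness. -/
theorem eq_zero_of_odd (hw : ¬ 2 ∣ w) (a : HQ s w) : a = 0 :=
  eq_zero_of_algVan (H545.algVan_of_not_dvd (by norm_num) le_rfl (by norm_num; omega)) a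

/-! ### the Bockstein homomorphism -/

theorem isWt_div {x : Cob Laz s} {y : Cob Laz (s + 1)} (hx : Cob.IsWt w x)
    (h : (3 : ℤ) • y = Cob.d s x) : Cob.IsWt w y :=
  Cob.isWt_of_smul (m := 3) (by norm_num) (h ▸ hx.d)

theorem d_div {x : Cob Laz s} {y : Cob Laz (s + 1)} (h : (3 : ℤ) • y = Cob.d s x) :
    Cob.d (s + 1) y = 0 :=
  Cob.eq_zero_of_smul (m := 3) (by norm_num) (by rw [← map_zsmul, h, Cob.d_d])

theorem d_mem_of_div {x : Cob Laz s} {y : Cob Laz (s + 1)} (h : (3 : ℤ) • y = Cob.d s x) :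
    Cob.d s x ∈ IC 3 1 (s + 1) := mem_IC_iff.2 ⟨y, h⟩

theorem d_div_mem {x : Cob Laz s} {y : Cob Laz (s + 1)} (h : (3 : ℤ) • y = Cob.d s x) :
    Cob.d (s + 1) y ∈ IC 3 1 (s + 1 + 1) := by
  rw [d_div h]
  exact zero_mem _

/-- `b` is the Bockstein of `a`. -/
def IsBock (a : HQ s w) (b : HQ (s + 1) w) : Prop :=
  ∃ (x : Cob Laz s) (y : Cob Laz (s + 1)) (hx : Cob.IsWt w x) (h : (3 : ℤ) • y = Cob.d s x),
    a = cl x hx (d_mem_of_div h) ∧ b = cl y (isWt_div hx h) (d_div_mem h)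

theorem exists_isBock (a : HQ s w) : ∃ b, IsBock a b := by
  obtain ⟨x, hx, dx, rfl⟩ := exists_cl a
  obtain ⟨y, hy⟩ := mem_IC_iff.1 dx
  exact ⟨_, x, y, hx, hy, rfl, rfl⟩

theorem IsBock.unique {a : HQ s w} {b b' : HQ (s + 1) w} (h : IsBock a b) (h' : IsBock a b') :
    b = b' := by
  obtain ⟨x, y, hx, h, rfl, rfl⟩ := h
  obtain ⟨x', y', hx', h', e, rfl⟩ := h'
  have key : ∃ c : Cob Laz s, Cob.d s ((3 : ℤ) • c) = Cob.d s (x - x') := by
    cases s with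
    | zero =>
      obtain ⟨c, hc⟩ := mem_IC_iff.1 (cl_eq_cl_zero.1 e)
      exact ⟨c, by rw [hc]⟩
    | succ s =>
      obtain ⟨u, -, hu⟩ := cl_eq_cl_succ.1 e
      obtain ⟨c, hc⟩ := mem_IC_iff.1 hu
      exact ⟨c, by rw [hc, map_sub _ _ (Cob.d s u), Cob.d_d, sub_zero]⟩
  obtain ⟨c, hc⟩ := key
  rw [map_zsmul, map_sub, ← h, ← h', ← smul_sub] at hc
  rw [cl, cl, H.mk_eq_mk, ← map_sub, ← Cob.eq_of_smul (by norm_num) hc, rd_d]
  exact d_mem_Bc _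

theorem IsBock.add {a a' : HQ s w} {b b' : HQ (s + 1) w} (h : IsBock a b) (h' : IsBock a' b') :
    IsBock (a + a') (b + b') := by
  obtain ⟨x, y, hx, h, rfl, rfl⟩ := h
  obtain ⟨x', y', hx', h', rfl, rfl⟩ := h'
  refine ⟨x + x', y + y', hx.add hx', by rw [smul_add, h, h', map_add], ?_, ?_⟩
  · rw [cl, cl, cl, H.mk_add]
    exact H.mk_congr (map_add _ _ _).symm
  · rw [cl, cl, cl, H.mk_add]
    exact H.mk_congr (map_add _ _ _).symm

/-- The Bockstein homomorphism: the class of `x` goes to the class of `d x / 3`. -/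
noncomputable def bock {s t : ℕ} {w : ℤ} (h : s + 1 = t) : HQ s w →+ HQ t w :=
  h ▸ AddMonoidHom.mk' (fun a => (exists_isBock a).choose) fun a a' =>
    (exists_isBock (a + a')).choose_spec.unique
      ((exists_isBock a).choose_spec.add (exists_isBock a').choose_spec)

theorem isBock_bock (a : HQ s w) : IsBock a (bock rfl a) := (exists_isBock a).choose_spec

theorem bock_cl {x : Cob Laz s} {y : Cob Laz (s + 1)} (hx : Cob.IsWt w x)
    (h : (3 : ℤ) • y = Cob.d s x) :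
    bock rfl (cl x hx (d_mem_of_div h)) = cl y (isWt_div hx h) (d_div_mem h) :=
  (isBock_bock _).unique ⟨x, y, hx, h, rfl, rfl⟩

theorem d_cp_mem {a b n : ℕ} (h : a + b = n) {x : Cob Laz a} {y : Cob Laz b}
    (dx : Cob.d a x ∈ IC 3 1 (a + 1)) (dy : Cob.d b y ∈ IC 3 1 (b + 1)) :
    Cob.d n (cp h x y) ∈ IC 3 1 (n + 1) := by
  rw [← rd_eq_zero, rd_d, rd_cp]
  exact d_cp_eq_zero h (d_rd dx) (d_rd dy)

theorem cup_cl {a b n : ℕ} {v w u : ℤ} (hs : a + b = n) (hw : v + w = u) {x : Cob Laz a}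
    {y : Cob Laz b} (hx : Cob.IsWt v x) (hy : Cob.IsWt w y) (dx : Cob.d a x ∈ IC 3 1 (a + 1))
    (dy : Cob.d b y ∈ IC 3 1 (b + 1)) : H.cup hs hw (cl x hx dx) (cl y hy dy) =
      cl (cp hs x y) (isWt_cp hs hw hx hy) (d_cp_mem hs dx dy) := by
  rw [cl, cl, cl, H.cup_mk]
  exact H.mk_congr (rd_cp hs x y).symm

/-- The Bockstein homomorphism is a derivation. -/
theorem bock_cup {a b n a' b' n' : ℕ} {v w u : ℤ} (hs : a + b = n) (hw : v + w = u)
    (ha : a + 1 = a') (hb : b + 1 = b') (hn : n + 1 = n') (x : HQ a v) (y : HQ b w) :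
    bock hn (H.cup hs hw x y) = H.cup (show a' + b = n' by omega) hw (bock ha x) y +
      (-1 : ℤ) ^ a • H.cup (show a + b' = n' by omega) hw x (bock hb y) := by
  subst ha hb hn
  obtain ⟨x, x', hx, h, rfl, e⟩ := isBock_bock x
  obtain ⟨y, y', hy, k, rfl, f⟩ := isBock_bock y
  have h3 : (3 : ℤ) • (cp (show a + 1 + b = n + 1 by omega) x' y +
      (-1 : ℤ) ^ a • cp (show a + (b + 1) = n + 1 by omega) x y') = Cob.d n (cp hs x y) := by
    rw [d_cp, ← h, ← k, zsmul_cp, cp_zsmul, smul_add, smul_comm]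
  rw [e, f, cup_cl, cup_cl, cup_cl, bock_cl _ h3, cl, cl, cl, H.mk_zsmul, H.mk_add]
  exact H.mk_congr (by rw [map_add, map_zsmul])

theorem bock_bock {s t r : ℕ} (h : s + 1 = t) (k : t + 1 = r) (x : HQ s w) :
    bock k (bock h x) = 0 := by
  subst h k
  obtain ⟨x, x', hx, h, rfl, e⟩ := isBock_bock x
  have h3 : (3 : ℤ) • (0 : Cob Laz (s + 1 + 1)) = Cob.d (s + 1) x' := by
    rw [smul_zero, d_div h]
  rw [e, bock_cl _ h3, cl, H.mk_eq_zero, map_zero]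
  exact zero_mem _

/-! ### the classes `v₁`, `h₀`, `h₁`, `b₀` -/

/-- `t₁` -/
noncomputable def t1 : Cob Laz 1 := (P251.F.T1 3).choose

theorem isT1_t1 : IsT1 3 t1 := (P251.F.T1 3).choose_spec

theorem isWt_t1 : Cob.IsWt 2 t1 := (BCocycle 3 (by norm_num) t1 isT1_t1).1

theorem d_t1 : Cob.d 1 t1 = 0 := (BCocycle 3 (by norm_num) t1 isT1_t1).2.1

theorem isWt_b : Cob.IsWt 6 (bcls 3 t1) := (BCocycle 3 (by norm_num) t1 isT1_t1).2.2.1

theorem d_b : Cob.d 2 (bcls 3 t1) = 0 := (BCocycle 3 (by norm_num) t1 isT1_t1).2.2.2.1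

theorem three_b : (3 : ℤ) • (-bcls 3 t1) = Cob.d 1 (t1 ^ 3) := by
  have h : (3 : ℤ) • bcls 3 t1 = -Cob.d 1 (t1 ^ 3) :=
    (BCocycle 3 (by norm_num) t1 isT1_t1).2.2.2.2
  rw [smul_neg, h, neg_neg]

theorem isWt_v1 : Cob.IsWt 2 (MvPolynomial.C (Laz.v 3 1) : Cob Laz 0) :=
  isWt_v 3 1 (by norm_num) 0

theorem three_t1 : (3 : ℤ) • t1 = Cob.d 0 (MvPolynomial.C (Laz.v 3 1)) := isT1_t1

/-- `v₁` -/
noncomputable def v1 : HQ 0 2 := cl (MvPolynomial.C (Laz.v 3 1)) isWt_v1 (d_mem_of_div three_t1)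

/-- `h₀`, the class of `t₁` -/
noncomputable def h0 : HQ 1 2 := cl t1 isWt_t1 (by rw [d_t1]; exact zero_mem _)

/-- `h₁`, the class of `t₁ ^ 3` -/
noncomputable def h1 : HQ 1 6 := cl (t1 ^ 3) (isWt_t1.pow 3) (d_mem_of_div three_b)

/-- `b₀` -/
noncomputable def b0 : HQ 2 6 := cl (bcls 3 t1) isWt_b (by rw [d_b]; exact zero_mem _)

theorem bock_v1 : bock rfl v1 = h0 := bock_cl isWt_v1 three_t1

theorem bock_h1 : bock rfl h1 = -b0 := by
  refine (bock_cl (isWt_t1.pow 3) three_b).trans ?_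
  rw [b0, cl, cl, H.mk_neg]
  exact H.mk_congr (map_neg _ _)

/-- `b₀` is central. -/
theorem cup_comm_b0 {n : ℕ} {u : ℤ} (h1' : 2 + s = n) (h2 : s + 2 = n) (k1 : 6 + w = u)
    (k2 : w + 6 = u) (z : HQ s w) : H.cup h1' k1 b0 z = H.cup h2 k2 z b0 := by
  have e1 := bock_cup (show 1 + s = s + 1 by omega) k1 rfl rfl (show s + 1 + 1 = n by omega) h1 z
  have e2 := bock_cup (show s + 1 = s + 1 from rfl) k2 rfl rfl (show s + 1 + 1 = n by omega) z h1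
  rw [H.cup_comm_one _ rfl k1 k2, map_zsmul, e2, bock_h1,
    H.cup_comm_one _ (show s + 1 + 1 = n by omega) k1 k2 h1, smul_add, smul_smul, smul_smul,
    ← mul_pow, neg_one_mul, neg_neg, one_pow, one_smul, pow_one, pow_succ, mul_neg_one,
    neg_one_mul, neg_neg, map_neg, map_neg, AddMonoidHom.neg_apply, add_comm,
    add_left_inj, neg_inj] at e1
  exact e1.symm

/-- The powers of `b₀`. -/
noncomputable def bp : ∀ K : ℕ, HQ (2 * K) (6 * K)
  | 0 => H.one Q3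
  | K + 1 => H.cup (a := 2 * K) (b := 2) rfl (by push_cast; ring) (bp K) b0

/-! ### the differential -/

/-- The properties of the differential `d₅` of the Moore spectrum. -/
structure Delta where
  /-- the differential -/
  δ : ∀ {s t : ℕ} {w u : ℤ}, s + 5 = t → w + 2 = u → HQ s w →+ HQ t u
  /-- it is linear over `v₁` -/
  v1_mul : ∀ {s t : ℕ} {w u w' u' : ℤ} (hs : s + 5 = t) (hw : w + 2 = u) (k1 : 2 + w = w')
    (k2 : w' + 2 = u') (z : HQ s w), δ hs k2 (H.cup (zero_add s) k1 v1 z) =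
      H.cup (zero_add t) (show 2 + u = u' by omega) v1 (δ hs hw z)
  /-- the Leibniz rule for left multiplication by classes of degree one -/
  leib : ∀ {s n s' t : ℕ} {v w u v' w' r : ℤ} (h1 : 1 + s = n) (h2 : n + 5 = t) (h3 : s + 5 = s')
    (k1 : v + w = u) (k2 : u + 2 = r) (k3 : v + 2 = v') (k4 : w + 2 = w') (x : HQ 1 v)
    (z : HQ s w), δ h2 k2 (H.cup h1 k1 x z) =
      H.cup (show 6 + s = t by omega) (show v' + w = r by omega) (δ rfl k3 x) z -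
        H.cup (show 1 + s' = t by omega) (show v + w' = r by omega) x (δ h3 k4 z)
  /-- it anticommutes with the Bockstein homomorphism -/
  bock : ∀ {s n s' t : ℕ} {w u : ℤ} (h1 : s + 1 = n) (h2 : n + 5 = t) (h3 : s + 5 = s')
    (k : w + 2 = u) (z : HQ s w),
    δ h2 k (bock h1 z) = -bock (show s' + 1 = t by omega) (δ h3 k z)
  /-- the Toda differential -/
  toda : ∃ z : HQ 2 18, δ (t := 7) (u := 20) rfl rfl z =
    H.cup (a := 1) (b := 2 * 3) rfl (by norm_num) h0 (bp 3)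
  /-- the square of the differential is zero -/
  dd : ∀ {s t r : ℕ} {w u q : ℤ} (h1 : s + 5 = t) (h2 : t + 5 = r) (k1 : w + 2 = u)
    (k2 : u + 2 = q) (z : HQ s w), δ h2 k2 (δ h1 k1 z) = 0

namespace Delta

variable (Δ : Delta)

/-- The kernel of `δ` in bidegree `(s, w)` is spanned by `g` and the image of `δ`. -/
def Ex1 {a s t : ℕ} {v w u : ℤ} (h1 : a + 5 = s) (h2 : s + 5 = t) (k1 : v + 2 = w)
    (k2 : w + 2 = u) (g : HQ s w) : Prop :=
  ∀ y : HQ s w, Δ.δ h2 k2 y = 0 → ∃ (c : ℤ) (x : HQ a v), y = c • g + Δ.δ h1 k1 x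

/-- The kernel of `δ` in bidegree `(s, w)` is the image of `δ`. -/
def Ex (s : ℕ) (w : ℤ) : Prop :=
  ∀ {a t : ℕ} {v u : ℤ} (h1 : a + 5 = s) (h2 : s + 5 = t) (k1 : v + 2 = w) (k2 : w + 2 = u)
    (y : HQ s w), Δ.δ h2 k2 y = 0 → ∃ x : HQ a v, y = Δ.δ h1 k1 x

/-- The condition under which `z h₀` is not a permanent cycle: `δ z · b₀` is not of the form
`y · h₀` with `δ y = 0`. -/
def KC {s a b c e : ℕ} {w u v r : ℤ} (ha : s + 5 = a) (hb : s + 6 = b) (hc : s + 7 = c)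
    (he : s + 11 = e) (hu : w + 2 = u) (hv : w + 6 = v) (hr : w + 8 = r) (z : HQ s w) : Prop :=
  ∀ y : HQ b v, Δ.δ (show b + 5 = e by omega) (show v + 2 = r by omega) y = 0 →
    H.cup (show a + 2 = c by omega) (show u + 6 = r by omega) (Δ.δ ha hu z) b0 ≠
      H.cup (show b + 1 = c by omega) (show v + 2 = r by omega) y h0

/-- A cocycle modulo three which lifts a unit multiple of `t₁ ^ q` and is killed by `δ`. -/
def Start (q : ℕ) {w u : ℤ} (k : w + 2 = u) : Prop :=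
  ∃ (h : Cob Laz 1) (hw : Cob.IsWt w h) (hd : Cob.d 1 h ∈ IC 3 1 2) (c : ℤ) (n : ℕ),
    ¬ 3 ∣ c ∧ h - c * t1 ^ q ∈ IC 3 n 1 ∧ Δ.δ (t := 6) rfl k (cl h hw hd) = 0

/-- The facts about the stem `106`. -/
def J2 : Prop :=
  Δ.Start 27 (w := 54) (u := 56) rfl ∧ ∀ (s : ℕ) (w : ℤ), 10 ≤ s → s + 106 = 2 * w → 2 ∣ w →
    Δ.Ex s w

/-- The facts about the stem `322` in filtrations below `S`. -/
def J3 (S : ℕ) : Prop :=
  Δ.Start 81 (w := 162) (u := 164) rfl ∧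
  (∃ z : HQ 9 164, Δ.KC (a := 14) (b := 15) (c := 16) (e := 20) (u := 166) (v := 170) (r := 172)
      rfl rfl rfl rfl rfl rfl rfl z ∧
    Δ.Ex1 (a := 5) (s := 10) (t := 15) (v := 164) (w := 166) (u := 168) rfl rfl rfl rfl
      (H.cup rfl rfl z h0)) ∧
  (∃ g, Δ.Ex1 (a := 9) (s := 14) (t := 19) (v := 166) (w := 168) (u := 170) rfl rfl rfl rfl g) ∧
  (∃ z : HQ 4 162, Δ.KC (a := 9) (b := 10) (c := 11) (e := 15) (u := 164) (v := 168) (r := 170)
      rfl rfl rfl rfl rfl rfl rfl z ∧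
    Δ.δ (s := 5) (t := 10) (w := 164) (u := 166) rfl rfl (H.cup rfl rfl z h0) = 0) ∧
  (∃ g, Δ.Ex1 (a := 13) (s := 18) (t := 23) (v := 168) (w := 170) (u := 172) rfl rfl rfl rfl g) ∧
  (∃ z : HQ 8 164, Δ.KC (a := 13) (b := 14) (c := 15) (e := 19) (u := 166) (v := 170) (r := 172)
      rfl rfl rfl rfl rfl rfl rfl z ∧
    Δ.δ (s := 9) (t := 14) (w := 166) (u := 168) rfl rfl (H.cup rfl rfl z h0) = 0) ∧
  ∀ (s : ℕ) (w : ℤ), 22 ≤ s → s < S → s + 322 = 2 * w → 2 ∣ w → Δ.Ex s w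

end Delta

/-- Multiplication by `b₀ ^ 7` is onto the stem `322` in filtrations at least `S` and injective
into the stem `321` in filtrations above `S + 1`. -/
def Per (S : ℕ) : Prop :=
  (∀ {a s : ℕ} {v w : ℤ} (h : a + 2 * 7 = s) (k : v + 6 * (7 : ℕ) = w), S ≤ s →
    s + 322 = 2 * w → 2 ∣ w → ∀ y : HQ s w, ∃ x : HQ a v, H.cup h k x (bp 7) = y) ∧
  ∀ {a s : ℕ} {v w : ℤ} (h : a + 2 * 7 = s) (k : v + 6 * (7 : ℕ) = w), S + 2 ≤ s →
    s + 321 = 2 * w → 2 ∣ w → ∀ x : HQ a v, H.cup h k x (bp 7) = 0 → x = 0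

/-- **The algebraic input.** -/
def AlgFacts : Prop := ∃ S : ℕ, 24 ≤ S ∧ Per S ∧ ∀ Δ : Delta, Δ.J2 ∧ Δ.J3 S

end Vale.Agent.P236T
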