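import Vale.Agent.P257.H314.Quot
import Vale.Agent.P251.F.T1Coc

/-!
# P236T: the cohomology ring of the cobar complex of a law ring

* `mp n f`: the cosimplicial operator with vertices `f 0, f 1, …`;
* `cp h x y`: the cup product, with an index proof `h : a + b = n`;
* `H N s w`: the cohomology of `Cob N` in degree `s` and weight `w`;
* `H.cup`: the product; `cup_assoc`; `cup_comm_one`: classes of degree one commute up to sign.
-/

namespace Vale.Agent.P236T

open Vale.Agent.P251 Vale.Agent.P251.F Finset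

variable {N : Type} [CommRing N] [LawRing N]

/-! ### cosimplicial operators indexed by functions on `ℕ` -/

/-- The operator `x ↦ x (g (f 0), g (f 1), …)`. -/
noncomputable def mp (n : ℕ) (f : ℕ → ℕ) {m : ℕ} : Cob N m →+* Cob N n :=
  Cob.map fun i : Fin (m + 1) => (⟨min (f i) n, by omega⟩ : Fin (n + 1))

theorem mp_congr {n m : ℕ} {f g : ℕ → ℕ} (h : ∀ i ≤ m, f i = g i) (x : Cob N m) :
    mp n f x = mp n g x := by
  have : (fun i : Fin (m + 1) => (⟨min (f i) n, by omega⟩ : Fin (n + 1))) =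
      fun i : Fin (m + 1) => (⟨min (g i) n, by omega⟩ : Fin (n + 1)) := by
    funext i
    exact Fin.ext (by simp only [h i (by omega)])
  rw [mp, mp, this]

theorem mp_mp {n m l : ℕ} (f g : ℕ → ℕ) (hg : ∀ i ≤ l, g i ≤ m) (x : Cob N l) :
    mp n f (mp m g x) = mp n (fun i => f (g i)) x := by
  rw [mp, mp, mp, Cob.map_map]
  congr 2
  funext i
  refine Fin.ext ?_
  simp only [Function.comp_apply, min_eq_left (hg i (by omega))]

theorem map_eq_mp {n m : ℕ} (α : Fin (m + 1) → Fin (n + 1)) (f : ℕ → ℕ)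
    (h : ∀ i : Fin (m + 1), (α i : ℕ) = f i) (x : Cob N m) : Cob.map α x = mp n f x := by
  rw [mp]
  congr 2
  funext i
  refine Fin.ext ?_
  have := (α i).2
  simp only [← h i]
  omega

theorem mp_id {n : ℕ} (x : Cob N n) : mp n (fun i => i) x = x :=
  (map_eq_mp id _ (fun _ => rfl) x).symm.trans (Cob.map_id x)

theorem isWt_mp {n m : ℕ} {w : ℤ} (f : ℕ → ℕ) {x : Cob N m} (hx : Cob.IsWt w x) :
    Cob.IsWt w (mp n f x) := hx.map _

theorem mapRing_mp {M : Type} [CommRing M] [LawRing M] {φ : N →+* M} (hφ : IsLawHom φ)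
    {n m : ℕ} (f : ℕ → ℕ) (x : Cob N m) :
    Cob.mapRing φ n (mp n f x) = mp n f (Cob.mapRing φ m x) := Cob.mapRing_map hφ _ x

/-- The increasing function which omits `i`. -/
def sk (i j : ℕ) : ℕ := if j < i then j else j + 1

theorem sk_of_lt {i j : ℕ} (h : j < i) : sk i j = j := if_pos h

theorem sk_of_le {i j : ℕ} (h : i ≤ j) : sk i j = j + 1 := if_neg (by omega)

theorem sk_le (i j : ℕ) : sk i j ≤ j + 1 := by
  unfold sk
  split_ifs <;> omega

theorem d_eq {n : ℕ} (x : Cob N n) :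
    Cob.d n x = ∑ i ∈ range (n + 2), (-1 : ℤ) ^ i • mp (n + 1) (sk i) x := by
  rw [Cob.d_apply, ← Fin.sum_univ_eq_sum_range (fun i => (-1 : ℤ) ^ i • mp (n + 1) (sk i) x)]
  refine Finset.sum_congr rfl fun i _ => ?_
  rw [map_eq_mp i.succAbove (sk i)]
  intro j
  simp only [Fin.succAbove, sk, Fin.lt_def, Fin.val_castSucc]
  split_ifs <;> rfl

theorem mp_d {n m : ℕ} (f : ℕ → ℕ) (x : Cob N m) : mp n f (Cob.d m x) =
    ∑ i ∈ range (m + 2), (-1 : ℤ) ^ i • mp n (fun j => f (sk i j)) x := by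
  rw [d_eq, map_sum]
  refine Finset.sum_congr rfl fun i _ => ?_
  rw [map_zsmul, mp_mp _ _ fun j hj => (sk_le i j).trans (by omega)]

/-! ### the cup product -/

/-- The cup product with an index proof. -/
noncomputable def cp {a b n : ℕ} (_ : a + b = n) (x : Cob N a) (y : Cob N b) : Cob N n :=
  mp n (fun i => i) x * mp n (fun i => a + i) y

theorem cp_rfl {a b : ℕ} (x : Cob N a) (y : Cob N b) : cp rfl x y = Cob.cup x y := by
  rw [cp, Cob.cup, map_eq_mp (Cob.front a b) (fun i => i) fun _ => rfl,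
    map_eq_mp (Cob.back a b) (fun i => a + i) fun _ => rfl]

theorem mp_cp {a b n l : ℕ} (h : a + b = n) (f : ℕ → ℕ) (x : Cob N a) (y : Cob N b) :
    mp l f (cp h x y) = mp l f x * mp l (fun i => f (a + i)) y := by
  rw [cp, map_mul, mp_mp _ _ fun i hi => by omega, mp_mp _ _ fun i hi => by omega]

theorem isWt_cp {a b n : ℕ} (h : a + b = n) {v w u : ℤ} (hw : v + w = u) {x : Cob N a}
    {y : Cob N b} (hx : Cob.IsWt v x) (hy : Cob.IsWt w y) : Cob.IsWt u (cp h x y) :=
  hw ▸ (isWt_mp _ hx).mul (isWt_mp _ hy)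

theorem mapRing_cp {M : Type} [CommRing M] [LawRing M] {φ : N →+* M} (hφ : IsLawHom φ)
    {a b n : ℕ} (h : a + b = n) (x : Cob N a) (y : Cob N b) :
    Cob.mapRing φ n (cp h x y) = cp h (Cob.mapRing φ a x) (Cob.mapRing φ b y) := by
  rw [cp, cp, map_mul, mapRing_mp hφ, mapRing_mp hφ]

/-- The cup product as a biadditive map. -/
noncomputable def cpHom {a b n : ℕ} (h : a + b = n) : Cob N a →+ Cob N b →+ Cob N n :=
  AddMonoidHom.mk' (fun x => AddMonoidHom.mk' (cp h x) fun y y' => by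
    rw [cp, cp, cp, map_add, mul_add]) fun x x' => AddMonoidHom.ext fun y => by
      change cp h (x + x') y = cp h x y + cp h x' y
      rw [cp, cp, cp, map_add, add_mul]

theorem cp_def {a b n : ℕ} (h : a + b = n) (x : Cob N a) (y : Cob N b) :
    cp h x y = mp n (fun i => i) x * mp n (fun i => a + i) y := rfl

theorem cpHom_apply {a b n : ℕ} (h : a + b = n) (x : Cob N a) (y : Cob N b) :
    cpHom h x y = cp h x y := rfl

theorem cp_zero {a b n : ℕ} (h : a + b = n) (x : Cob N a) : cp h x (0 : Cob N b) = 0 :=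
  map_zero (cpHom h x)

theorem zero_cp {a b n : ℕ} (h : a + b = n) (y : Cob N b) : cp h (0 : Cob N a) y = 0 := by
  rw [cp, map_zero, zero_mul]

theorem cp_zsmul {a b n : ℕ} (h : a + b = n) (k : ℤ) (x : Cob N a) (y : Cob N b) :
    cp h x (k • y) = k • cp h x y := map_zsmul (cpHom h x) k y

theorem zsmul_cp {a b n : ℕ} (h : a + b = n) (k : ℤ) (x : Cob N a) (y : Cob N b) :
    cp h (k • x) y = k • cp h x y := by
  rw [cp, cp, map_zsmul, smul_mul_assoc]

theorem cp_assoc {a b c ab bc n : ℕ} (h1 : a + b = ab) (h2 : ab + c = n) (h3 : b + c = bc)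
    (h4 : a + bc = n) (x : Cob N a) (y : Cob N b) (z : Cob N c) :
    cp h2 (cp h1 x y) z = cp h4 x (cp h3 y z) := by
  rw [cp_def h2, cp_def h4, mp_cp, mp_cp, mul_assoc]
  congr 2
  exact mp_congr (fun i _ => by omega) z

theorem cp_one {a : ℕ} (h : a + 0 = a) (x : Cob N a) : cp h x (1 : Cob N 0) = x := by
  rw [cp, map_one, mul_one, mp_id]

theorem one_cp {a : ℕ} (h : 0 + a = a) (x : Cob N a) : cp h (1 : Cob N 0) x = x := by
  rw [cp, map_one, one_mul, mp_congr (g := fun i => i) (fun i _ => zero_add i), mp_id]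

/-- The Leibniz rule. -/
theorem d_cp {a b n : ℕ} (h : a + b = n) (x : Cob N a) (y : Cob N b) :
    Cob.d n (cp h x y) = cp (show a + 1 + b = n + 1 by omega) (Cob.d a x) y +
      (-1 : ℤ) ^ a • cp (show a + (b + 1) = n + 1 by omega) x (Cob.d b y) := by
  subst h
  rw [d_eq, cp_def (show a + 1 + b = a + b + 1 by omega),
    cp_def (show a + (b + 1) = a + b + 1 by omega), mp_d, mp_d, show a + b + 2 = (a + 1) + (b + 1) by omega, Finset.sum_range_add,
    Finset.sum_range_succ _ (a + 1), Finset.sum_range_succ' _ (b + 1), add_mul, mul_add, smul_add,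
    Finset.sum_mul, Finset.mul_sum, Finset.smul_sum]
  have h1 : ∀ i ∈ range (a + 1), (-1 : ℤ) ^ i • mp (a + b + 1) (sk i) (cp rfl x y) =
      ((-1 : ℤ) ^ i • mp (a + b + 1) (fun j => sk i j) x) *
        mp (a + b + 1) (fun i => a + 1 + i) y := by
    intro i hi
    rw [mem_range] at hi
    have e1 : mp (a + b + 1) (fun j => sk i (a + j)) y = mp (a + b + 1) (fun i => a + 1 + i) y :=
      mp_congr (fun j _ => by rw [sk_of_le (by omega)]; omega) y
    rw [mp_cp, smul_mul_assoc, e1]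
  have h2 : ∀ j ∈ range (b + 1),
      (-1 : ℤ) ^ (a + 1 + j) • mp (a + b + 1) (sk (a + 1 + j)) (cp rfl x y) =
      (-1 : ℤ) ^ a • (mp (a + b + 1) (fun i => i) x *
        (-1 : ℤ) ^ (j + 1) • mp (a + b + 1) (fun l => a + sk (j + 1) l) y) := by
    intro j _
    have e1 : mp (a + b + 1) (sk (a + 1 + j)) x = mp (a + b + 1) (fun i => i) x :=
      mp_congr (fun l hl => sk_of_lt (by omega)) x
    have e2 : mp (a + b + 1) (fun i => sk (a + 1 + j) (a + i)) y =
        mp (a + b + 1) (fun l => a + sk (j + 1) l) y := by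
      refine mp_congr (fun l _ => ?_) y
      unfold sk
      split_ifs <;> omega
    rw [mp_cp, mul_smul_comm, smul_smul, ← pow_add, show a + (j + 1) = a + 1 + j by omega, e1, e2]
  have h3 : mp (a + b + 1) (fun j => sk (a + 1) j) x = mp (a + b + 1) (fun i => i) x :=
    mp_congr (fun l hl => sk_of_lt (by omega)) x
  have h4 : mp (a + b + 1) (fun j => a + sk 0 j) y = mp (a + b + 1) (fun i => a + 1 + i) y :=
    mp_congr (fun l hl => by rw [sk_of_le (by omega)]; omega) y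
  rw [Finset.sum_congr rfl h1, Finset.sum_congr rfl h2, h3, h4, pow_zero, one_smul, pow_succ,
    mul_neg_one, neg_smul, neg_mul, smul_mul_assoc]
  abel

/-- The value of a `1`-cochain on the edge from `i` to `j`. -/
noncomputable def edge (n i j : ℕ) : Cob N 1 →+* Cob N n := mp n fun l => if l = 0 then i else j

theorem mp_eq_edge {n : ℕ} (f : ℕ → ℕ) (x : Cob N 1) : mp n f x = edge n (f 0) (f 1) x := by
  refine mp_congr (fun l hl => ?_) x
  split_ifs with h
  · rw [h]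
  · rw [show l = 1 by omega]

theorem mp_edge {n m : ℕ} (f : ℕ → ℕ) {i j : ℕ} (hi : i ≤ m) (hj : j ≤ m) (x : Cob N 1) :
    mp n f (edge m i j x) = edge n (f i) (f j) x := by
  rw [edge, mp_mp _ _ fun l _ => by split_ifs <;> omega, mp_eq_edge]
  rfl

/-- The values of `d x` for a `1`-cochain `x`. -/
theorem mp_d_one {n : ℕ} (f : ℕ → ℕ) (x : Cob N 1) : mp n f (Cob.d 1 x) =
    edge n (f 1) (f 2) x - edge n (f 0) (f 2) x + edge n (f 0) (f 1) x := by
  rw [mp_d, Finset.sum_range_succ, Finset.sum_range_succ, Finset.sum_range_one, mp_eq_edge,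
    mp_eq_edge, mp_eq_edge]
  simp only [sk]
  norm_num
  abel

theorem edge_add {n : ℕ} {x : Cob N 1} (hx : Cob.d 1 x = 0) (i j k : ℕ) :
    edge n i k x = edge n i j x + edge n j k x := by
  have h := mp_d_one (n := n) (fun l => if l = 0 then i else if l = 1 then j else k) x
  rw [hx, map_zero] at h
  simp only [if_true, one_ne_zero, if_false, OfNat.ofNat_ne_zero, OfNat.ofNat_ne_one] at h
  linear_combination h

/-- The homotopy between `x ∪ z` and `± z ∪ x`. -/
theorem d_edge_mul {s n : ℕ} (h1 : 1 + s = n) (h2 : s + 1 = n) {x : Cob N 1}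
    (hx : Cob.d 1 x = 0) {z : Cob N s} (hz : Cob.d s z = 0) :
    cp h1 x z = (-1 : ℤ) ^ s • cp h2 z x - h2 ▸ Cob.d s (edge s 0 s x * z) := by
  subst h2
  have h0 := d_eq z
  rw [hz, Finset.sum_range_succ, Finset.sum_range_succ'] at h0
  have h3 : ∀ i ∈ range s, (-1 : ℤ) ^ (i + 1) • mp (s + 1) (sk (i + 1)) (edge s 0 s x * z) =
      edge (s + 1) 0 (s + 1) x * ((-1 : ℤ) ^ (i + 1) • mp (s + 1) (sk (i + 1)) z) := by
    intro i hi
    rw [mem_range] at hi
    rw [map_mul, mp_edge _ (by omega) le_rfl, sk_of_lt (by omega), sk_of_le (by omega),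
      mul_smul_comm]
  have h4 : mp (s + 1) (fun i => 1 + i) z = mp (s + 1) (sk 0) z :=
    mp_congr (fun l _ => by rw [sk_of_le (by omega)]; omega) z
  have h5 : mp (s + 1) (fun i => i) z = mp (s + 1) (sk (s + 1)) z :=
    mp_congr (fun l _ => by rw [sk_of_lt (by omega)]) z
  change _ = _ - Cob.d s _
  rw [d_eq, Finset.sum_range_succ, Finset.sum_range_succ', Finset.sum_congr rfl h3,
    ← Finset.mul_sum, map_mul, map_mul, mp_edge _ (by omega) le_rfl, mp_edge _ (by omega) le_rfl,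
    sk_of_le (le_refl 0), sk_of_le (Nat.zero_le s), sk_of_lt (Nat.succ_pos s),
    sk_of_lt (Nat.lt_succ_self s), cp, cp, mp_eq_edge, mp_eq_edge, h4, h5, add_zero,
    eq_neg_of_add_eq_zero_left ((add_assoc _ _ _).symm.trans h0.symm)]
  have e1 := edge_add (n := s + 1) hx 0 1 (s + 1)
  have e2 := edge_add (n := s + 1) hx 0 s (s + 1)
  simp only [zsmul_eq_mul, pow_succ, pow_zero, zero_add] at e1 e2 ⊢
  push_cast
  linear_combination (-(mp (s + 1) (sk 0) z)) * e1 +
    ((-1) ^ s * mp (s + 1) (sk (s + 1)) z) * e2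

/-! ### cohomology -/

variable (N) in
/-- cocycles of weight `w` -/
noncomputable def Zc (s : ℕ) (w : ℤ) : AddSubgroup (Cob N s) := Cob.wt N s w ⊓ (Cob.d s).ker

variable (N) in
/-- coboundaries -/
noncomputable def Bc : ∀ s : ℕ, AddSubgroup (Cob N s)
  | 0 => ⊥
  | s + 1 => (Cob.d s).range

variable (N) in
/-- The cohomology of `Cob N` in degree `s` and weight `w`. -/
def H (s : ℕ) (w : ℤ) : Type := Zc N s w ⧸ (Bc N s).addSubgroupOf (Zc N s w)

noncomputable instance (s : ℕ) (w : ℤ) : AddCommGroup (H N s w) :=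
  inferInstanceAs (AddCommGroup (Zc N s w ⧸ (Bc N s).addSubgroupOf (Zc N s w)))

theorem d_mem_Bc {s : ℕ} (y : Cob N s) : Cob.d s y ∈ Bc N (s + 1) := ⟨y, rfl⟩

theorem mem_Bc_zero {x : Cob N 0} : x ∈ Bc N 0 ↔ x = 0 := AddSubgroup.mem_bot

theorem mem_Bc_succ {s : ℕ} {x : Cob N (s + 1)} : x ∈ Bc N (s + 1) ↔ ∃ y, Cob.d s y = x :=
  Iff.rfl

theorem cp_mem_left {a b n : ℕ} (h : a + b = n) {x : Cob N a} (hx : x ∈ Bc N a) {y : Cob N b}
    (hy : Cob.d b y = 0) : cp h x y ∈ Bc N n := by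
  cases a with
  | zero => rw [mem_Bc_zero.1 hx, zero_cp]; exact zero_mem _
  | succ a =>
    obtain ⟨u, rfl⟩ := hx
    obtain rfl : n = a + b + 1 := by omega
    refine ⟨cp rfl u y, ?_⟩
    rw [d_cp, hy, cp_zero, smul_zero, add_zero]

theorem cp_mem_right {a b n : ℕ} (h : a + b = n) {x : Cob N a} (hx : Cob.d a x = 0)
    {y : Cob N b} (hy : y ∈ Bc N b) : cp h x y ∈ Bc N n := by
  cases b with
  | zero => rw [mem_Bc_zero.1 hy, cp_zero]; exact zero_mem _
  | succ b =>
    obtain ⟨u, rfl⟩ := hy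
    obtain rfl : n = a + b + 1 := by omega
    refine ⟨(-1 : ℤ) ^ a • cp rfl x u, ?_⟩
    rw [map_zsmul, d_cp, hx, zero_cp, zero_add, smul_smul, ← mul_pow, neg_one_mul, neg_neg,
      one_pow, one_smul]

theorem d_cp_eq_zero {a b n : ℕ} (h : a + b = n) {x : Cob N a} (hx : Cob.d a x = 0)
    {y : Cob N b} (hy : Cob.d b y = 0) : Cob.d n (cp h x y) = 0 := by
  rw [d_cp, hx, hy, zero_cp, cp_zero, smul_zero, add_zero]

namespace H

variable {s : ℕ} {w : ℤ}

/-- the projection -/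
noncomputable def pr (s : ℕ) (w : ℤ) : Zc N s w →+ H N s w := QuotientAddGroup.mk' _

/-- The class of a cocycle. -/
noncomputable def mk (x : Cob N s) (hw : Cob.IsWt w x) (hd : Cob.d s x = 0) : H N s w :=
  pr s w ⟨x, hw, hd⟩

theorem exists_rep (a : H N s w) : ∃ x hw hd, a = mk x hw hd := by
  obtain ⟨⟨x, hw, hd⟩, rfl⟩ := QuotientAddGroup.mk'_surjective _ a
  exact ⟨x, hw, hd, rfl⟩

theorem mk_eq_mk {x y : Cob N s} {hx : Cob.IsWt w x} {hy : Cob.IsWt w y} {dx : Cob.d s x = 0}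
    {dy : Cob.d s y = 0} : mk x hx dx = mk y hy dy ↔ x - y ∈ Bc N s :=
  QuotientAddGroup.eq_iff_sub_mem

theorem mk_eq_zero {x : Cob N s} {hx : Cob.IsWt w x} {dx : Cob.d s x = 0} :
    mk x hx dx = 0 ↔ x ∈ Bc N s :=
  QuotientAddGroup.eq_zero_iff _

theorem mk_congr {x y : Cob N s} (h : x = y) {hx : Cob.IsWt w x} {hy : Cob.IsWt w y}
    {dx : Cob.d s x = 0} {dy : Cob.d s y = 0} : mk x hx dx = mk y hy dy := by
  subst h
  rfl

theorem mk_add {x y : Cob N s} (hx : Cob.IsWt w x) (hy : Cob.IsWt w y) (dx : Cob.d s x = 0)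
    (dy : Cob.d s y = 0) : mk x hx dx + mk y hy dy =
      mk (x + y) (hx.add hy) (by rw [map_add, dx, dy, add_zero]) := rfl

theorem mk_neg {x : Cob N s} (hx : Cob.IsWt w x) (dx : Cob.d s x = 0) :
    -mk x hx dx = mk (-x) hx.neg (by rw [map_neg, dx, neg_zero]) := rfl

theorem mk_sub {x y : Cob N s} (hx : Cob.IsWt w x) (hy : Cob.IsWt w y) (dx : Cob.d s x = 0)
    (dy : Cob.d s y = 0) : mk x hx dx - mk y hy dy =
      mk (x - y) ((Cob.wt N s w).sub_mem hx hy) (by rw [map_sub, dx, dy, sub_zero]) := rfl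

theorem mk_zsmul (k : ℤ) {x : Cob N s} (hx : Cob.IsWt w x) (dx : Cob.d s x = 0) :
    k • mk x hx dx = mk (k • x) (hx.zsmul k) (by rw [map_zsmul, dx, smul_zero]) :=
  (map_zsmul (pr s w) k _).symm

/-- A homomorphism out of `H`. -/
noncomputable def lift {A : Type*} [AddCommGroup A] (f : Zc N s w →+ A)
    (hf : ∀ x : Zc N s w, x.1 ∈ Bc N s → f x = 0) : H N s w →+ A :=
  QuotientAddGroup.lift _ f hf

theorem lift_mk {A : Type*} [AddCommGroup A] (f : Zc N s w →+ A)
    (hf : ∀ x : Zc N s w, x.1 ∈ Bc N s → f x = 0) (x : Cob N s) (hw : Cob.IsWt w x)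
    (hd : Cob.d s x = 0) : lift f hf (mk x hw hd) = f ⟨x, hw, hd⟩ := rfl

/-- The homomorphism induced by a map of cochains. -/
noncomputable def desc {M : Type} [CommRing M] [LawRing M] {t : ℕ} {u : ℤ}
    (f : Cob N s →+ Cob M t) (hw : ∀ x, Cob.IsWt w x → Cob.IsWt u (f x))
    (hd : ∀ x, Cob.d s x = 0 → Cob.d t (f x) = 0) (hb : ∀ x ∈ Bc N s, f x ∈ Bc M t) :
    H N s w →+ H M t u :=
  lift ((pr t u).comp ((f.comp (Zc N s w).subtype).codRestrict (Zc M t u)
    fun x => ⟨hw x.1 x.2.1, hd x.1 x.2.2⟩))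
    fun x hx => (QuotientAddGroup.eq_zero_iff _).2 (hb x.1 hx)

theorem desc_mk {M : Type} [CommRing M] [LawRing M] {t : ℕ} {u : ℤ}
    (f : Cob N s →+ Cob M t) (hw : ∀ x, Cob.IsWt w x → Cob.IsWt u (f x))
    (hd : ∀ x, Cob.d s x = 0 → Cob.d t (f x) = 0) (hb : ∀ x ∈ Bc N s, f x ∈ Bc M t)
    {x : Cob N s} (hx : Cob.IsWt w x) (dx : Cob.d s x = 0) :
    desc f hw hd hb (mk x hx dx) = mk (f x) (hw x hx) (hd x dx) := rfl

/-- Left multiplication by a cocycle. -/
noncomputable def cupL {a b n : ℕ} {v w u : ℤ} (hs : a + b = n) (hw : v + w = u)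
    (x : Zc N a v) : H N b w →+ H N n u :=
  desc (cpHom hs x.1) (fun _ hy => isWt_cp hs hw x.2.1 hy) (fun _ dy => d_cp_eq_zero hs x.2.2 dy)
    fun _ hy => cp_mem_right hs x.2.2 hy

theorem cupL_mk {a b n : ℕ} {v w u : ℤ} (hs : a + b = n) (hw : v + w = u) (x : Zc N a v)
    {y : Cob N b} (hy : Cob.IsWt w y) (dy : Cob.d b y = 0) : cupL hs hw x (mk y hy dy) =
      mk (cp hs x.1 y) (isWt_cp hs hw x.2.1 hy) (d_cp_eq_zero hs x.2.2 dy) := rfl

/-- The cup product on cohomology. -/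
noncomputable def cup {a b n : ℕ} {v w u : ℤ} (hs : a + b = n) (hw : v + w = u) :
    H N a v →+ H N b w →+ H N n u :=
  lift (AddMonoidHom.mk' (cupL hs hw) fun x x' => AddMonoidHom.ext fun y => by
      obtain ⟨y, hy, dy, rfl⟩ := exists_rep y
      rw [AddMonoidHom.add_apply, cupL_mk, cupL_mk, cupL_mk, mk_add]
      exact mk_congr (by rw [AddSubgroup.coe_add, cp, cp, cp, map_add, add_mul]))
    fun x hx => AddMonoidHom.ext fun y => by
      obtain ⟨y, hy, dy, rfl⟩ := exists_rep y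
      rw [AddMonoidHom.mk'_apply, cupL_mk, AddMonoidHom.zero_apply, mk_eq_zero]
      exact cp_mem_left hs hx dy

theorem cup_mk {a b n : ℕ} {v w u : ℤ} (hs : a + b = n) (hw : v + w = u) {x : Cob N a}
    {y : Cob N b} (hx : Cob.IsWt v x) (hy : Cob.IsWt w y) (dx : Cob.d a x = 0)
    (dy : Cob.d b y = 0) : cup hs hw (mk x hx dx) (mk y hy dy) =
      mk (cp hs x y) (isWt_cp hs hw hx hy) (d_cp_eq_zero hs dx dy) := rfl

theorem cup_assoc {a b c ab bc n : ℕ} {u v w uv vw r : ℤ} (h1 : a + b = ab) (h2 : ab + c = n)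
    (h3 : b + c = bc) (h4 : a + bc = n) (k1 : u + v = uv) (k2 : uv + w = r) (k3 : v + w = vw)
    (k4 : u + vw = r) (x : H N a u) (y : H N b v) (z : H N c w) :
    cup h2 k2 (cup h1 k1 x y) z = cup h4 k4 x (cup h3 k3 y z) := by
  obtain ⟨x, hx, dx, rfl⟩ := exists_rep x
  obtain ⟨y, hy, dy, rfl⟩ := exists_rep y
  obtain ⟨z, hz, dz, rfl⟩ := exists_rep z
  rw [cup_mk, cup_mk, cup_mk, cup_mk]
  exact mk_congr (cp_assoc h1 h2 h3 h4 x y z)

variable (N) in
/-- The unit. -/
noncomputable def one : H N 0 0 := mk 1 Cob.isWt_one (by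
  rw [d_eq, Finset.sum_range_succ, Finset.sum_range_one, map_one, map_one]
  simp)

theorem cup_one (hs : s + 0 = s) (hw : w + 0 = w) (x : H N s w) : cup hs hw x (one N) = x := by
  obtain ⟨x, hx, dx, rfl⟩ := exists_rep x
  rw [one, cup_mk]
  exact mk_congr (cp_one hs x)

theorem one_cup (hs : 0 + s = s) (hw : 0 + w = w) (x : H N s w) : cup hs hw (one N) x = x := by
  obtain ⟨x, hx, dx, rfl⟩ := exists_rep x
  rw [one, cup_mk]
  exact mk_congr (one_cp hs x)

/-- Classes of degree one commute with everything up to sign. -/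
theorem cup_comm_one {n : ℕ} {v u : ℤ} (h1 : 1 + s = n) (h2 : s + 1 = n) (k1 : v + w = u)
    (k2 : w + v = u) (x : H N 1 v) (z : H N s w) :
    cup h1 k1 x z = (-1 : ℤ) ^ s • cup h2 k2 z x := by
  obtain ⟨x, hx, dx, rfl⟩ := exists_rep x
  obtain ⟨z, hz, dz, rfl⟩ := exists_rep z
  rw [cup_mk, cup_mk, mk_zsmul, mk_eq_mk, d_edge_mul h1 h2 dx dz, sub_sub_cancel_left]
  subst h2
  exact neg_mem (d_mem_Bc _)

/-- Classes of degree zero are central. -/
theorem cup_comm_zero {v u : ℤ} (h1 : 0 + s = s) (h2 : s + 0 = s) (k1 : v + w = u)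
    (k2 : w + v = u) (x : H N 0 v) (z : H N s w) : cup h1 k1 x z = cup h2 k2 z x := by
  obtain ⟨x, hx, dx, rfl⟩ := exists_rep x
  obtain ⟨z, hz, dz, rfl⟩ := exists_rep z
  rw [cup_mk, cup_mk]
  refine mk_congr ?_
  have h := mp_d (n := s) (fun l => if l = 0 then 0 else s) x
  rw [dx, map_zero, Finset.sum_range_succ, Finset.sum_range_one, pow_zero, one_smul, pow_one,
    neg_smul, one_smul, eq_add_neg_iff_add_eq, zero_add] at h
  rw [cp, cp, mul_comm, mp_congr (g := fun i => i) (fun i _ => zero_add i)]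
  congr 1
  refine (mp_congr (fun i hi => ?_) x).trans (h.trans (mp_congr (fun i hi => ?_) x))
  · obtain rfl : i = 0 := by omega
    rfl
  · obtain rfl : i = 0 := by omega
    rfl

/-- Functoriality. -/
noncomputable def map {M : Type} [CommRing M] [LawRing M] {φ : N →+* M} (hφ : IsLawHom φ)
    (s : ℕ) (w : ℤ) : H N s w →+ H M s w :=
  desc (Cob.mapRing φ s).toAddMonoidHom (fun _ hx => hx.mapRing hφ)
    (fun x dx => (Cob.mapRing_d hφ x).symm.trans (by rw [dx, map_zero])) fun x hx => by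
      cases s with
      | zero => rw [mem_Bc_zero.1 hx, map_zero]; exact zero_mem _
      | succ s =>
        obtain ⟨y, rfl⟩ := hx
        exact ⟨Cob.mapRing φ s y, (Cob.mapRing_d hφ y).symm⟩

theorem map_mk {M : Type} [CommRing M] [LawRing M] {φ : N →+* M} (hφ : IsLawHom φ)
    {x : Cob N s} (hx : Cob.IsWt w x) (dx : Cob.d s x = 0) :
    map hφ s w (mk x hx dx) = mk (Cob.mapRing φ s x) (hx.mapRing hφ)
      (by rw [← Cob.mapRing_d hφ, dx, map_zero]) := rfl

end H

end Vale.Agent.P236T
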