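import Vale.Agent.P236T.Geo

/-!
# P236T: the multiplication commutes with the maps of the tower
-/

open CategoryTheory MonoidalCategory Limits Pretriangulated MonObj

set_option linter.unusedSectionVars false

universe v u

namespace Vale.Agent.P236T

open Vale.Agent.P251 Vale.Agent.P251.T Vale.Agent.P251.M Vale.Agent.P251.F Vale.Agent.P251.I
  Vale.Agent.P257 Vale.Agent.P257.H820
open Vale.Agent.P251.S hiding IC

variable {T : Type u} [Category.{v} T] [Preadditive T] [HasZeroObject T] [HasShift T ℤ]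
  [∀ n : ℤ, (shiftFunctor T n).Additive] [Pretriangulated T] [MonoidalCategory T]
  [SymmetricCategory T] [TensorTriangulated T]

namespace Mu

variable {R : T} [MonObj R] (U : UnitCof R)

/-- The multiplication by `x` on the stages commutes with the connecting maps. -/
theorem xi_bd {a s t : ℕ} (m : ℕ) {Y Z : T} (x : Y⟦2 * (m : ℤ)⟧ ⟶ U.cobar.B a Z) (hs : s + a = t)
    (hs' : s + 1 + a = t + 1) :
    (U.κB (2 * (m : ℤ)) (s + 1) Y ≫ U.cobar.Bm (s + 1) x ≫ (eB U hs' Z).hom) ≫ U.bd t Z =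
      (U.bd s Y)⟦2 * (m : ℤ)⟧' ≫
        (shiftFunctorComm T (1 : ℤ) (2 * (m : ℤ))).hom.app (U.cobar.B s Y) ≫
          (U.κB (2 * (m : ℤ)) s Y ≫ U.cobar.Bm s x ≫ (eB U hs Z).hom)⟦(1 : ℤ)⟧' := by
  rw [Category.assoc, Category.assoc, eB_bd U hs hs', U.bd_naturality_assoc,
    reassoc_of% U.κB_bd m s Y, Functor.map_comp, Functor.map_comp]

end Mu

variable [HasCoproducts.{0} T] {D : MUData T} (G : Geo D)

/-- The multiplication by `x : M⟦k⟧ ⟶ B a M`, `k` even, commutes with the maps of the tower. -/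
theorem Geo.i_mu {a : ℕ} {k e : ℤ} (he : e + a = k) (hk : ∃ n : ℕ, k = 2 * (n : ℤ))
    (x : G.M⟦k⟧ ⟶ G.U.cobar.B a G.M) {s t : ℕ} {n n' : ℤ} (hs : s + a = t) (hn : n + e = n')
    (y : G.C.D (s + 1) n) :
    G.C.i t n' (G.mu he x (show s + 1 + a = t + 1 by omega) hn y) =
      G.mu he x hs hn (G.C.i s n y) := by
  obtain ⟨m, rfl⟩ := hk
  have h1 : n + (s : ℤ) + 1 = n + ((s + 1 : ℕ) : ℤ) := by push_cast; ring
  have h2 : n + ((s + 1 : ℕ) : ℤ) + 2 * (m : ℤ) = n' + ((t + 1 : ℕ) : ℤ) := by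
    subst hs hn; push_cast; omega
  have h3 : n + (s : ℤ) + 2 * (m : ℤ) = n' + (t : ℤ) := by subst hs hn; push_cast; omega
  have h4 : n' + (t : ℤ) + 1 = n' + ((t + 1 : ℕ) : ℤ) := by push_cast; ring
  apply (G.eD (rfl : n' + (t : ℤ) = _)).injective
  apply (sh (n' + (t : ℤ)) 1 _ h4).injective
  have key := sh_sh_comm (P := 𝟙_ T) (n + (s : ℤ)) 1 (2 * (m : ℤ)) _ _ _ h1 h2 h3 h4
    (G.eD rfl (G.C.i s n y))
  rw [G.eD_i rfl rfl h1, sh_comp, Category.assoc] at key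
  rw [G.eD_i rfl rfl h4, G.eD_mu he x _ hn rfl rfl h2, G.eD_mu he x hs hn rfl rfl h3,
    Category.assoc, Mu.xi_bd G.U m x hs, sh_comp, ← key]
  simp only [Category.assoc]

end Vale.Agent.P236T
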