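import Vale.Agent.P236T.Ops
import Vale.Agent.P236T.Mu

/-!
# P236T: the filtration shift of a product is the action of the stable stem
-/

open CategoryTheory MonoidalCategory Limits Pretriangulated MonObj

set_option linter.unusedSectionVars false

universe v u

namespace Vale.Agent.P236T

open Vale.Agent.P251 Vale.Agent.P251.T Vale.Agent.P251.M Vale.Agent.P251.F Vale.Agent.P251.I
  Vale.Agent.P257 Vale.Agent.P257.H820
open Vale.Agent.P251.S hiding IC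

variable {T : Type u} [Category.{v} T] [Preadditive T] [HasZeroObject T] [HasShift T ℤ]
  [∀ n : ℤ, (shiftFunctor T n).Additive] [Pretriangulated T] [MonoidalCategory T]
  [SymmetricCategory T] [TensorTriangulated T]

namespace Act

theorem signProp_nat (n : ℕ) : SignProp T n ((-1) ^ n) := by
  induction n with
  | zero => exact signProp_zero
  | succ n ih =>
    rw [pow_succ, Nat.cast_succ]
    exact ih.add signProp_one

theorem tensorSph_hom (n : ℤ) (Y : T) :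
    (tensorSph n Y).hom = (csh Y n (𝟙_ T)).hom ≫ ((ρ_ Y).hom)⟦n⟧' := rfl

theorem sphTensor_hom (n : ℤ) (Y : T) :
    (sphTensor n Y).hom = (β_ ((𝟙_ T)⟦n⟧) Y).hom ≫ (tensorSph n Y).hom := by
  have h : (csh Y n (𝟙_ T)).hom ≫ ((β_ Y (𝟙_ T)).hom)⟦n⟧' = (β_ Y ((𝟙_ T)⟦n⟧)).hom ≫
      ((tensorRight Y).commShiftIso n).hom.app (𝟙_ T) :=
    NatTrans.shift_app_comm (BraidedCategory.tensorLeftIsoTensorRight Y).hom n (𝟙_ T)
  rw [tensorSph_hom, ← braiding_leftUnitor, Functor.map_comp, reassoc_of% h,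
    SymmetricCategory.symmetry_assoc]
  rfl

theorem tz_eq {e : ℤ} (g : (𝟙_ T)⟦e⟧ ⟶ 𝟙_ T) (N : T) :
    tz g N = (tensorSph e N).inv ≫ (N ◁ g) ≫ (ρ_ N).hom := by
  rw [tz, Iso.inv_comp_eq, sphTensor_hom, Category.assoc, Iso.hom_inv_id_assoc,
    ← BraidedCategory.braiding_naturality_left_assoc, braiding_rightUnitor]

theorem csh_tz {e : ℤ} (g : (𝟙_ T)⟦e⟧ ⟶ 𝟙_ T) (X A : T) :
    (csh X e A).inv ≫ (X ◁ tz g A) = tz g (X ⊗ A) := by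
  have h : (tensorSph e (X ⊗ A)).hom = (α_ X A ((𝟙_ T)⟦e⟧)).hom ≫
      (X ◁ (tensorSph e A).hom) ≫ (csh X e A).hom := by
    rw [tensorSph_hom, tensorSph_hom, MonoidalCategory.whiskerLeft_comp, Category.assoc, csh_nat,
      ← csh_associator_assoc, ← Functor.map_comp]
    simp
  rw [tz_eq, tz_eq, Iso.eq_inv_comp, h]
  simp only [Category.assoc, Iso.hom_inv_id_assoc, ← MonoidalCategory.whiskerLeft_comp]
  simp

instance isIso_sOne (Y : T) : IsIso (sOne Y) := by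
  rw [sOne]; infer_instance

theorem tz_shift {e ε : ℤ} (h : SignProp T e ε) (g : (𝟙_ T)⟦e⟧ ⟶ 𝟙_ T) (N : T) :
    (shiftFunctorComm T (1 : ℤ) e).hom.app N ≫ (tz g N)⟦(1 : ℤ)⟧' = ε • tz g (N⟦(1 : ℤ)⟧) := by
  have h1 : (csh ((𝟙_ T)⟦(1 : ℤ)⟧) e N).hom ≫ (sOne N)⟦e⟧' ≫
    (shiftFunctorComm T (1 : ℤ) e).hom.app N = ε • sOne (N⟦e⟧) := h N
  rw [← cancel_epi ((sOne N)⟦e⟧'), ← cancel_epi (csh ((𝟙_ T)⟦(1 : ℤ)⟧) e N).hom, reassoc_of% h1,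
    Preadditive.comp_zsmul, Preadditive.comp_zsmul, tz_nat, ← csh_tz, Category.assoc,
    Iso.hom_inv_id_assoc, sOne_nat, Preadditive.zsmul_comp]

theorem csh_add (X Z : T) {e k : ℤ} (h : e + 1 = k) :
    (X ◁ (shiftFunctorAdd' T e 1 k h).hom.app Z) ≫ (csh X 1 (Z⟦e⟧)).hom ≫
      ((csh X e Z).hom)⟦(1 : ℤ)⟧' =
      (csh X k Z).hom ≫ (shiftFunctorAdd' T e 1 k h).hom.app (X ⊗ Z) := by
  rw [← cancel_epi (X ◁ (shiftFunctorAdd' T e 1 k h).inv.app Z),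
    ← MonoidalCategory.whiskerLeft_comp_assoc, Iso.inv_hom_id_app,
    MonoidalCategory.whiskerLeft_id, Category.id_comp, reassoc_of% csh_inv_add X Z e k h,
    Iso.inv_hom_id_app]
  exact congrArg _ (Category.comp_id _).symm

theorem sh_add {P Y : T} {t e k m m' : ℤ} (h : e + 1 = k) (h1 : t + e = m) (h2 : m + 1 = m')
    (h3 : t + k = m') (y : P⟦t⟧ ⟶ Y) :
    sh t k m' h3 y ≫ (shiftFunctorAdd' T e 1 k h).hom.app Y = sh m 1 m' h2 (sh t e m h1 y) := by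
  have e1 := shiftFunctorAdd'_assoc_hom_app (C := T) t e 1 m k m' h1 h (by rw [h1, h2]) P
  simp only [sh, AddEquiv.coe_mk, Equiv.coe_fn_mk, Functor.map_comp, Category.assoc]
  have e2 : y⟦k⟧' ≫ (shiftFunctorAdd' T e 1 k h).hom.app Y =
      (shiftFunctorAdd' T e 1 k h).hom.app (P⟦t⟧) ≫ (y⟦e⟧')⟦(1 : ℤ)⟧' :=
    (shiftFunctorAdd' T e 1 k h).hom.naturality y
  rw [e2, ← reassoc_of% e1]

theorem sphTensor_sh {e k : ℤ} (h : e + 1 = k) {Z : T} (x : (𝟙_ T)⟦e⟧ ⟶ Z) (M : T) :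
    (sphTensor k M).inv ≫ (sh e 1 k h x ▷ M) ≫ (shR Z M).hom =
      (shiftFunctorAdd' T e 1 k h).hom.app M ≫ ((sphTensor e M).inv ≫ (x ▷ M))⟦(1 : ℤ)⟧' := by
  have h1 : ((shiftFunctorAdd' T e 1 k h).hom.app (𝟙_ T) ▷ M) ≫ (shR ((𝟙_ T)⟦e⟧) M).hom ≫
      ((sphTensor e M).hom)⟦(1 : ℤ)⟧' =
      (sphTensor k M).hom ≫ (shiftFunctorAdd' T e 1 k h).hom.app M := by
    have h2 : ((ρ_ M).hom)⟦k⟧' ≫ (shiftFunctorAdd' T e 1 k h).hom.app M =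
        (shiftFunctorAdd' T e 1 k h).hom.app (M ⊗ 𝟙_ T) ≫ (((ρ_ M).hom)⟦e⟧')⟦(1 : ℤ)⟧' :=
      (shiftFunctorAdd' T e 1 k h).hom.naturality _
    rw [sphTensor_hom, sphTensor_hom, shR_hom, tensorSph_hom, tensorSph_hom]
    simp only [Category.assoc]
    rw [h2, ← Functor.map_comp, SymmetricCategory.symmetry_assoc, Functor.map_comp,
      ← reassoc_of% csh_add M (𝟙_ T) h]
    exact BraidedCategory.braiding_naturality_left_assoc _ _ _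
  rw [Iso.inv_comp_eq, ← reassoc_of% h1, ← Functor.map_comp, Iso.hom_inv_id_assoc, ← shR_nat_left,
    ← comp_whiskerRight_assoc]
  rfl

variable {R : T} [MonObj R] (U : UnitCof R)

instance isIso_Bm (s : ℕ) {X Y : T} (f : X ⟶ Y) [IsIso f] : IsIso (U.cobar.Bm s f) :=
  (BmI U s (asIso f)).isIso_hom

instance isIso_κB (k : ℤ) (s : ℕ) (Y : T) : IsIso (U.κB k s Y) := by
  induction s generalizing Y with
  | zero => exact IsIso.id _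
  | succ s ih => rw [UnitCof.κB_succ]; exact IsIso.comp_isIso' (ih _) inferInstance

instance isIso_mvB (X : T) (s : ℕ) (Y : T) : IsIso (mvB U X s Y) := by
  induction s generalizing Y with
  | zero => exact IsIso.id _
  | succ s ih =>
    have : IsIso (sw U.J X Y) := ⟨_, sw_sw _ _ _, sw_sw _ _ _⟩
    rw [mvB_succ]; exact IsIso.comp_isIso' inferInstance (ih _)

theorem Bm_neg (s : ℕ) {X Y : T} (f : X ⟶ Y) : U.cobar.Bm s (-f) = -U.cobar.Bm s f := by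
  rw [eq_neg_iff_add_eq_zero, ← CobarData.Bm_add, neg_add_cancel, CobarData.Bm_zero']

theorem κB_tz {e : ℤ} (g : (𝟙_ T)⟦e⟧ ⟶ 𝟙_ T) (s : ℕ) (A : T) :
    U.κB e s A ≫ U.cobar.Bm s (tz g A) = tz g (U.cobar.B s A) := by
  induction s generalizing A with
  | zero => exact Category.id_comp _
  | succ s ih =>
    rw [UnitCof.κB_succ, CobarData.Bm_succ, Category.assoc, ← CobarData.Bm_comp, csh_tz]
    exact ih (U.J ⊗ A)

theorem κB_add {e k : ℤ} (h : e + 1 = k) (s : ℕ) (Y : T) :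
    U.κB k s Y ≫ U.cobar.Bm s ((shiftFunctorAdd' T e 1 k h).hom.app Y) =
      (shiftFunctorAdd' T e 1 k h).hom.app (U.cobar.B s Y) ≫ (U.κB e s Y)⟦(1 : ℤ)⟧' ≫
        U.κB 1 s (Y⟦e⟧) := by
  induction s generalizing Y with
  | zero =>
    have h1 : (U.κB e 0 Y)⟦(1 : ℤ)⟧' = 𝟙 _ := CategoryTheory.Functor.map_id _ _
    rw [h1]
    exact (Category.id_comp _).trans
      ((congrArg _ (Category.id_comp _)).trans (Category.comp_id _)).symm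
  | succ s ih =>
    have h1 : (csh U.J k Y).inv ≫ (U.J ◁ (shiftFunctorAdd' T e 1 k h).hom.app Y) =
        (shiftFunctorAdd' T e 1 k h).hom.app (U.J ⊗ Y) ≫ ((csh U.J e Y).inv)⟦(1 : ℤ)⟧' ≫
          (csh U.J 1 (Y⟦e⟧)).inv := by
      rw [Iso.inv_comp_eq, ← reassoc_of% csh_add U.J Y h, ← Functor.map_comp_assoc,
        Iso.hom_inv_id, CategoryTheory.Functor.map_id, Category.id_comp, Iso.hom_inv_id]
      exact (Category.comp_id _).symm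
    have h2 := U.κB_nat 1 s (csh U.J e Y).inv
    rw [UnitCof.κB_succ, UnitCof.κB_succ, UnitCof.κB_succ, CobarData.Bm_succ, Category.assoc,
      ← CobarData.Bm_comp, h1, CobarData.Bm_comp, CobarData.Bm_comp, reassoc_of% ih (U.J ⊗ Y),
      ← reassoc_of% h2, Functor.map_comp, Category.assoc]

theorem csh_bdry (Y : T) :
    (csh U.J 1 Y).inv ≫ U.bdry (Y⟦(1 : ℤ)⟧) = -(U.bdry Y)⟦(1 : ℤ)⟧' := by
  have h : (csh ((𝟙_ T)⟦(1 : ℤ)⟧) 1 Y).hom ≫ (sOne Y)⟦(1 : ℤ)⟧' ≫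
    (shiftFunctorComm T (1 : ℤ) 1).hom.app Y = (-1 : ℤ) • sOne (Y⟦(1 : ℤ)⟧) := signProp_one Y
  rw [shiftFunctorComm_eq_refl, neg_one_zsmul] at h
  rw [Iso.inv_comp_eq, UnitCof.bdry_eq, UnitCof.bdry_eq, Functor.map_comp, Preadditive.comp_neg,
    csh_tlMap_assoc, ← Preadditive.comp_neg, ← neg_eq_iff_eq_neg.2 h, Iso.refl_hom,
    NatTrans.id_app]
  exact congrArg (fun x => _ ≫ (-(_ ≫ x))) (Category.comp_id _)

theorem κB_bd_one (s : ℕ) (Y : T) :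
    U.κB 1 (s + 1) Y ≫ U.bd s (Y⟦(1 : ℤ)⟧) =
      -(U.bd s Y)⟦(1 : ℤ)⟧' ≫ (U.κB 1 s Y)⟦(1 : ℤ)⟧' := by
  induction s generalizing Y with
  | zero =>
    have h0 : U.κB 1 1 Y = (csh U.J 1 Y).inv := Category.id_comp _
    have h1 : (U.κB 1 0 Y)⟦(1 : ℤ)⟧' = 𝟙 _ := CategoryTheory.Functor.map_id _ _
    rw [h0, h1]
    exact (csh_bdry U Y).trans (congrArg _ (Category.comp_id _).symm)
  | succ s ih =>
    have h1 := U.bd_naturality s (csh U.J 1 Y).inv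
    have h2 : U.κB 1 (s + 1 + 1) Y = U.κB 1 (s + 1) (U.J ⊗ Y) ≫
      U.cobar.Bm (s + 1) (csh U.J 1 Y).inv := rfl
    have h3 : U.bd (s + 1) (Y⟦(1 : ℤ)⟧) = U.bd s (U.J ⊗ Y⟦(1 : ℤ)⟧) := rfl
    rw [h2, h3, Category.assoc, h1, reassoc_of% ih (U.J ⊗ Y), UnitCof.κB_succ, Functor.map_comp,
      Preadditive.neg_comp, Category.assoc]
    rfl

/-- The odd homotopy groups of the `E₁`-terms vanish. -/
def Ev (A : T) : Prop :=
  ∀ (p : ℕ) (t : ℤ), ¬ 2 ∣ t → ∀ f : (𝟙_ T)⟦t⟧ ⟶ R ⊗ U.cobar.B p A, f = 0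

theorem Ev.succ {A : T} (h : Ev U A) : Ev U (U.J ⊗ A) := fun p => h (p + 1)

theorem Ev.shift {A : T} (h : Ev U A) {m : ℤ} (hm : 2 ∣ m) (s : ℕ)
    (f : (𝟙_ T)⟦m⟧ ⟶ U.cobar.B s (R ⊗ A⟦(1 : ℤ)⟧)) : f = 0 := by
  have h1 := h s (m - 1) (by omega) ((sh (m - 1) 1 m (by ring)).symm
    (f ≫ mvB U R s _ ≫ (R ◁ inv (U.κB 1 s A)) ≫ (csh R 1 _).hom))
  rwa [AddEquiv.map_eq_zero_iff, Preadditive.IsIso.comp_right_eq_zero] at h1

/-- The boundary map of the outermost and of the innermost factor. -/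
theorem sym {A : T} (hA : Ev U A) {m : ℤ} (hm : 2 ∣ m) (s : ℕ)
    (w : (𝟙_ T)⟦m⟧ ⟶ U.cobar.B (s + 1) A) :
    w ≫ U.bd s A ≫ U.κB 1 s A = (-1 : ℤ) ^ s • w ≫ U.cobar.Bm s (U.bdry A) := by
  induction s generalizing A with
  | zero =>
    rw [pow_zero, one_smul]
    exact congrArg _ (Category.comp_id _)
  | succ s ih =>
    obtain ⟨Γ, hΓ⟩ : ∃ Γ : U.J ⊗ U.J ⊗ A ⟶ R ⊗ A⟦(1 : ℤ)⟧,
        U.bdry (U.J ⊗ A) ≫ (csh U.J 1 A).inv + U.J ◁ U.bdry A = Γ ≫ U.ρ ▷ A⟦(1 : ℤ)⟧ :=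
      Triangle.coyoneda_exact₃ _ (U.triangle_distinguished (A⟦(1 : ℤ)⟧)) _ (by
        change _ ≫ U.bdry _ = 0
        rw [Preadditive.add_comp, Category.assoc, csh_bdry, UnitCof.bdry_nat, Preadditive.comp_neg,
          neg_add_cancel])
    have h1 : w ≫ U.cobar.Bm s (U.bdry (U.J ⊗ A) ≫ (csh U.J 1 A).inv + U.J ◁ U.bdry A) = 0 := by
      rw [hΓ, CobarData.Bm_comp, ← Category.assoc, hA.shift U hm s (w ≫ _), zero_comp]
    rw [CobarData.Bm_add, Preadditive.comp_add, add_eq_zero_iff_eq_neg, CobarData.Bm_comp] at h1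
    have h2 := ih (hA.succ U) w
    rw [UnitCof.κB_succ, UnitCof.bd_succ, reassoc_of% h2, Preadditive.zsmul_comp, Category.assoc,
      h1, pow_succ, mul_neg_one, neg_smul, smul_neg]
    rfl

/-- The product of `y` and `z`. -/
noncomputable def pr {M A : T} {s : ℕ} {t k m : ℤ} (h : t + k = m)
    (y : (𝟙_ T)⟦t⟧ ⟶ U.cobar.B s M) (z : M⟦k⟧ ⟶ A) : (𝟙_ T)⟦m⟧ ⟶ U.cobar.B s A :=
  sh t k m h y ≫ U.κB k s M ≫ U.cobar.Bm s z

theorem pr_comp {M A A' : T} {s : ℕ} {t k m : ℤ} (h : t + k = m)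
    (y : (𝟙_ T)⟦t⟧ ⟶ U.cobar.B s M) (z : M⟦k⟧ ⟶ A) (f : A ⟶ A') :
    pr U h y z ≫ U.cobar.Bm s f = pr U h y (z ≫ f) := by
  rw [pr, pr, CobarData.Bm_comp, Category.assoc, Category.assoc]

theorem pr_tz {M : T} {s : ℕ} {t e m : ℤ} (h : t + e = m) (y : (𝟙_ T)⟦t⟧ ⟶ U.cobar.B s M)
    (g : (𝟙_ T)⟦e⟧ ⟶ 𝟙_ T) : pr U h y (tz g M) = op g _ h y := by
  rw [pr, κB_tz, op_apply]

theorem pr_add {M A : T} {s : ℕ} {t e k m m' : ℤ} (h : e + 1 = k) (h1 : t + e = m)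
    (h2 : m + 1 = m') (h3 : t + k = m') (y : (𝟙_ T)⟦t⟧ ⟶ U.cobar.B s M) (z : M⟦e⟧ ⟶ A) :
    pr U h3 y ((shiftFunctorAdd' T e 1 k h).hom.app M ≫ z⟦(1 : ℤ)⟧') =
      sh m 1 m' h2 (pr U h1 y z) ≫ U.κB 1 s A := by
  rw [pr, pr, CobarData.Bm_comp, reassoc_of% κB_add U h s M, ← UnitCof.κB_nat,
    reassoc_of% sh_add h h1 h2 h3 y, sh_comp, Functor.map_comp, Category.assoc, Category.assoc]

theorem pr_bd {M A : T} (hA : Ev U A) {s : ℕ} {t e k m m' : ℤ} (h : e + 1 = k) (h1 : t + e = m)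
    (h2 : m + 1 = m') (h3 : t + k = m') (hm : 2 ∣ m') (y : (𝟙_ T)⟦t⟧ ⟶ U.cobar.B s M)
    {z : M⟦k⟧ ⟶ U.J ⊗ A} {z' : M⟦e⟧ ⟶ A}
    (hz : z ≫ U.bdry A = (shiftFunctorAdd' T e 1 k h).hom.app M ≫ z'⟦(1 : ℤ)⟧') :
    pr U h3 y z ≫ U.bd s A = (-1 : ℤ) ^ s • sh m 1 m' h2 (pr U h1 y z') := by
  rw [← cancel_mono (U.κB 1 s A), Category.assoc, sym U hA hm, pr_comp, hz, pr_add U h h1 h2,
    Preadditive.zsmul_comp]

theorem pr_bd_bd {M A : T} (hA : Ev U A) {s : ℕ} {t e j k m m' m'' : ℤ} (h : e + 1 = j)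
    (h' : j + 1 = k) (h1 : t + e = m) (h2 : m + 1 = m') (h3 : m' + 1 = m'') (h4 : t + k = m'')
    (hm : 2 ∣ m'') (y : (𝟙_ T)⟦t⟧ ⟶ U.cobar.B s M)
    {z : M⟦k⟧ ⟶ U.J ⊗ U.J ⊗ A} {z' : M⟦j⟧ ⟶ U.J ⊗ A} {z'' : M⟦e⟧ ⟶ A}
    (hz : z ≫ U.bdry (U.J ⊗ A) = (shiftFunctorAdd' T j 1 k h').hom.app M ≫ z'⟦(1 : ℤ)⟧')
    (hz' : z' ≫ U.bdry A = (shiftFunctorAdd' T e 1 j h).hom.app M ≫ z''⟦(1 : ℤ)⟧') :
    pr U (s := s) h4 y z ≫ U.bd (s + 1) A ≫ (U.bd s A)⟦(1 : ℤ)⟧' =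
      sh m' 1 m'' h3 (sh m 1 m' h2 (pr U h1 y z'')) := by
  have e1 := sym U hA hm (s + 1) (pr U (s := s) h4 y z)
  have e2 := pr_bd U (hA.succ U) h' (show t + j = m' by omega) h3 h4 hm y hz
  have e3 : U.cobar.Bm (s + 1) (U.bdry A) ≫ U.bd s (A⟦(1 : ℤ)⟧) =
    U.bd s (U.J ⊗ A) ≫ (U.cobar.Bm s (U.bdry A))⟦(1 : ℤ)⟧' := U.bd_naturality s _
  rw [← cancel_mono ((U.κB 1 s A)⟦(1 : ℤ)⟧'), Category.assoc, Category.assoc,
    ← neg_eq_iff_eq_neg.2 (κB_bd_one U s A), Preadditive.comp_neg, Preadditive.comp_neg,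
    reassoc_of% e1, Preadditive.zsmul_comp, Category.assoc, e3, reassoc_of% e2,
    Preadditive.zsmul_comp, smul_smul, ← pow_add, ← sh_comp, ← sh_comp, pr_comp, hz',
    pr_add U h h1 h2, show s + 1 + s = 2 * s + 1 by ring, pow_succ, pow_mul]
  simp

end Act

open Act

variable [HasCoproducts.{0} T] {D : MUData T} (G : Geo D)

namespace Act

theorem ev_M : Ev G.U G.M := fun _ _ h f => G.odd_W h f

theorem xM_bd {a : ℕ} {e k : ℤ} (h : e + 1 = k) {x : (𝟙_ T)⟦k⟧ ⟶ G.U.cobar.B (a + 1) (𝟙_ T)}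
    {x' : (𝟙_ T)⟦e⟧ ⟶ G.U.cobar.B a (𝟙_ T)} (hx : sh e 1 k h x' = x ≫ G.U.bd a (𝟙_ T)) :
    G.xM x ≫ G.U.bd a G.M =
      (shiftFunctorAdd' T e 1 k h).hom.app G.M ≫ (G.xM x')⟦(1 : ℤ)⟧' := by
  have h1 := wV_c G.U G.M a (𝟙_ T)
  have h2 := sphTensor_sh h x' G.M
  rw [Category.assoc] at h1
  rw [Geo.xM, Geo.xM, Category.assoc, Category.assoc, Category.assoc, UnitCof.bd_naturality,
    ← reassoc_of% h1, ← comp_whiskerRight_assoc, ← hx, reassoc_of% h2]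
  simp only [Functor.map_comp, Category.assoc]

theorem xM_zero {e : ℤ} (g : (𝟙_ T)⟦e⟧ ⟶ 𝟙_ T) : G.xM (a := 0) g = tz g G.M :=
  congrArg _ (congrArg _ (Category.id_comp _))

theorem proj_mu {a : ℕ} {k e : ℤ} (he : e + a = k) (x : G.M⟦k⟧ ⟶ G.U.cobar.B a G.M) {s t : ℕ}
    {n n' : ℤ} (hs : s + a = t) (hn : n + e = n') (h : s ≤ t) (y : G.C.D s n) :
    G.C.proj n' h (G.mu he x hs hn y) =
      G.C.proj n' (Nat.le_add_right s a) (G.mu he x rfl hn y) := by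
  subst hs
  rfl

theorem act_of_even {a : ℕ} {k e : ℤ} (he : e + a = k) (hk : ∃ n : ℕ, k = 2 * (n : ℤ))
    (he0 : 0 ≤ e) {x : (𝟙_ T)⟦k⟧ ⟶ G.U.cobar.B a (𝟙_ T)} {g : (𝟙_ T)⟦e⟧ ⟶ 𝟙_ T}
    (h : ∀ {s : ℕ} {n n' : ℤ} (hn : n + e = n'), 2 ∣ n + s → ∃ p : ℕ, ∀ y : G.C.D s n,
      G.eD rfl (G.C.proj n' (Nat.le_add_right s a) (G.mu he (G.xM x) rfl hn y)) = (-1 : ℤ) ^ p •
        op g (G.U.cobar.B s G.M) (show n + s + e = n' + s by omega) (G.eD rfl y)) :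
    G.Act he x g := by
  intro s n n' hn
  by_cases hs : 2 ∣ n + s
  · obtain ⟨p, hp⟩ := h hn hs
    exact ⟨_, neg_one_pow_eq_or ℤ p, hp⟩
  obtain ⟨p, hp⟩ := h (s := s + 1) hn (by push_cast; omega)
  obtain ⟨q, rfl⟩ := Int.eq_ofNat_of_zero_le he0
  refine ⟨_, neg_one_pow_eq_or ℤ (p + q), fun y => ?_⟩
  obtain ⟨y, rfl⟩ := G.C.exact_j s n y ((G.eE rfl).injective
    ((G.odd_W hs _).trans (map_zero _).symm))
  have h1 : n + (s : ℤ) + 1 = n + ((s + 1 : ℕ) : ℤ) := by push_cast; ring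
  have h2 : n' + (s : ℤ) + 1 = n' + ((s + 1 : ℕ) : ℤ) := by push_cast; ring
  rw [← G.i_mu he hk, ← Couple.proj_succ, ← Couple.i_proj _ _ (by omega), proj_mu]
  apply (sh _ 1 _ h2).injective
  rw [G.eD_i rfl rfl, hp, map_zsmul, op_apply, op_apply, sh_comp,
    ← sh_sh_comm _ 1 q _ _ _ h1 (by push_cast; omega), G.eD_i rfl rfl, sh_comp, Category.assoc,
    Category.assoc, tz_shift (signProp_nat q), Preadditive.zsmul_comp, Category.assoc,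
    Preadditive.comp_zsmul, Preadditive.comp_zsmul, tz_nat, smul_smul, ← pow_add, add_assoc p,
    ← two_mul, pow_add, pow_mul]
  simp

end Act

/-- The filtration shift of the product with an element of filtration one. -/
theorem Geo.act_one {k e : ℤ} (he : e + ((1 : ℕ) : ℤ) = k) (h : e + 1 = k)
    (hk : ∃ n : ℕ, k = 2 * (n : ℤ)) (he0 : 0 ≤ e) (x : (𝟙_ T)⟦k⟧ ⟶ G.U.cobar.B 1 (𝟙_ T)) :
    G.Act he x (hat₁ G.U h x) := by
  refine act_of_even G he hk he0 fun {s n n'} hn hs => ⟨s, fun y => ?_⟩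
  have h2 : n' + (s : ℤ) + 1 = n' + ((s + 1 : ℕ) : ℤ) := by push_cast; ring
  have h3 : n + (s : ℤ) + k = n' + ((s + 1 : ℕ) : ℤ) := by push_cast; omega
  rw [G.C.proj_succ n' le_rfl, Couple.proj_self]
  apply (sh _ 1 _ h2).injective
  rw [G.eD_i rfl rfl, G.eD_mu he _ rfl hn rfl rfl h3, map_zsmul, ← pr_tz, ← xM_zero]
  refine Eq.trans ?_ (pr_bd G.U (ev_M G) h _ h2 h3 (by omega) _
    (xM_bd G (a := 0) h (AddEquiv.apply_symm_apply _ _)))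
  exact congrArg (fun z => (_ ≫ _ ≫ z) ≫ _) (Category.comp_id _)

/-- The filtration shift of the product with an element of filtration two. -/
theorem Geo.act_two {k e : ℤ} (he : e + ((2 : ℕ) : ℤ) = k) (h : e + 1 + 1 = k)
    (hk : ∃ n : ℕ, k = 2 * (n : ℤ)) (he0 : 0 ≤ e) (x : (𝟙_ T)⟦k⟧ ⟶ G.U.cobar.B 2 (𝟙_ T)) :
    G.Act he x (hat₂ G.U h x) := by
  refine act_of_even G he hk he0 fun {s n n'} hn hs => ⟨0, fun y => ?_⟩
  have h1 : n' + (s : ℤ) + 1 = n' + ((s + 1 : ℕ) : ℤ) := by push_cast; ring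
  have h2 : n' + ((s + 1 : ℕ) : ℤ) + 1 = n' + ((s + 1 + 1 : ℕ) : ℤ) := by push_cast; ring
  have h3 : n + (s : ℤ) + k = n' + ((s + 1 + 1 : ℕ) : ℤ) := by push_cast; omega
  rw [G.C.proj_succ n' (Nat.le_succ s), G.C.proj_succ n' le_rfl, Couple.proj_self, pow_zero,
    one_smul]
  apply (sh _ 1 _ h1).injective
  apply (sh _ 1 _ h2).injective
  rw [G.eD_i rfl rfl, sh_comp, G.eD_i rfl rfl, G.eD_mu he _ rfl hn rfl rfl h3, ← pr_tz, ← xM_zero,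
    Category.assoc]
  refine Eq.trans ?_ (pr_bd_bd G.U (ev_M G) rfl h _ h1 h2 h3 (by omega) _
    (xM_bd G (a := 1) h (AddEquiv.apply_symm_apply _ _))
    (xM_bd G (a := 0) rfl ((AddEquiv.apply_symm_apply _ _).trans
      (by rw [sh_symm_comp, Category.assoc]))))
  exact congrArg (fun z => (_ ≫ _ ≫ z) ≫ _) (Category.comp_id _)

end Vale.Agent.P236T
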