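import Vale.Agent.P236T.Top

/-!
# P236T: the differential `d₅` of an exact couple

`Cls.jc`, `Cls.kc`: the maps `j`, `k` of the derived couple; `Cls.dl`: the differential `d₅`;
`Top.delta`: it has the properties listed in `Delta`.
-/

universe u v

namespace Vale.Agent.P236T

open Vale.Agent.P251 Vale.Agent.P251.F Vale.Agent.P251.I Vale.Agent.P257.H314
open Vale.Agent.P251.S hiding IC
open Vale.Agent.P257.H712

variable {C : Couple.{u, v}} {s t : ℕ} {w u n m : ℤ}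

/-! ### cocycles modulo three -/

theorem Cc.add {x y : Cob.wt Laz s w} (hx : Cc x) (hy : Cc y) : Cc (x + y) := by
  unfold Cc at *
  rw [AddSubgroup.coe_add, map_add]
  exact add_mem hx hy

theorem Cc.neg {x : Cob.wt Laz s w} (hx : Cc x) : Cc (-x) := by
  unfold Cc at *
  rw [AddSubgroup.coe_neg, map_neg]
  exact neg_mem hx

theorem Cc.sub {x y : Cob.wt Laz s w} (hx : Cc x) (hy : Cc y) : Cc (x - y) := by
  rw [sub_eq_add_neg]
  exact hx.add hy.neg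

theorem Cc.cpw {a b : ℕ} {v : ℤ} (h : a + b = s) (k : v + w = u) {x : Cob.wt Laz a v}
    {y : Cob.wt Laz b w} (hx : Cc x) (hy : Cc y) : Cc (cpw h k x y) := d_cp_mem h hx hy

theorem cl_add {x y : Cob.wt Laz s w} (hx : Cc x) (hy : Cc y) :
    cl (x + y).1 (x + y).2 (hx.add hy) = cl x.1 x.2 hx + cl y.1 y.2 hy := by
  unfold cl
  rw [H.mk_add]
  exact H.mk_congr (map_add _ _ _)

theorem cl_neg {x : Cob.wt Laz s w} (hx : Cc x) : cl (-x).1 (-x).2 hx.neg = -cl x.1 x.2 hx := by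
  unfold cl
  rw [H.mk_neg]
  exact H.mk_congr (map_neg _ _)

theorem cl_sub {x y : Cob.wt Laz s w} (hx : Cc x) (hy : Cc y) :
    cl (x - y).1 (x - y).2 (hx.sub hy) = cl x.1 x.2 hx - cl y.1 y.2 hy := by
  unfold cl
  rw [H.mk_sub]
  exact H.mk_congr (map_sub _ _ _)

theorem cl_eq_zero {x : Cob.wt Laz s w} (hx : Cc x) :
    cl x.1 x.2 hx = 0 ↔ rd s x.1 ∈ Bc Q3 s := H.mk_eq_zero

theorem cl_cpw {a b : ℕ} {v : ℤ} (h : a + b = s) (k : v + w = u) {x : Cob.wt Laz a v}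
    {y : Cob.wt Laz b w} (hx : Cc x) (hy : Cc y) :
    cl (cpw h k x y).1 (cpw h k x y).2 (hx.cpw h k hy) =
      H.cup h k (cl x.1 x.2 hx) (cl y.1 y.2 hy) := (cup_cl h k x.2 y.2 hx hy).symm

theorem exists_clw (a : HQ s w) : ∃ (z : Cob.wt Laz s w) (hz : Cc z), a = cl z.1 z.2 hz := by
  obtain ⟨z, hw, hd, h⟩ := exists_cl a
  exact ⟨⟨z, hw⟩, hd, h⟩

theorem eq_zero_of_neg (hw : w < 0) (a : HQ s w) : a = 0 := by
  obtain ⟨z, hz, dz, rfl⟩ := exists_cl a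
  rw [cl, H.mk_eq_zero, eq_zero_of_isWt_neg hw hz, map_zero]
  exact zero_mem _

theorem cc_v1 : Cc v1w := d_mem_of_div three_t1

theorem cc_t1 : Cc t1w := by
  change Cob.d 1 t1 ∈ _
  rw [d_t1]
  exact zero_mem _

theorem cc_b0 : Cc b0w := by
  change Cob.d 2 (bcls 3 t1) ∈ _
  rw [d_b]
  exact zero_mem _

theorem cl_v1w : cl v1w.1 v1w.2 cc_v1 = v1 := rfl

theorem cl_t1w : cl t1w.1 t1w.2 cc_t1 = h0 := rfl

theorem cl_b0w : cl b0w.1 b0w.2 cc_b0 = b0 := rfl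

theorem cup_bp_zero (h : s + 2 * 0 = s) (k : w + 6 * ((0 : ℕ) : ℤ) = w) (x : HQ s w) :
    H.cup h k x (bp 0) = x := H.cup_one h k x

theorem cup_bp_succ (K : ℕ) {r : ℕ} {q : ℤ} (h1 : s + 2 * K = t) (h2 : t + 2 = r)
    (h3 : s + 2 * (K + 1) = r) (k1 : w + 6 * (K : ℤ) = u) (k2 : u + 6 = q)
    (k3 : w + 6 * ((K + 1 : ℕ) : ℤ) = q) (x : HQ s w) :
    H.cup h2 k2 (H.cup h1 k1 x (bp K)) b0 = H.cup h3 k3 x (bp (K + 1)) :=
  H.cup_assoc h1 h2 rfl h3 k1 k2 _ k3 x (bp K) b0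

namespace Cls

variable (X : Cls C)

/-! ### the maps `jc` and `kc` -/

theorem cl_eq_zero_of_cobdy (h : n + ((s + 1 : ℕ) : ℤ) = 2 * w) {z : Cob.wt Laz (s + 1) w}
    (hz : Cc z) (hb : C.IsCobdy (X.cls h z)) : cl z.1 z.2 hz = 0 := by
  obtain ⟨y, hy⟩ := X.inj_succ h z hz hb
  rw [cl_eq_zero hz, mem_Bc_succ]
  refine ⟨rd s y, ?_⟩
  rw [← rd_eq_zero, map_sub, sub_eq_zero, rd_d] at hy
  exact hy.symm

theorem cl_eq_zero_of_cls (h : n + s = 2 * w) {z : Cob.wt Laz s w} (hz : Cc z)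
    (hb : X.cls h z = 0) : cl z.1 z.2 hz = 0 := by
  cases s with
  | zero =>
    rw [cl_eq_zero hz, mem_Bc_zero, rd_eq_zero]
    exact X.inj_zero h z hb
  | succ s => exact X.cl_eq_zero_of_cobdy h hz ⟨0, by rw [map_zero, hb]⟩

theorem cl_eq_of_cls (h : n + s = 2 * w) {z z' : Cob.wt Laz s w} (hz : Cc z) (hz' : Cc z')
    (hb : X.cls h z = X.cls h z') : cl z.1 z.2 hz = cl z'.1 z'.2 hz' := by
  rw [← sub_eq_zero, ← cl_sub hz hz']
  exact X.cl_eq_zero_of_cls h _ (by rw [map_sub, hb, sub_self])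

theorem cls_eq_zero (h : n + ((0 : ℕ) : ℤ) = 2 * w) {z : Cob.wt Laz 0 w} (hz : Cc z)
    (h0 : cl z.1 z.2 hz = 0) : X.cls h z = 0 := by
  rw [cl_eq_zero hz, mem_Bc_zero, rd_eq_zero] at h0
  exact X.cls_IC h z h0

theorem cobdy_cls (h : n + ((s + 1 : ℕ) : ℤ) = 2 * w) {z : Cob.wt Laz (s + 1) w} (hz : Cc z)
    (h0 : cl z.1 z.2 hz = 0) : C.IsCobdy (X.cls h z) := by
  rw [cl_eq_zero hz, mem_Bc_succ] at h0
  obtain ⟨y, hy⟩ := h0
  obtain ⟨y', hw', hy'⟩ := Cob.exists_isWt_of_d (isWt_rd z.2) hy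
  obtain ⟨x, hx, rfl⟩ := exists_rd hw'
  have h1 : n + 1 + s = 2 * w := by push_cast at h; omega
  refine ⟨X.cls h1 ⟨x, hx⟩, ?_⟩
  rw [X.cls_d h1 rfl h, eq_comm, ← sub_eq_zero, ← map_sub]
  refine X.cls_IC h _ (rd_eq_zero.1 ?_)
  rw [AddSubgroup.coe_sub, map_sub, ← hy', ← rd_d]
  exact sub_self _

theorem k_cls_eq_zero (h : n + s = 2 * w) (hm : n = m + 1) {z : Cob.wt Laz s w} (hz : Cc z)
    (h0 : cl z.1 z.2 hz = 0) : C.k s n m hm (X.cls h z) = 0 := by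
  cases s with
  | zero => rw [X.cls_eq_zero h hz h0, map_zero]
  | succ s => exact (X.cobdy_cls h hz h0).k_eq_zero m hm

theorem k_cls_congr (h : n + s = 2 * w) (hm : n = m + 1) {z z' : Cob.wt Laz s w} (hz : Cc z)
    (hz' : Cc z') (e : cl z.1 z.2 hz = cl z'.1 z'.2 hz') :
    C.k s n m hm (X.cls h z) = C.k s n m hm (X.cls h z') := by
  rw [← sub_eq_zero, ← map_sub, ← map_sub]
  exact X.k_cls_eq_zero h hm (hz.sub hz') (by rw [cl_sub hz hz', e, sub_self])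

theorem exists_rep (h : n + s = 2 * w) (y : C.D s n) : ∃ z, Cc z ∧ C.j s n y = X.cls h z :=
  X.surj h _ (C.isCocycle_j y)

/-- The class of `j y`. -/
noncomputable def jc (h : n + s = 2 * w) : C.D s n →+ HQ s w :=
  AddMonoidHom.mk' (fun y => cl (X.exists_rep h y).choose.1 (X.exists_rep h y).choose.2
    (X.exists_rep h y).choose_spec.1) fun y y' => by
      obtain ⟨h1, e1⟩ := (X.exists_rep h y).choose_spec
      obtain ⟨h2, e2⟩ := (X.exists_rep h y').choose_spec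
      obtain ⟨h3, e3⟩ := (X.exists_rep h (y + y')).choose_spec
      refine (X.cl_eq_of_cls h h3 (h1.add h2) ?_).trans (cl_add h1 h2)
      rw [← e3, map_add (X.cls h), ← e1, ← e2, map_add]

theorem jc_eq (h : n + s = 2 * w) {y : C.D s n} {z : Cob.wt Laz s w}
    (e : C.j s n y = X.cls h z) (hz : Cc z) : X.jc h y = cl z.1 z.2 hz :=
  X.cl_eq_of_cls h (X.exists_rep h y).choose_spec.1 hz
    ((X.exists_rep h y).choose_spec.2.symm.trans e)

theorem jc_k (h : m + ((s + 1 : ℕ) : ℤ) = 2 * w) (hm : n = m + 1) (e : C.E s n) :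
    X.jc h (C.k s n m hm e) = 0 := by
  subst hm
  obtain ⟨z, hz, hj⟩ := X.exists_rep h (C.k s _ m rfl e)
  rw [X.jc_eq h hj hz]
  exact X.cl_eq_zero_of_cobdy h hz ⟨e, hj⟩

theorem jc_i (h : n + s = 2 * w) (y : C.D (s + 1) n) : X.jc h (C.i s n y) = 0 := by
  obtain ⟨z, hz, hj⟩ := X.exists_rep h (C.i s n y)
  rw [X.jc_eq h hj hz]
  exact X.cl_eq_zero_of_cls h hz (hj.symm.trans (C.j_i _ _ _))

theorem jc_of_i (h : m + ((s + 1 : ℕ) : ℤ) = 2 * w) {y : C.D (s + 1) m} (hy : C.i s m y = 0) :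
    X.jc h y = 0 := by
  obtain ⟨e, rfl⟩ := C.exact_i s (m + 1) m rfl y hy
  exact X.jc_k h rfl e

theorem exists_i_add_k (h : n + ((s + 1 : ℕ) : ℤ) = 2 * w) {y : C.D (s + 1) n}
    (hy : X.jc h y = 0) : ∃ (y₁ : C.D (s + 1 + 1) n) (e : C.E s (n + 1)),
      y = C.i (s + 1) n y₁ + C.k s (n + 1) n rfl e := by
  obtain ⟨z, hz, hj⟩ := X.exists_rep h y
  obtain ⟨e, he⟩ := X.cobdy_cls h hz ((X.jc_eq h hj hz).symm.trans hy)
  obtain ⟨y₁, h₁⟩ := C.exact_j _ _ (y - C.k s (n + 1) n rfl e)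
    (by rw [map_sub, hj, ← he, C.d_apply, sub_self])
  exact ⟨y₁, e, by rw [h₁, sub_add_cancel]⟩

theorem of_jc_eq_zero (h : n + s = 2 * w) {y : C.D s n} (hy : X.jc h y = 0) :
    ∃ y₁ : C.D (s + 1) n, ∀ (b : ℕ) (hb : b < s),
      C.proj n hb.le y = C.proj n (show b ≤ s + 1 by omega) y₁ := by
  cases s with
  | zero => exact ⟨0, fun b hb => absurd hb (Nat.not_lt_zero b)⟩
  | succ s =>
    obtain ⟨y₁, e, rfl⟩ := X.exists_i_add_k h hy
    refine ⟨y₁, fun b hb => ?_⟩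
    rw [proj_add, proj_k C rfl _ (by omega), add_zero, C.proj_succ n hb.le]

/-- The boundary of a class. -/
noncomputable def kc (h : n + s = 2 * w) (hm : n = m + 1) : HQ s w →+ C.D (s + 1) m :=
  AddMonoidHom.mk' (fun a => C.k s n m hm (X.cls h (exists_clw a).choose)) fun a a' => by
    obtain ⟨h1, e1⟩ := (exists_clw a).choose_spec
    obtain ⟨h2, e2⟩ := (exists_clw a').choose_spec
    obtain ⟨h3, e3⟩ := (exists_clw (a + a')).choose_spec
    rw [← map_add, ← map_add]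
    exact X.k_cls_congr h hm h3 (h1.add h2) (by rw [cl_add h1 h2, ← e1, ← e2, ← e3])

theorem kc_cl (h : n + s = 2 * w) (hm : n = m + 1) {z : Cob.wt Laz s w} (hz : Cc z) :
    X.kc h hm (cl z.1 z.2 hz) = C.k s n m hm (X.cls h z) := by
  obtain ⟨h1, e1⟩ := (exists_clw (cl z.1 z.2 hz)).choose_spec
  exact X.k_cls_congr h hm h1 hz e1.symm

theorem kc_jc (h : n + s = 2 * w) (hm : n = m + 1) (y : C.D s n) : X.kc h hm (X.jc h y) = 0 := by
  obtain ⟨z, hz, hj⟩ := X.exists_rep h y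
  rw [X.jc_eq h hj hz, X.kc_cl, ← hj, C.k_j]

theorem i_kc (h : n + s = 2 * w) (hm : n = m + 1) (a : HQ s w) : C.i s m (X.kc h hm a) = 0 :=
  C.i_k _ _ _ _ _

theorem proj_kc (h : n + s = 2 * w) (hm : n = m + 1) {b : ℕ} (hb : b ≤ s + 1) (hb' : b ≤ s)
    (a : HQ s w) : C.proj m hb (X.kc h hm a) = 0 := proj_k C hm hb hb' _

theorem j_kc (h : n + s = 2 * w) (hm : n = m + 1) (a : HQ s w) :
    C.j (s + 1) m (X.kc h hm a) = 0 := by
  obtain ⟨z, hz, rfl⟩ := exists_clw a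
  have h' : m + ((s + 1 : ℕ) : ℤ) = 2 * w := by push_cast; omega
  rw [X.kc_cl, ← C.d_apply, X.cls_d h hm h']
  exact X.cls_IC h' _ hz

theorem exists_i_eq_kc (h : n + s = 2 * w) (hm : n = m + 1) (a : HQ s w) :
    ∃ y : C.D (s + 1 + 1) m, C.i (s + 1) m y = X.kc h hm a := C.exact_j _ _ _ (X.j_kc h hm a)

/-- The kernel of `kc` is the image of `jc`. -/
theorem exists_jc_eq (h : n + s = 2 * w) (hm : n = m + 1) {a : HQ s w} (ha : X.kc h hm a = 0) :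
    ∃ y : C.D s n, X.jc h y = a := by
  obtain ⟨z, hz, rfl⟩ := exists_clw a
  obtain ⟨y, hy⟩ := C.exact_k s n m hm _ ((X.kc_cl h hm hz).symm.trans ha)
  exact ⟨y, X.jc_eq h hy hz⟩

/-- An element of the image of `i` which is killed by `i` is in the image of `kc`. -/
theorem exists_kc_eq (h : n + s = 2 * w) (hm : n = m + 1) {y : C.D (s + 1) m}
    (hi : C.i s m y = 0) (hj : C.j (s + 1) m y = 0) : ∃ a : HQ s w, X.kc h hm a = y := by
  obtain ⟨e, rfl⟩ := C.exact_i s n m hm y hi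
  obtain ⟨z, hz, rfl⟩ := X.surj h e fun l hl => by
    obtain rfl : l = m := by omega
    exact hj
  exact ⟨_, X.kc_cl h hm hz⟩

/-! ### lifting steps -/

include X in
theorem exists_i_of_odd (h : ¬ 2 ∣ m + t) (y : C.D t m) : ∃ y₁, C.i t m y₁ = y :=
  C.exact_j _ _ _ (X.odd h _)

include X in
theorem step_odd (h : ¬ 2 ∣ m + t) (y : C.D t m) : ∃ y₁ : C.D (t + 1) m, ∀ (b : ℕ) (hb : b ≤ t),
    C.proj m hb y = C.proj m (show b ≤ t + 1 by omega) y₁ := by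
  obtain ⟨y₁, rfl⟩ := X.exists_i_of_odd h y
  exact ⟨y₁, fun b hb => (C.proj_succ m hb y₁).symm⟩

include X in
theorem step_w (h : m + t = 2 * u) (hu : ¬ 2 ∣ u) (y : C.D t m) :
    ∃ y₁ : C.D (t + 1) m, ∀ (b : ℕ) (hb : b < t),
      C.proj m hb.le y = C.proj m (show b ≤ t + 1 by omega) y₁ :=
  X.of_jc_eq_zero h (eq_zero_of_odd hu _)

include X in
theorem eq_zero_of_i (h : ¬ 2 ∣ m + 1 + s) {y : C.D (s + 1) m} (hy : C.i s m y = 0) : y = 0 := by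
  obtain ⟨e, rfl⟩ := C.exact_i s (m + 1) m rfl y hy
  rw [X.odd h e, map_zero]

include X in
theorem up_odd {b : ℕ} (h : ¬ 2 ∣ m + 1 + b) (hb : b + 1 ≤ t) {g : C.D t m}
    (hg : C.proj m (show b ≤ t by omega) g = 0) : C.proj m hb g = 0 :=
  X.eq_zero_of_i h ((C.i_proj m hb g).trans hg)

theorem exists_kc_eq_proj {b : ℕ} (h : n + b = 2 * w) (hm : n = m + 1) (hb : b + 2 ≤ t)
    {g : C.D t m} (hg : C.proj m (show b ≤ t by omega) g = 0) :
    ∃ a : HQ b w, X.kc h hm a = C.proj m (show b + 1 ≤ t by omega) g :=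
  X.exists_kc_eq h hm ((C.i_proj m _ g).trans hg) (by rw [← C.i_proj m hb g, C.j_i])

include X in
theorem up_w {b : ℕ} (h : m + 1 + b = 2 * w) (hw : ¬ 2 ∣ w) (hb : b + 2 ≤ t) {g : C.D t m}
    (hg : C.proj m (show b ≤ t by omega) g = 0) : C.proj m (show b + 1 ≤ t by omega) g = 0 := by
  obtain ⟨a, ha⟩ := X.exists_kc_eq_proj h rfl hb hg
  rw [← ha, eq_zero_of_odd hw a, map_zero]

include X in
/-- Uniqueness of lifts. -/
theorem uniq_proj {r : ℕ} (hs : s + 5 = t) (hr : r + 1 = t) (h : m + t = 2 * u) (hu : 2 ∣ u)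
    {g : C.D t m} (hg : C.proj m (show s + 1 ≤ t by omega) g = 0) :
    C.proj m (show r ≤ t by omega) g = 0 := by
  obtain rfl : r = s + 1 + 1 + 1 + 1 := by omega
  have h2 := X.up_odd (b := s + 1) (by push_cast; omega) (by omega) hg
  have h3 := X.up_w (b := s + 1 + 1) (w := u - 1) (by push_cast; omega) (by omega) (by omega) h2
  exact X.up_odd (b := s + 1 + 1 + 1) (by push_cast; omega) (by omega) h3

include X in
theorem uniq_i {r : ℕ} (hs : s + 4 = r) (h : m + ((r + 1 : ℕ) : ℤ) = 2 * u) (hu : 2 ∣ u)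
    {g : C.D (r + 1) m} (hg : C.proj m (show s + 1 ≤ r + 1 by omega) g = 0) : C.i r m g = 0 :=
  (proj_one C g).symm.trans (X.uniq_proj (by omega) rfl h hu hg)

theorem uniq (hs : s + 5 = t) (h : m + t = 2 * u) {g : C.D t m}
    (hg : C.proj m (show s + 1 ≤ t by omega) g = 0) : X.jc h g = 0 := by
  by_cases hu : 2 ∣ u
  · obtain rfl : t = s + 4 + 1 := by omega
    exact X.jc_of_i h (X.uniq_i rfl h hu hg)
  · exact eq_zero_of_odd hu _

/-- Existence of lifts. -/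
theorem exists_lift (hs : s + 5 = t) (h : n + s = 2 * w) (hm : n = m + 1) (a : HQ s w) :
    ∃ y : C.D t m, C.proj m (show s + 1 ≤ t by omega) y = X.kc h hm a := by
  by_cases hw : 2 ∣ w
  · obtain rfl : t = s + 1 + 1 + 1 + 1 + 1 := by omega
    obtain ⟨y₂, e₂⟩ := X.exists_i_eq_kc h hm a
    obtain ⟨y₃, e₃⟩ := X.step_odd (by push_cast; omega) y₂
    obtain ⟨y₄, e₄⟩ := X.step_w (u := w + 1) (by push_cast; omega) (by omega) y₃
    obtain ⟨y₅, e₅⟩ := X.step_odd (by push_cast; omega) y₄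
    exact ⟨y₅, by rw [← e₅ _ (by omega), ← e₄ _ (by omega), ← e₃ _ (by omega), proj_one, e₂]⟩
  · exact ⟨0, by rw [C.proj_zero', eq_zero_of_odd hw a, map_zero]⟩

/-! ### the differential -/

theorem jc_eq_of_proj (hs : s + 5 = t) (h : m + t = 2 * u) {y y' : C.D t m}
    (e : C.proj m (show s + 1 ≤ t by omega) y = C.proj m (show s + 1 ≤ t by omega) y') :
    X.jc h y = X.jc h y' := by
  rw [← sub_eq_zero, ← map_sub]
  exact X.uniq hs h (by rw [proj_sub, e, sub_self])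

/-- The differential `d₅`. -/
noncomputable def dl (hs : s + 5 = t) (hw : w + 2 = u) : HQ s w →+ HQ t u :=
  AddMonoidHom.mk' (fun a => X.jc (show 2 * w - s - 1 + t = 2 * u by omega)
    (X.exists_lift (n := 2 * w - s) hs (by omega) (by omega) a).choose) fun a a' => by
      rw [← map_add]
      refine X.jc_eq_of_proj hs _ ?_
      rw [proj_add, (X.exists_lift hs _ _ _).choose_spec, (X.exists_lift hs _ _ _).choose_spec,
        (X.exists_lift hs _ _ _).choose_spec, map_add]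

theorem dl_eq (hs : s + 5 = t) (hw : w + 2 = u) (h : n + s = 2 * w) (hm : n = m + 1)
    (h' : m + t = 2 * u) {a : HQ s w} {y : C.D t m}
    (e : C.proj m (show s + 1 ≤ t by omega) y = X.kc h hm a) : X.dl hs hw a = X.jc h' y := by
  obtain rfl : m = 2 * w - s - 1 := by omega
  obtain rfl : n = 2 * w - s := by omega
  exact X.jc_eq_of_proj hs h' ((X.exists_lift hs h hm a).choose_spec.trans e.symm)

theorem dl_of_kc (hs : s + 5 = t) (hw : w + 2 = u) (h : n + s = 2 * w) (hm : n = m + 1)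
    {a : HQ s w} (ha : X.kc h hm a = 0) : X.dl hs hw a = 0 := by
  rw [X.dl_eq hs hw h hm (by omega) (y := 0) (by rw [C.proj_zero', ha]), map_zero]

theorem dl_jc (hs : s + 5 = t) (hw : w + 2 = u) (h : n + s = 2 * w) (y : C.D s n) :
    X.dl hs hw (X.jc h y) = 0 :=
  X.dl_of_kc hs hw h (show n = n - 1 + 1 by omega) (X.kc_jc h _ y)

theorem dl_rel (hs : s + 5 = t) (hw : w + 2 = u) (h : n + s = 2 * w) (hm : n = m + 1)
    (h' : m + t = 2 * u) {z : Cob.wt Laz s w} {y : C.D t m} {γ : Cob.wt Laz t u} (hz : Cc z)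
    (hγ : Cc γ) (e : X.Rel h hm (by omega) h' z y γ) :
    X.dl hs hw (cl z.1 z.2 hz) = cl γ.1 γ.2 hγ := by
  rw [X.dl_eq hs hw h hm h' (e.1.trans (X.kc_cl h hm hz).symm), X.jc_eq h' e.2 hγ]

theorem exists_rel (hs : s + 5 = t) (h : n + s = 2 * w) (hm : n = m + 1) (h' : m + t = 2 * u)
    {z : Cob.wt Laz s w} (hz : Cc z) :
    ∃ (y : C.D t m) (γ : Cob.wt Laz t u), Cc γ ∧ X.Rel h hm (by omega) h' z y γ := by
  obtain ⟨y, hy⟩ := X.exists_lift hs h hm (cl z.1 z.2 hz)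
  obtain ⟨γ, hγ, e⟩ := X.exists_rep h' y
  exact ⟨y, γ, hγ, hy.trans (X.kc_cl h hm hz), e⟩

theorem exists_null (hs : s + 5 = t) (hw : w + 2 = u) (h' : m + t = 2 * u) (x : HQ s w) :
    ∃ g : C.D t m, X.jc h' g = X.dl hs hw x ∧
      ∀ (b : ℕ) (hb : b ≤ s), C.proj m (show b ≤ t by omega) g = 0 := by
  have h : m + 1 + s = 2 * w := by omega
  obtain ⟨g, hg⟩ := X.exists_lift hs h rfl x
  refine ⟨g, (X.dl_eq hs hw h rfl h' hg).symm, fun b hb => ?_⟩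
  rw [← proj_proj C (show b ≤ s + 1 by omega) (show s + 1 ≤ t by omega), hg, X.proj_kc _ _ _ hb]

theorem lift_of_dl_zero (hs : s + 5 = t) (hw : w + 2 = u) (h : n + s = 2 * w) (hm : n = m + 1)
    {a : HQ s w} (ha : X.dl hs hw a = 0) :
    ∃ y : C.D (t + 1) m, C.proj m (show s + 1 ≤ t + 1 by omega) y = X.kc h hm a := by
  have h' : m + t = 2 * u := by omega
  obtain ⟨y, hy⟩ := X.exists_lift hs h hm a
  obtain ⟨y₁, e⟩ := X.of_jc_eq_zero h' ((X.dl_eq hs hw h hm h' hy).symm.trans ha)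
  exact ⟨y₁, (e (s + 1) (by omega)).symm.trans hy⟩

/-- An element whose class is hit by the differential lifts one step. -/
theorem step_dl (hs : s + 5 = t) (hw : w + 2 = u) (h' : m + t = 2 * u) {y : C.D t m}
    {x : HQ s w} (e : X.jc h' y = X.dl hs hw x) : ∃ y₁ : C.D (t + 1) m, ∀ (b : ℕ) (hb : b ≤ s),
      C.proj m (show b ≤ t by omega) y = C.proj m (show b ≤ t + 1 by omega) y₁ := by
  obtain ⟨g, hg, h0⟩ := X.exists_null hs hw h' x
  obtain ⟨y₁, e₁⟩ := X.of_jc_eq_zero h' (y := y - g) (by rw [map_sub, e, hg, sub_self])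
  refine ⟨y₁, fun b hb => ?_⟩
  rw [← e₁ b (by omega), proj_sub, h0 b hb, sub_zero]

theorem dl_leib (hL : X.Leib) {s₁ s' : ℕ} {v v' w' r : ℤ} (h1 : 1 + s = s₁) (h2 : s₁ + 5 = t)
    (h3 : s + 5 = s') (k1 : v + w = u) (k2 : u + 2 = r) (k3 : v + 2 = v') (k4 : w + 2 = w')
    (x : HQ 1 v) (z : HQ s w) : X.dl h2 k2 (H.cup h1 k1 x z) =
      H.cup (show 6 + s = t by omega) (show v' + w = r by omega) (X.dl rfl k3 x) z -
        H.cup (show 1 + s' = t by omega) (show v + w' = r by omega) x (X.dl h3 k4 z) := by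
  rcases lt_or_ge w 0 with hw | hw
  · rw [eq_zero_of_neg hw z]
    simp only [map_zero, sub_zero]
  obtain ⟨x, hx, rfl⟩ := exists_clw x
  obtain ⟨z, hz, rfl⟩ := exists_clw z
  have a1 : 2 * v - 2 + 1 + ((1 : ℕ) : ℤ) = 2 * v := by push_cast; omega
  have a2 : 2 * v - 2 + ((6 : ℕ) : ℤ) = 2 * v' := by push_cast; omega
  have b1 : 2 * w - s - 1 + 1 + s = 2 * w := by omega
  have b2 : 2 * w - s - 1 + s' = 2 * w' := by omega
  have c1 : 2 * u - s₁ - 1 + 1 + s₁ = 2 * u := by omega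
  have c2 : 2 * u - s₁ - 1 + t = 2 * r := by omega
  obtain ⟨yx, θ, hθ, ex⟩ := X.exists_rel (s := 1) (t := 6) rfl a1 rfl a2 hx
  obtain ⟨yz, γ, hγ, ez⟩ := X.exists_rel h3 b1 rfl b2 hz
  obtain ⟨y, hy, g, hg, e⟩ := hL hw h1 h3 (show s + 6 = t by omega) k1
    (show v' + w = r by omega) (show v + w' = r by omega) a1 rfl a2 b1 rfl b2 c1 rfl c2
    x yx θ z yz γ hx hz hγ ex ez
  rw [X.dl_rel rfl k3 a1 rfl a2 hx hθ ex, X.dl_rel h3 k4 b1 rfl b2 hz hγ ez, ← cl_cpw, ← cl_cpw,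
    ← cl_cpw, ← cl_sub]
  refine X.dl_rel h2 k2 c1 rfl c2 _ _ (y := y + g) ⟨?_, e⟩
  rw [proj_add, hy, ← proj_proj C (show s₁ + 1 ≤ s' by omega) (show s' ≤ t by omega),
    hg s' (by omega), C.proj_zero', add_zero]

theorem dl_bock (hB : X.Bock) {s₁ s' : ℕ} (h1 : s + 1 = s₁) (h2 : s₁ + 5 = t) (h3 : s + 5 = s')
    (k : w + 2 = u) (z : HQ s w) :
    X.dl h2 k (bock h1 z) = -bock (show s' + 1 = t by omega) (X.dl h3 k z) := by
  subst h1
  obtain rfl : t = s' + 1 := by omega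
  obtain ⟨x, b, hx, hb, rfl, e⟩ := isBock_bock z
  have a1 : 2 * w - s - 2 + 1 + 1 + s = 2 * w := by omega
  have a2 : 2 * w - s - 2 + 1 + s' = 2 * u := by omega
  have a3 : 2 * w - s - 2 + 1 + ((s + 1 : ℕ) : ℤ) = 2 * w := by push_cast; omega
  have a4 : 2 * w - s - 2 + ((s' + 1 : ℕ) : ℤ) = 2 * u := by push_cast; omega
  obtain ⟨y, γ, hγ, ey⟩ := X.exists_rel h3 a1 rfl a2 (z := ⟨x, hx⟩) (d_mem_of_div hb)
  obtain ⟨c, hc⟩ := mem_IC_iff.1 hγ
  obtain ⟨y', e'⟩ := hB h3 a1 rfl rfl a2 a3 a4 ⟨x, hx⟩ ⟨b, isWt_div hx hb⟩ y γ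
    ⟨c, isWt_div γ.2 hc⟩ hb hc ey
  have hcc : Cc (⟨c, isWt_div γ.2 hc⟩ : Cob.wt Laz (s' + 1) u) := d_div_mem hc
  have e1 := X.dl_rel h2 k a3 rfl a4 (z := ⟨b, isWt_div hx hb⟩) (d_div_mem hb) hcc.neg e'
  have e2 := X.dl_rel h3 k a1 rfl a2 (z := ⟨x, hx⟩) (d_mem_of_div hb) hγ ey
  rw [e]
  refine e1.trans ((cl_neg hcc).trans (congrArg Neg.neg ?_))
  exact ((congrArg (bock rfl) e2).trans (bock_cl γ.2 hc)).symm

end Cls

/-! ### multiplication by permanent cycles -/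

namespace MulA

variable {X : Cls C} {a : ℕ} {v e n' m' : ℤ} {ζ : Cob.wt Laz a v} (P : MulA X ζ e)

theorem proj_μ {b c : ℕ} (hs : s + a = t) (hb : b + a = c) (hn : n + e = n') (h : b ≤ s)
    (y : C.D s n) :
    C.proj n' (show c ≤ t by omega) (P.μ hs hn y) = P.μ hb hn (C.proj n h y) := by
  induction s, h using Nat.le_induction generalizing t with
  | base =>
    obtain rfl : t = c := by omega
    rw [C.proj_self, C.proj_self]
  | succ s h ih =>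
    obtain rfl : t = s + a + 1 := by omega
    rw [C.proj_succ n h, ← ih rfl, ← P.i_μ rfl hn, ← C.proj_succ]

theorem proj_μ_act {b : ℕ} (hs : s + a = t) (hn : n + e = n') (h : b ≤ s) (y : C.D s n) :
    C.proj n' (show b ≤ t by omega) (P.μ hs hn y) = P.act hn (C.proj n h y) := by
  rw [act, ← P.proj_μ hs rfl hn h, proj_proj]

theorem jc_μ (hζ : Cc ζ) (hs : s + a = t) (hn : n + e = n') (hw : w + v = u) (h : n + s = 2 * w)
    (h' : n' + t = 2 * u) (y : C.D s n) :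
    X.jc h' (P.μ hs hn y) = H.cup hs hw (X.jc h y) (cl ζ.1 ζ.2 hζ) := by
  obtain ⟨z, hz, hj⟩ := X.exists_rep h y
  rw [X.jc_eq h hj hz, X.jc_eq h' (P.j_μ hs hn hw h h' y z hj) (hz.cpw hs hw hζ), cl_cpw]

theorem μ_kc (hζ : Cc ζ) (hs : s + a = t) (hm : m + e = m') (hw : w + v = u) (h : n + s = 2 * w)
    (h' : n' + t = 2 * u) (k : n = m + 1) (k' : n' = m' + 1) (x : HQ s w) :
    P.μ (show s + 1 + a = t + 1 by omega) hm (X.kc h k x) =
      X.kc h' k' (H.cup hs hw x (cl ζ.1 ζ.2 hζ)) := by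
  obtain ⟨z, hz, rfl⟩ := exists_clw x
  rw [← cl_cpw, X.kc_cl, X.kc_cl, P.k_μ hs hm hw h h' k k']

include P in
/-- The differential is linear over permanent cycles. -/
theorem dl_mul (hζ : Cc ζ) (he : e + a = 2 * v) {s' t' : ℕ} {w' u' : ℤ} (hs : s + 5 = t)
    (h1 : s + a = s') (h2 : s' + 5 = t') (hw : w + 2 = u) (k1 : w + v = w') (k2 : w' + 2 = u')
    (x : HQ s w) : X.dl h2 k2 (H.cup h1 k1 x (cl ζ.1 ζ.2 hζ)) =
      H.cup (show t + a = t' by omega) (show u + v = u' by omega) (X.dl hs hw x)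
        (cl ζ.1 ζ.2 hζ) := by
  have a1 : 2 * w - s - 1 + 1 + s = 2 * w := by omega
  have a2 : 2 * w - s - 1 + t = 2 * u := by omega
  have a3 : 2 * w - s - 1 + e + 1 + s' = 2 * w' := by omega
  have a4 : 2 * w - s - 1 + e + t' = 2 * u' := by omega
  obtain ⟨y, hy⟩ := X.exists_lift hs a1 rfl x
  rw [X.dl_eq hs hw a1 rfl a2 hy, ← P.jc_μ hζ _ rfl _ a2 a4]
  refine X.dl_eq h2 k2 a3 rfl a4 ?_
  rw [P.proj_μ _ (show s + 1 + a = s' + 1 by omega) rfl (show s + 1 ≤ t by omega), hy,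
    P.μ_kc hζ h1 rfl k1 a1 a3]

end MulA

namespace Top

variable (T : Top C)

theorem exists_unit : ∃ y : C.D 0 0, T.X.jc (w := 0) rfl y = H.one Q3 := by
  obtain ⟨y, hy⟩ := T.unit
  have h1 : Cc (⟨1, Cob.isWt_one⟩ : Cob.wt Laz 0 0) := by
    change Cob.d 0 1 ∈ _
    rw [d_eq, Finset.sum_range_succ, Finset.sum_range_one, map_one, map_one]
    simp
  exact ⟨y, (T.X.jc_eq rfl hy h1).trans (H.mk_congr (map_one _))⟩

theorem dl_toda : ∃ z : HQ 2 18, T.X.dl (t := 7) (u := 20) rfl rfl z =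
    H.cup (a := 1) (b := 2 * 3) rfl (by norm_num) h0 (bp 3) := by
  obtain ⟨y, hy⟩ := T.exists_unit
  obtain ⟨y₁, e₁⟩ : ∃ x : C.D 1 3, x = T.A.μ rfl rfl y := ⟨_, rfl⟩
  obtain ⟨y₃, e₃⟩ : ∃ x : C.D 3 13, x = T.B.μ rfl rfl y₁ := ⟨_, rfl⟩
  obtain ⟨y₅, e₅⟩ : ∃ x : C.D 5 23, x = T.B.μ rfl rfl y₃ := ⟨_, rfl⟩
  obtain ⟨y₇, e₇⟩ : ∃ x : C.D 7 33, x = T.B.μ rfl rfl y₅ := ⟨_, rfl⟩
  have p0 : C.proj 33 (Nat.zero_le 7) y₇ = 0 := by
    rw [e₇, T.B.proj_μ_act _ _ (Nat.zero_le 5), e₅, T.B.proj_μ_act _ _ (Nat.zero_le 3), e₃,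
      T.B.proj_μ_act _ _ (Nat.zero_le 1), e₁, T.A.proj_μ_act _ _ (Nat.zero_le 0)]
    exact T.toda.bbba _ _ _ _ _
  have p1 := T.X.up_w (b := 0) (w := 17) rfl (by norm_num) (by norm_num) p0
  have p2 := T.X.up_odd (b := 1) (by norm_num) (by norm_num) p1
  obtain ⟨z, hz⟩ := T.X.exists_kc_eq_proj (b := 2) (n := 34) (w := 18) rfl rfl (by norm_num) p2
  refine ⟨z, (T.X.dl_eq rfl rfl rfl rfl rfl hz.symm).trans ?_⟩
  rw [e₇, T.B.jc_μ cc_b0 _ _ (w := 14) rfl rfl, e₅, T.B.jc_μ cc_b0 _ _ (w := 8) rfl rfl, e₃,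
    T.B.jc_μ cc_b0 _ _ (w := 2) rfl rfl, e₁, T.A.jc_μ cc_t1 _ _ (w := 0) rfl rfl, hy,
    H.one_cup, cl_t1w, cl_b0w]
  rw [← cup_bp_succ 2 (t := 5) (u := 14) rfl rfl _ rfl rfl,
    ← cup_bp_succ 1 (t := 3) (u := 8) rfl rfl _ rfl rfl,
    ← cup_bp_succ 0 (t := 1) (u := 2) rfl rfl _ rfl rfl, cup_bp_zero]

/-- The differential `d₅` with its properties. -/
noncomputable def delta : Delta where
  δ := T.X.dl
  v1_mul := fun hs hw k1 k2 z => by
    rw [H.cup_comm_zero _ rfl k1 (by omega), H.cup_comm_zero _ rfl _ (by omega)]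
    exact T.V.dl_mul cc_v1 rfl hs rfl hs hw _ k2 z
  leib := T.X.dl_leib T.leib
  bock := T.X.dl_bock T.bock
  toda := T.dl_toda
  dd := fun {s _ _ w _ _} h1 h2 k1 k2 z => by
    obtain ⟨g, hg, -⟩ := T.X.exists_null (m := 2 * w - s - 1) h1 k1 (by omega) z
    rw [← hg, T.X.dl_jc]

theorem delta_δ (hs : s + 5 = t) (hw : w + 2 = u) : T.delta.δ hs hw = T.X.dl hs hw := rfl

theorem delta_eq (hs : s + 5 = t) (hw : w + 2 = u) (h : n + s = 2 * w) (hm : n = m + 1)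
    (h' : m + t = 2 * u) {a : HQ s w} {y : C.D t m}
    (e : C.proj m (show s + 1 ≤ t by omega) y = T.X.kc h hm a) :
    T.delta.δ hs hw a = T.X.jc h' y := T.X.dl_eq hs hw h hm h' e

theorem delta_jc (hs : s + 5 = t) (hw : w + 2 = u) (h : n + s = 2 * w) (y : C.D s n) :
    T.delta.δ hs hw (T.X.jc h y) = 0 := T.X.dl_jc hs hw h y

theorem step_ex (hE : T.delta.Ex t u) (ht : 5 ≤ t) (h : m + t = 2 * u) (y : C.D t m) :
    ∃ y₁ : C.D (t + 1) m, ∀ (b : ℕ) (hb : b + 5 ≤ t),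
      C.proj m (show b ≤ t by omega) y = C.proj m (show b ≤ t + 1 by omega) y₁ := by
  have h1 : t - 5 + 5 = t := by omega
  have k1 : u - 2 + 2 = u := by omega
  obtain ⟨x, hx⟩ := hE h1 rfl k1 rfl _ (T.delta_jc rfl rfl h y)
  obtain ⟨y₁, e⟩ := T.X.step_dl h1 k1 h hx
  exact ⟨y₁, fun b hb => e b (by omega)⟩

end Top

end Vale.Agent.P236T
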