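import Vale.Agent.P236T.Geo
import Vale.Agent.P257.H545.CupRing1

/-!
# P236T: the general cup product in the cobar complex

`Geo.ch_cpw`: the cochain of a cup product is obtained by multiplying the innermost factor of the
first cochain with the outermost factor of the second one.
-/

open CategoryTheory MonoidalCategory Limits Pretriangulated MonObj Opposite

set_option linter.unusedSectionVars false

universe v u

namespace Vale.Agent.P236T

open Vale.Agent.P251 Vale.Agent.P251.T Vale.Agent.P251.M Vale.Agent.P251.F Vale.Agent.P251.I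
  Vale.Agent.P257 Vale.Agent.P257.H314 Vale.Agent.P257.H820
open Vale.Agent.P251.S hiding IC

namespace CupG

section Monoids

variable {T : Type u} [Category.{v} T] [MonoidalCategory T] [SymmetricCategory T]

/-- The concatenation `R^{⊗ (s+1)} ⊗ R^{⊗ (a+1)} ⟶ R^{⊗ (s+a+1)}`, multiplying the last factor of
the first with the first factor of the second. -/
def concG (R : T) [MonObj R] (s : ℕ) : ∀ a : ℕ, Am R (s + 1) ⊗ Am R (a + 1) ⟶ Am R (s + a + 1)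
  | 0 => (Am R (s + 1) ◁ (λ_ R).hom) ≫ (α_ (Am R s) R R).hom ≫ (Am R s ◁ μ[R])
  | a + 1 => (α_ (Am R (s + 1)) (Am R (a + 1)) R).inv ≫ (concG R s a ▷ R)

variable (R : T) [MonObj R]

theorem concG_zero (s : ℕ) : concG R s 0 =
    ((Am R s ⊗ R) ◁ (λ_ R).hom) ≫ (α_ (Am R s) R R).hom ≫ (Am R s ◁ μ[R]) := rfl

theorem concG_succ (s a : ℕ) : concG R s (a + 1) =
    (α_ (Am R (s + 1)) (Am R (a + 1)) R).inv ≫ (concG R s a ▷ R) := rfl

theorem aux_zero (A Y : T) : (A ◁ mulMap R Y) ≫ (α_ A R Y).inv =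
    (α_ A R (R ⊗ Y)).inv ≫ ((A ⊗ R) ◁ ((λ_ (R ⊗ Y)).inv ≫ (α_ (𝟙_ T) R Y).inv)) ≫
      (α_ (A ⊗ R) (𝟙_ T ⊗ R) Y).inv ≫
        ((((A ⊗ R) ◁ (λ_ R).hom) ≫ (α_ A R R).hom ≫ (A ◁ μ[R])) ▷ Y) := by
  rw [mulMap]
  monoidal

theorem aux_succ {A B C : T} (c : A ⊗ B ⟶ C) (Y : T) :
    (α_ A B (R ⊗ Y)).inv ≫ (c ▷ (R ⊗ Y)) ≫ (α_ C R Y).inv =
      (A ◁ (α_ B R Y).inv) ≫ (α_ A (B ⊗ R) Y).inv ≫ (((α_ A B R).inv ≫ (c ▷ R)) ▷ Y) := by
  monoidal

variable [IsCommMonObj R]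

instance isMonHom_concG (s a : ℕ) : IsMonHom (concG R s a) := by
  induction a with
  | zero =>
    rw [concG_zero]
    infer_instance
  | succ a ih =>
    rw [concG_succ]
    infer_instance

theorem v_inl (s a : ℕ) (i : Fin (s + 1)) :
    Am.v R i ≫ inlM (Am R (s + 1)) (Am R (a + 1)) ≫ concG R s a = Am.v R (Cob.front s a i) := by
  induction a with
  | zero =>
    have h : inlM (Am R s ⊗ R) (𝟙_ T ⊗ R) ≫ concG R s 0 = 𝟙 _ := by
      rw [concG_zero, inlM_whiskerLeft_assoc, inlM_associator_assoc,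
        ← MonoidalCategory.whiskerLeft_comp, inlM_mul, MonoidalCategory.whiskerLeft_id]
    exact (congrArg _ h).trans (Category.comp_id _)
  | succ a ih =>
    have h : Cob.front s (a + 1) i = (Cob.front s a i).castSucc := rfl
    have h2 : inlM (Am R (s + 1)) (Am R (a + 1 + 1)) ≫ (α_ (Am R (s + 1)) (Am R (a + 1)) R).inv =
        inlM (Am R (s + 1)) (Am R (a + 1)) ≫ inlM (Am R (s + 1) ⊗ Am R (a + 1)) R :=
      inlM_associator_inv _ _ R
    rw [h, Am.v_castSucc, ← ih, concG_succ, reassoc_of% h2, inlM_whiskerRight]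
    simp only [Category.assoc]

theorem v_inr (s a : ℕ) (i : Fin (a + 1)) :
    Am.v R i ≫ inrM (Am R (s + 1)) (Am R (a + 1)) ≫ concG R s a = Am.v R (Cob.back s a i) := by
  induction a with
  | zero =>
    obtain rfl : i = Fin.last 0 := by revert i; decide
    have h : Cob.back s 0 (Fin.last 0) = Fin.last s := rfl
    have h2 : inrM (𝟙_ T) R ≫ (λ_ R).hom = 𝟙 R := by
      have h : η[(𝟙_ T)] = 𝟙 (𝟙_ T) := rfl
      rw [inrM, h, id_whiskerRight, Category.comp_id, Iso.inv_hom_id]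
    have h3 : inrM (Am R s ⊗ R) (𝟙_ T ⊗ R) ≫ concG R s 0 = (λ_ R).hom ≫ inrM (Am R s) R := by
      rw [concG_zero, inrM_whiskerLeft_assoc, inrM_associator_assoc, inrM_whiskerLeft,
        inrM_mul_assoc]
    rw [h, Am.v_last, Am.v_last]
    exact (congrArg _ h3).trans ((reassoc_of% h2) _)
  | succ a ih =>
    have h2 : inrM (Am R (s + 1)) (Am R (a + 1 + 1)) ≫ (α_ (Am R (s + 1)) (Am R (a + 1)) R).inv =
        inrM (Am R (s + 1)) (Am R (a + 1)) ▷ R := inrM_associator_inv _ _ R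
    rw [concG_succ, reassoc_of% h2, ← comp_whiskerRight]
    refine Fin.lastCases ?_ (fun j => ?_) i
    · have h : Cob.back s (a + 1) (Fin.last (a + 1)) = Fin.last (s + a + 1) := rfl
      rw [h, Am.v_last, Am.v_last, inrM_whiskerRight]
    · have h : Cob.back s (a + 1) j.castSucc = (Cob.back s a j).castSucc := rfl
      rw [h, Am.v_castSucc, Am.v_castSucc, ← ih, Category.assoc, inlM_whiskerRight]
      simp only [Category.assoc]

theorem concG_eq (s a : ℕ) :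
    concG R s a = descM (Am.map R (Cob.front s a)) (Am.map R (Cob.back s a)) := by
  apply hom_ext_tensor (X := Am R (s + 1)) (Y := Am R (a + 1))
  · rw [inlM_descM]
    exact (Am.map_eq_of R _ _ (v_inl R s a)).symm
  · rw [inrM_descM]
    exact (Am.map_eq_of R _ _ (v_inr R s a)).symm

theorem gmul_concG (E : EvenSpheres T) {w v u : ℤ} (h : w + v = u) (s a : ℕ)
    (x : E.S w ⟶ Am R (s + 1)) (y : E.S v ⟶ Am R (a + 1)) :
    EvenSpheres.gmul h (x ≫ Am.map R (Cob.front s a)) (y ≫ Am.map R (Cob.back s a)) =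
      E.ext h x y ≫ concG R s a := by
  rw [concG_eq, descM, EvenSpheres.gmul, EvenSpheres.ext_comp, Category.assoc]

end Monoids

variable {T : Type u} [Category.{v} T] [Preadditive T] [HasZeroObject T] [HasShift T ℤ]
  [∀ n : ℤ, (shiftFunctor T n).Additive] [Pretriangulated T] [MonoidalCategory T]
  [SymmetricCategory T] [TensorTriangulated T]

section

variable {R : T} [MonObj R] (U : UnitCof R)

/-- The product with a cochain in terms of the tensor powers of `R`. -/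
theorem cup_θ (s a : ℕ) {Y' Y : T} (z : Y' ⟶ U.cobar.Q (a + 1) Y)
    (h : s + (a + 1) = s + a + 1) :
    U.cobar.Qm s ((R ◁ z) ≫ om U a Y) ≫ (eQ U h Y).hom ≫ (U.θ (s + a + 1) Y).hom =
      (U.θ (s + 1) Y').hom ≫ (Am R (s + 1) ◁ (z ≫ (U.θ (a + 1) Y).hom)) ≫
        (α_ (Am R (s + 1)) (Am R (a + 1)) Y).inv ≫ (concG R s a ▷ Y) := by
  induction a generalizing Y with
  | zero =>
    have h1 : (eQ U h Y).hom ≫ (U.θ (s + 0 + 1) Y).hom =
        (U.θ s (R ⊗ Y)).hom ≫ (α_ (Am R s) R Y).inv := Category.id_comp _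
    have h2 : (U.θ (s + 1) Y').hom = (U.θ s (R ⊗ Y')).hom ≫ (α_ (Am R s) R Y').inv := rfl
    have h3 : (U.θ (0 + 1) Y).hom = (λ_ (R ⊗ Y)).inv ≫ (α_ (𝟙_ T) R Y).inv := rfl
    have hn := U.θ_naturality s ((R ◁ z) ≫ mulMap R Y)
    rw [h1, h2, h3]
    refine ((reassoc_of% hn) _).trans ?_
    rw [MonoidalCategory.whiskerLeft_comp, Category.assoc, aux_zero, concG_zero,
      associator_inv_naturality_right_assoc, MonoidalCategory.whiskerLeft_comp _ z]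
    simp only [Category.assoc]
  | succ a ih =>
    have h1 : (eQ U h Y).hom ≫ (U.θ (s + (a + 1) + 1) Y).hom =
        (eQ U (show s + (a + 1) = s + a + 1 from rfl) (R ⊗ Y)).hom ≫
          (U.θ (s + a + 1) (R ⊗ Y)).hom ≫ (α_ (Am R (s + a + 1)) R Y).inv := rfl
    have h2 : (U.θ (a + 1 + 1) Y).hom =
        (U.θ (a + 1) (R ⊗ Y)).hom ≫ (α_ (Am R (a + 1)) R Y).inv := rfl
    have h3 := ih (Y := R ⊗ Y) z rfl
    rw [h1, h2]
    refine ((reassoc_of% h3) _).trans ?_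
    rw [aux_succ, concG_succ, ← Category.assoc z, MonoidalCategory.whiskerLeft_comp _ (z ≫ _)]
    simp only [Category.assoc]

/-- The product of cochains. -/
theorem cup_conc (k : ℤ) {X : T} (s a : ℕ) (f : X ⟶ U.cobar.Q (s + 1) (𝟙_ T))
    (z : (𝟙_ T)⟦k⟧ ⟶ U.cobar.Q (a + 1) (𝟙_ T)) (h : s + (a + 1) = s + a + 1) :
    f⟦k⟧' ≫ U.κQ k (s + 1) (𝟙_ T) ≫ U.cobar.Qm s ((R ◁ z) ≫ om U a (𝟙_ T)) ≫
        (eQ U h (𝟙_ T)).hom ≫ (U.θU (s + a + 1)).hom =
      (tensorSph k X).inv ≫ ((f ≫ (U.θU (s + 1)).hom) ⊗ₘ (z ≫ (U.θU (a + 1)).hom)) ≫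
        concG R s a := by
  have h1 : (α_ (Am R (s + 1)) (Am R (a + 1)) (𝟙_ T)).inv ≫ (concG R s a ▷ 𝟙_ T) ≫
      (ρ_ (Am R (s + a + 1))).hom = (Am R (s + 1) ◁ (ρ_ (Am R (a + 1))).hom) ≫ concG R s a := by
    rw [rightUnitor_naturality, rightUnitor_tensor_hom_assoc, Iso.inv_hom_id_assoc]
  have h2 : U.κQ k (s + 1) (𝟙_ T) ≫ (U.θ (s + 1) ((𝟙_ T)⟦k⟧)).hom =
      ((U.θU (s + 1)).hom)⟦k⟧' ≫ (tensorSph k (Am R (s + 1))).inv := by
    rw [UnitCof.κQ_θ, UnitCof.θU, tensorSph, Iso.trans_hom, Iso.trans_inv, Functor.map_comp,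
      Functor.mapIso_inv,
      Category.assoc, ← Functor.map_comp_assoc (shiftFunctor T k) (ρ_ _).hom, Iso.hom_inv_id,
      CategoryTheory.Functor.map_id, Category.id_comp]
    rfl
  have h3 : ((f ≫ (U.θU (s + 1)).hom) ▷ ((𝟙_ T)⟦k⟧)) = (tensorSph k X).hom ≫
      (f ≫ (U.θU (s + 1)).hom)⟦k⟧' ≫ (tensorSph k (Am R (s + 1))).inv := by
    rw [← tensorSph_naturality_assoc, Iso.hom_inv_id, Category.comp_id]
  have h4 := cup_θ U s a z h
  calc _ = f⟦k⟧' ≫ U.κQ k (s + 1) (𝟙_ T) ≫ U.cobar.Qm s ((R ◁ z) ≫ om U a (𝟙_ T)) ≫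
        (eQ U h (𝟙_ T)).hom ≫ (U.θ (s + a + 1) (𝟙_ T)).hom ≫ (ρ_ (Am R (s + a + 1))).hom := rfl
    _ = f⟦k⟧' ≫ (U.κQ k (s + 1) (𝟙_ T) ≫ (U.θ (s + 1) ((𝟙_ T)⟦k⟧)).hom) ≫
        (Am R (s + 1) ◁ (z ≫ (U.θ (a + 1) (𝟙_ T)).hom)) ≫
          (Am R (s + 1) ◁ (ρ_ (Am R (a + 1))).hom) ≫ concG R s a := by
        rw [reassoc_of% h4, h1]
        simp only [Category.assoc]
    _ = (tensorSph k X).inv ≫ ((f ≫ (U.θU (s + 1)).hom) ▷ ((𝟙_ T)⟦k⟧)) ≫
        (Am R (s + 1) ◁ (z ≫ (U.θU (a + 1)).hom)) ≫ concG R s a := by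
        rw [h2, h3, ← MonoidalCategory.whiskerLeft_comp_assoc,
          Category.assoc, Functor.map_comp]
        simp only [Category.assoc]
        rw [Iso.inv_hom_id_assoc]
        rfl
    _ = _ := by
        rw [tensorHom_def]
        simp only [Category.assoc]

end

variable [HasCoproducts.{0} T] {M : MUData T} {U : UnitCof M.R}

/-- Compatibility with the cup product. -/
theorem realizes_cup {s a : ℕ} {w v w' t k t' : ℤ} {α : (stdEven T).S w ≅ (𝟙_ T)⟦t⟧}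
    {β : (stdEven T).S v ≅ (𝟙_ T)⟦k⟧} {c : Cob Laz s} {b : Cob Laz a}
    {f : (𝟙_ T)⟦t⟧ ⟶ U.cobar.Q (s + 1) (𝟙_ T)} {z : (𝟙_ T)⟦k⟧ ⟶ U.cobar.Q (a + 1) (𝟙_ T)}
    (hf : Realizes M U α c f) (hz : Realizes M U β b z) (hw : w + v = w') (ht : t + k = t')
    (h : s + (a + 1) = s + a + 1) :
    Realizes M U (prodSph α β hw ht) (Cob.cup c b) (sh t k t' ht f ≫ U.κQ k (s + 1) (𝟙_ T) ≫
      U.cobar.Qm s ((M.R ◁ z) ≫ om U a (𝟙_ T)) ≫ (eQ U h (𝟙_ T)).hom) := by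
  have h1 : M.ev (s + a) (Cob.map (Cob.front s a) c) =
      HRing.of (stdEven T) (Am M.R (s + a + 1)) w
        ((α.hom ≫ f ≫ (U.θU (s + 1)).hom) ≫ Am.map M.R (Cob.front s a)) := by
    rw [← M.ev_map, hf, HRing.map_of]
  have h2 : M.ev (s + a) (Cob.map (Cob.back s a) b) =
      HRing.of (stdEven T) (Am M.R (s + a + 1)) v
        ((β.hom ≫ z ≫ (U.θU (a + 1)).hom) ≫ Am.map M.R (Cob.back s a)) := by
    rw [← M.ev_map, hz, HRing.map_of]
  have h3 : (prodSph α β hw ht).hom ≫ (sh t k t' ht f ≫ U.κQ k (s + 1) (𝟙_ T) ≫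
      U.cobar.Qm s ((M.R ◁ z) ≫ om U a (𝟙_ T)) ≫ (eQ U h (𝟙_ T)).hom) ≫
        (U.θU (s + a + 1)).hom =
      (stdEven T).ext hw (α.hom ≫ f ≫ (U.θU (s + 1)).hom) (β.hom ≫ z ≫ (U.θU (a + 1)).hom) ≫
        concG M.R s a := by
    have h4 := cup_conc U k s a f z h
    simp only [prodSph, Iso.trans_hom, Iso.symm_hom, Iso.app_inv, sh, AddEquiv.coe_mk,
      Equiv.coe_fn_mk, Category.assoc, Iso.inv_hom_id_app_assoc]
    rw [h4, Iso.hom_inv_id_assoc, EvenSpheres.ext, tensorIso_hom,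
      tensorHom_comp_tensorHom_assoc, Category.assoc]
  rw [Realizes, Cob.cup, map_mul]
  refine (congrArg₂ (· * ·) h1 h2).trans ?_
  refine (of_mul_of hw _ _).trans ?_
  rw [gmul_concG, ← h3]

end CupG

variable {T : Type u} [Category.{v} T] [Preadditive T] [HasZeroObject T] [HasShift T ℤ]
  [∀ n : ℤ, (shiftFunctor T n).Additive] [Pretriangulated T] [MonoidalCategory T]
  [SymmetricCategory T] [TensorTriangulated T] [HasCoproducts.{0} T] {D : MUData T} (G : Geo D)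

/-- **The cup product of cochains.** -/
theorem Geo.ch_cpw {s a t : ℕ} {w v u : ℤ} (hs : s + a = t) (hw : w + v = u)
    (hs' : s + (a + 1) = t + 1) (k : 2 * w + 2 * v = 2 * u) (z : Cob.wt Laz s w)
    (y : Cob.wt Laz a v) :
    G.ch (cpw hs hw z y) = sh (2 * w) (2 * v) (2 * u) k (G.ch z) ≫
      G.U.κQ (2 * v) (s + 1) (𝟙_ T) ≫ G.U.cobar.Qm s ((D.R ◁ G.ch y) ≫ om G.U a (𝟙_ T)) ≫
        (eQ G.U hs' (𝟙_ T)).hom := by
  subst hs
  have h1 := CupG.realizes_cup (G.realizes_ch z) (G.realizes_ch y) hw k hs'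
  rw [G.coh, ← cp_rfl] at h1
  exact (G.realizes_ch (cpw rfl hw z y)).unique h1

end Vale.Agent.P236T
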