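import Vale.Agent.P236T.Mu
import Vale.Agent.P236T.CupG
import Vale.Agent.P257.H762.Alpha

/-!
# P236T: the multiplication by a permanent cycle

`Geo.mulA`: a map `x : M⟦2 v⟧ ⟶ B a M` whose restriction to the bottom cell is detected by `z`
defines a multiplication by `z` on the couple.  `Geo.exists_alpha`, `Geo.exists_beta`,
`Geo.exists_V`: the elements `α₁`, `β₁` and the self map `v₁`.
-/

open CategoryTheory MonoidalCategory Limits Pretriangulated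

set_option linter.unusedSectionVars false

universe v u

namespace Vale.Agent.P236T

open Vale.Agent.P251 Vale.Agent.P251.T Vale.Agent.P251.M Vale.Agent.P251.F Vale.Agent.P251.I
  Vale.Agent.P257 Vale.Agent.P257.H314 Vale.Agent.P257.H820
open Vale.Agent.P251.S hiding IC

variable {T : Type u} [Category.{v} T] [Preadditive T] [HasZeroObject T] [HasShift T ℤ]
  [∀ n : ℤ, (shiftFunctor T n).Additive] [Pretriangulated T] [MonoidalCategory T]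
  [SymmetricCategory T] [TensorTriangulated T]

namespace Mul

theorem sphTensor_unit (k : ℤ) : (sphTensor k (𝟙_ T)).hom = (ρ_ ((𝟙_ T)⟦k⟧)).hom := by
  have h := NatTrans.shift_app_comm (BraidedCategory.tensorLeftIsoTensorRight (𝟙_ T)).hom k (𝟙_ T)
  have h1 : (csh (𝟙_ T) k (𝟙_ T)).hom ≫ ((β_ (𝟙_ T) (𝟙_ T)).hom)⟦k⟧' =
      (β_ (𝟙_ T) ((𝟙_ T)⟦k⟧)).hom ≫ ((tensorRight (𝟙_ T)).commShiftIso k).hom.app (𝟙_ T) := h
  have h2 : (sphTensor k (𝟙_ T)).hom =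
      ((tensorRight (𝟙_ T)).commShiftIso k).hom.app (𝟙_ T) ≫ ((λ_ (𝟙_ T)).hom)⟦k⟧' := rfl
  rw [← cancel_epi (β_ (𝟙_ T) ((𝟙_ T)⟦k⟧)).hom, braiding_rightUnitor, h2, ← reassoc_of% h1,
    ← Functor.map_comp, braiding_leftUnitor, ← unitors_equal, csh_leftUnitor]

@[reassoc]
theorem shift_sphTensor_inv {M : T} (i : 𝟙_ T ⟶ M) (k : ℤ) :
    i⟦k⟧' ≫ (sphTensor k M).inv = (redC i).app ((𝟙_ T)⟦k⟧) := by
  rw [Iso.comp_inv_eq, redC_app, Category.assoc, sphTensor_naturality, sphTensor_unit,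
    Iso.inv_hom_id_assoc]

variable {R : T} [MonObj R] (U : UnitCof R)

theorem redC_bV_aux {V : T} (i : 𝟙_ T ⟶ V) (s : ℕ) (Y : T) :
    (redC i).app (U.cobar.B s Y) ≫ (bV U V s Y).hom = U.cobar.Bm s ((redC i).app Y) := by
  induction s generalizing Y with
  | zero => exact Category.comp_id _
  | succ s ih =>
    rw [bV_succ]
    have h := ih (U.J ⊗ Y)
    refine ((reassoc_of% h) _).trans ?_
    rw [CobarData.Bm_succ, ← CobarData.Bm_comp]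
    congr 1
    rw [redC_app, redC_app]
    change ((ρ_ (U.J ⊗ Y)).inv ≫ (U.J ⊗ Y) ◁ i) ≫ (α_ U.J Y V).hom =
      U.J ◁ ((ρ_ Y).inv ≫ Y ◁ i)
    simp

theorem redC_bV {V : T} (i : 𝟙_ T ⟶ V) (s : ℕ) :
    (redC i).app (U.cobar.B s (𝟙_ T)) ≫ (bV U V s (𝟙_ T)).hom ≫ U.cobar.Bm s (λ_ V).hom =
      U.cobar.Bm s i := by
  rw [← Category.assoc, redC_bV_aux, ← CobarData.Bm_comp]
  congr 1
  rw [redC_app]
  change ((ρ_ (𝟙_ T)).inv ≫ 𝟙_ T ◁ i) ≫ (λ_ V).hom = i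
  rw [Category.assoc, leftUnitor_naturality, ← unitors_inv_equal, Iso.inv_hom_id_assoc]

/-- `κB` is compatible with the boundary maps of the tower. -/
@[reassoc]
theorem κB_k (k : ℤ) (s : ℕ) (Y : T) :
    (U.cobar.k s Y)⟦k⟧' ≫ U.κB k (s + 1) Y =
      (csh R k (U.cobar.B s Y)).inv ≫ (R ◁ U.κB k s Y) ≫ U.cobar.k s (Y⟦k⟧) := by
  induction s generalizing Y with
  | zero =>
    have h0 : U.κB k 1 Y = (csh U.J k Y).inv := Category.id_comp _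
    have h1 : R ◁ U.κB k 0 Y = 𝟙 _ := MonoidalCategory.whiskerLeft_id _ _
    rw [h0, h1]
    exact (csh_inv_tlMap U.ρ k Y).trans (congrArg _ (Category.id_comp _).symm)
  | succ s ih =>
    have h1 := U.cobar.k_naturality s (csh U.J k Y).inv
    have h2 := ih (U.J ⊗ Y)
    rw [U.κB_succ k (s + 1), U.κB_succ k s Y, MonoidalCategory.whiskerLeft_comp, Category.assoc]
    refine ((reassoc_of% h2) _).trans ?_
    exact congrArg _ (congrArg _ h1.symm)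

/-- The multiplication by `x` on the `E₁`-terms. -/
noncomputable def xiW {a s t : ℕ} (k : ℤ) {Y Z : T} (x : Y⟦k⟧ ⟶ U.cobar.B a Z) (hs : s + a = t) :
    (R ⊗ U.cobar.B s Y)⟦k⟧ ⟶ R ⊗ U.cobar.B t Z :=
  (csh R k (U.cobar.B s Y)).inv ≫ (R ◁ (U.κB k s Y ≫ U.cobar.Bm s x ≫ (eB U hs Z).hom))

theorem unit_xiW {a s t : ℕ} (k : ℤ) {Y Z : T} (x : Y⟦k⟧ ⟶ U.cobar.B a Z) (hs : s + a = t) :
    (unitMap R (U.cobar.B s Y))⟦k⟧' ≫ xiW U k x hs =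
      (U.κB k s Y ≫ U.cobar.Bm s x ≫ (eB U hs Z).hom) ≫ unitMap R _ := by
  rw [xiW, ← unitMap_csh_assoc, Iso.hom_inv_id_assoc, unitMap_nat]

theorem xiW_k {a s t : ℕ} (k : ℤ) {Y Z : T} (x : Y⟦k⟧ ⟶ U.cobar.B a Z) (hs : s + a = t)
    (hs' : s + 1 + a = t + 1) :
    (U.cobar.k s Y)⟦k⟧' ≫ U.κB k (s + 1) Y ≫ U.cobar.Bm (s + 1) x ≫ (eB U hs' Z).hom =
      xiW U k x hs ≫ U.cobar.k t Z := by
  have h1 := U.cobar.k_naturality s x
  rw [xiW, κB_k_assoc, MonoidalCategory.whiskerLeft_comp, MonoidalCategory.whiskerLeft_comp]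
  simp only [Category.assoc]
  rw [eB_k U hs hs', ← reassoc_of% h1]

theorem q_xiW {a s t : ℕ} (k : ℤ) {Y Y' Z Z' : T} (x : Y⟦k⟧ ⟶ U.cobar.B a Z) (hs : s + a = t)
    (hs' : s + (a + 1) = t + 1) (i : Y' ⟶ Y) (j : Z' ⟶ Z) (c : Y'⟦k⟧ ⟶ U.cobar.Q (a + 1) Z')
    (hx : i⟦k⟧' ≫ x ≫ unitMap R _ = c ≫ U.cobar.Qm (a + 1) j ≫ U.cobar.q a Z) :
    (U.cobar.Qm (s + 1) i ≫ U.cobar.q s Y)⟦k⟧' ≫ xiW U k x hs =
      U.κQ k (s + 1) Y' ≫ U.cobar.Qm s ((R ◁ c) ≫ om U a Z') ≫ (eQ U hs' Z').hom ≫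
        U.cobar.Qm (t + 1) j ≫ U.cobar.q t Z := by
  have h1 : (R ◁ i⟦k⟧') ≫ (R ◁ x) =
      ((R ◁ c) ≫ om U a Z') ≫ U.cobar.Qm (a + 1) j ≫ U.cobar.q a Z := by
    rw [Category.assoc, ← om_nat_assoc, ← om_q, ← MonoidalCategory.whiskerLeft_comp_assoc,
      ← MonoidalCategory.whiskerLeft_comp_assoc, Category.assoc, ← hx,
      MonoidalCategory.whiskerLeft_comp, MonoidalCategory.whiskerLeft_comp, Category.assoc,
      Category.assoc, whiskerLeft_unitMap_mulMap, Category.comp_id]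
  have h2 : U.cobar.Qm (s + 1) (i⟦k⟧') ≫ U.cobar.Qm (s + 1) x =
      U.cobar.Qm s ((R ◁ c) ≫ om U a Z') ≫ U.cobar.Qm s (U.cobar.Qm (a + 1) j) ≫
        U.cobar.Qm s (U.cobar.q a Z) := by
    rw [← CobarData.Qm_comp U.cobar s, ← CobarData.Qm_comp U.cobar s, ← h1, CobarData.Qm_comp]
    rfl
  have h3 := U.cobar.q_naturality s x
  rw [xiW, Functor.map_comp, MonoidalCategory.whiskerLeft_comp, MonoidalCategory.whiskerLeft_comp,
    Category.assoc, ← U.κQ_q_assoc, U.κQ_nat_assoc, ← reassoc_of% h3, reassoc_of% h2,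
    ← eQ_nat_assoc, eQ_q U hs hs']

/-- The vanishing of the cohomology of the `E₁`-term. -/
theorem van {C : Couple.{v, v}} (X : Cls C) {s : ℕ} {m : ℤ}
    (h : ∀ w : ℤ, m + ((s + 1 : ℕ) : ℤ) = 2 * w → AlgVan 3 1 (s + 1) w) : C.Van s m := by
  intro b hb
  by_cases h2 : 2 ∣ m + ((s + 1 : ℕ) : ℤ)
  · obtain ⟨w, hw⟩ := h2
    obtain ⟨z, hz, rfl⟩ := X.surj hw b hb
    obtain ⟨y, hy, hzy⟩ := h w hw z.1 z.2 hz
    have h1 : m + 1 + s = 2 * w := by push_cast at hw; omega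
    refine ⟨X.cls h1 ⟨y, hy⟩, ?_⟩
    rw [X.cls_d h1 rfl hw, eq_comm, ← sub_eq_zero, ← map_sub]
    exact X.cls_IC hw _ hzy
  · exact ⟨0, by rw [map_zero, X.odd h2 b]⟩

variable [HasCoproducts.{0} T] {D : MUData T} (G : Geo D)

/-- The multiplication on the `E₁`-terms is the cup product. -/
theorem cE_xiW {a s t : ℕ} {v w u : ℤ} (z : Cob.wt Laz a v)
    (x : G.M⟦2 * v⟧ ⟶ G.U.cobar.B a G.M) (hx : G.i⟦2 * v⟧' ≫ x ≫ unitMap D.R _ = G.cE z)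
    (hs : s + a = t) (hw : w + v = u) (k : 2 * w + 2 * v = 2 * u) (y : Cob.wt Laz s w) :
    sh (2 * w) (2 * v) (2 * u) k (G.cE y) ≫ xiW G.U (2 * v) x hs = G.cE (cpw hs hw y z) := by
  rw [G.cE_apply, G.cE_apply, sh_comp, Category.assoc,
    q_xiW G.U (2 * v) x hs (by omega) G.i G.i (G.ch z) hx, G.ch_cpw hs hw (by omega) k]
  simp only [Category.assoc]

end Mul

variable [HasCoproducts.{0} T] {D : MUData T} (G : Geo D)

/-- The bottom cell of the self map defined by `x`. -/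
theorem Geo.i_xM {a : ℕ} {k : ℤ} (x : (𝟙_ T)⟦k⟧ ⟶ G.U.cobar.B a (𝟙_ T)) :
    G.i⟦k⟧' ≫ G.xM x = x ≫ G.U.cobar.Bm a G.i := by
  have h : (redC G.i).app ((𝟙_ T)⟦k⟧) ≫ (x ▷ G.M) = x ≫ (redC G.i).app _ :=
    ((redC G.i).naturality x).symm
  rw [Geo.xM, Mul.shift_sphTensor_inv_assoc]
  refine ((reassoc_of% h) _).trans ?_
  rw [Mul.redC_bV]

theorem Geo.xM_det {a : ℕ} {w : ℤ} {x : (𝟙_ T)⟦2 * w⟧ ⟶ G.U.cobar.B a (𝟙_ T)}
    {z : Cob.wt Laz a w} (h : G.Det x z) :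
    G.i⟦2 * w⟧' ≫ G.xM x ≫ unitMap D.R _ = G.cE z := by
  have h1 := G.U.cobar.q_naturality a G.i
  rw [← Category.assoc, G.i_xM, Category.assoc, unitMap_nat, G.cE_apply, h1]
  exact (reassoc_of% (show x ≫ unitMap D.R _ = _ from h)) _

theorem Geo.det_of {a : ℕ} {w : ℤ} {x : (𝟙_ T)⟦2 * w⟧ ⟶ G.U.cobar.B a (𝟙_ T)}
    {z : Cob.wt Laz a w}
    (h : ((B.sphE T w).inv ≫ D.phi G.U a w z) ≫ G.U.cobar.q a (𝟙_ T) = x ≫ unitMap D.R _) :
    G.Det ((G.c w).inv ≫ (B.sphE T w).hom ≫ x) z := by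
  rw [Geo.Det, Category.assoc, Category.assoc, ← h, G.ch_apply]
  simp only [Category.assoc, Iso.hom_inv_id_assoc]

variable [MonoidalClosed T] [IsTriangulated T] [HasProducts.{0} T] [StableCat T]

/-- The multiplication by a map `M⟦2 v⟧ ⟶ B a M` which is detected by `z` on the bottom cell. -/
noncomputable def Geo.mulA {a : ℕ} {v e : ℤ} (hv : 0 ≤ v) (he : e + a = 2 * v)
    (z : Cob.wt Laz a v) (x : G.M⟦2 * v⟧ ⟶ G.U.cobar.B a G.M)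
    (hx : G.i⟦2 * v⟧' ≫ x ≫ unitMap D.R _ = G.cE z) : MulA G.X z e where
  μ hs hn := G.mu he x hs hn
  i_μ hs hn y := G.i_mu he ⟨v.toNat, by rw [Int.toNat_of_nonneg hv]⟩ x hs hn y
  j_μ {s t n n' w u} hs hn hw h h' y ζ hy := by
    have k : 2 * w + 2 * v = 2 * u := by omega
    rw [G.X_cls, G.j_eq_cls] at hy ⊢
    rw [G.eD_mu he x hs hn h h' k, Category.assoc, ← Mul.unit_xiW, ← Category.assoc, ← sh_comp, hy,
      Mul.cE_xiW G z x hx hs hw k]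
  k_μ {s t n n' m m' w u} hs hm hw h h' k k' ζ := by
    have e : 2 * w + 2 * v = 2 * u := by omega
    have h1 : m + ((s + 1 : ℕ) : ℤ) = 2 * w := by push_cast; omega
    have h2 : m' + ((t + 1 : ℕ) : ℤ) = 2 * u := by push_cast; omega
    apply (G.eD h2).injective
    rw [G.eD_mu he x _ hm h1 h2 e, G.eD_k k h h1, G.eD_k k' h' h2, G.X_cls, G.X_cls, G.eE_cls,
      G.eE_cls, sh_comp, Category.assoc, Mul.xiW_k G.U (2 * v) x hs, ← Category.assoc,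
      Mul.cE_xiW G z x hx hs hw e]

theorem Geo.mulA_mu {a : ℕ} {v e : ℤ} (hv : 0 ≤ v) (he : e + a = 2 * v)
    (z : Cob.wt Laz a v) (x : G.M⟦2 * v⟧ ⟶ G.U.cobar.B a G.M)
    (hx : G.i⟦2 * v⟧' ≫ x ≫ unitMap D.R _ = G.cE z) {s t : ℕ} {n n' : ℤ} (hs : s + a = t)
    (hn : n + e = n') : (G.mulA hv he z x hx).μ hs hn = G.mu he x hs hn := rfl

/-- The element `α₁`. -/
theorem Geo.exists_alpha : ∃ x : (𝟙_ T)⟦2 * (2 : ℤ)⟧ ⟶ G.U.cobar.B 1 (𝟙_ T), G.Det x t1w := by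
  have : Fact (Nat.Prime 3) := ⟨Nat.prime_three⟩
  obtain ⟨x, hx⟩ := H762.exists_alpha_one D G.U (p := 3) (by norm_num) isT1_t1 (v := 2)
    (by norm_num) isWt_t1
  exact ⟨_, G.det_of hx⟩

/-- The element `β₁`. -/
theorem Geo.exists_beta : ∃ x : (𝟙_ T)⟦2 * (6 : ℤ)⟧ ⟶ G.U.cobar.B 2 (𝟙_ T), G.Det x b0w := by
  have : Fact (Nat.Prime 3) := ⟨Nat.prime_three⟩
  obtain ⟨x, hx⟩ := B.exists_beta_one D G.U (p := 3) (by norm_num) isT1_t1 (w := 6)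
    (by norm_num) isWt_b
  exact ⟨_, G.det_of hx⟩

/-- The self map `v₁` of the Moore spectrum. -/
theorem Geo.exists_vmap : ∃ x : G.M⟦2 * (2 : ℤ)⟧ ⟶ G.U.cobar.B 0 G.M,
    G.i⟦2 * (2 : ℤ)⟧' ≫ x ≫ unitMap D.R _ = G.cE v1w := by
  have : Fact (Nat.Prime 3) := ⟨Nat.prime_three⟩
  have h : (4 : ℤ) + ((0 : ℕ) : ℤ) = 2 * 2 := by norm_num
  obtain ⟨y, hy⟩ := G.C.exists_lift (s := 0) (n := 4) (m := 3) rfl (G.X.cls h v1w)
    (fun m hm => by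
      have h' : m + ((0 + 1 : ℕ) : ℤ) = 2 * 2 := by push_cast; omega
      rw [G.X.cls_d h hm h']
      exact G.X.cls_IC h' _ (d_mem_of_div three_t1))
    (fun s hs => Mul.van G.X fun w hw => algVan_line le_rfl (by
      push_cast at hw ⊢
      omega)) 3 (G.X.conv (by norm_num))
  rw [G.X_cls, G.j_eq_cls] at hy
  have h3 : (((3 : ℕ) : ℤ) • 𝟙 ((𝟙_ T)⟦2 * (2 : ℤ)⟧)) ≫ (G.eD h y : _ ⟶ G.M) = 0 := by
    rw [Preadditive.zsmul_comp, Category.id_comp, ← Category.comp_id (G.eD h y),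
      ← Preadditive.comp_zsmul, G.three_id, comp_zero]
  obtain ⟨x, hx⟩ : ∃ x : (𝟙_ T)⟦2 * (2 : ℤ)⟧ ⊗ G.M ⟶ G.M,
      G.eD h y = (redC G.i).app ((𝟙_ T)⟦2 * (2 : ℤ)⟧) ≫ x :=
    Triangle.yoneda_exact₂ _ (redTri_distinguished G.dist _) _ h3
  refine ⟨(sphTensor _ G.M).inv ≫ x, ?_⟩
  rw [← hy, hx, Category.assoc, Mul.shift_sphTensor_inv_assoc, Category.assoc]

/-- The multiplication by `v₁`. -/
theorem Geo.exists_V : Nonempty (MulA G.X v1w 4) := by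
  obtain ⟨x, hx⟩ := G.exists_vmap
  exact ⟨G.mulA (by norm_num) (by norm_num) v1w x hx⟩

end Vale.Agent.P236T
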