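import Vale.Agent.P236T.Ops
import Vale.Agent.P257.H762.TL
import Vale.Agent.P257.H163.Toda

/-!
# P236T: the relations `α β³ = 0` and `β ∈ ⟨α, α, α⟩` on objects killed by three
-/

open CategoryTheory MonoidalCategory Limits Pretriangulated MonObj

set_option linter.unusedSectionVars false

universe v u

namespace Vale.Agent.P236T

open Vale.Agent.P251 Vale.Agent.P251.T Vale.Agent.P251.M Vale.Agent.P251.F Vale.Agent.P251.I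
  Vale.Agent.P257 Vale.Agent.P257.H820 Vale.Agent.P257.H762
open Vale.Agent.P251.S hiding IC
open Vale.Agent.P251.B (sphE)

variable {T : Type u} [Category.{v} T] [Preadditive T] [HasZeroObject T] [HasShift T ℤ]
  [∀ n : ℤ, (shiftFunctor T n).Additive] [Pretriangulated T] [MonoidalCategory T]
  [SymmetricCategory T] [TensorTriangulated T]

namespace Rel

theorem tz_eq {e : ℤ} (g : (𝟙_ T)⟦e⟧ ⟶ 𝟙_ T) (N : T) :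
    tz g N = (sphTensor e N).inv ≫ (β_ _ N).hom ≫ (N ◁ g) ≫ (ρ_ N).hom := by
  rw [tz, ← BraidedCategory.braiding_naturality_left_assoc, braiding_rightUnitor]

/-- The comparison isomorphism of the sources. -/
noncomputable def θ {t e t' : ℤ} (h : t + e = t') :
    (𝟙_ T)⟦t'⟧ ≅ (𝟙_ T)⟦t⟧ ⊗ (𝟙_ T)⟦e⟧ :=
  (shiftFunctorAdd' T t e t' h).app (𝟙_ T) ≪≫ (sphTensor e _).symm ≪≫ β_ _ _

theorem op_eq {e : ℤ} (g : (𝟙_ T)⟦e⟧ ⟶ 𝟙_ T) (N : T) {t t' : ℤ} (h : t + e = t')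
    (z : (𝟙_ T)⟦t⟧ ⟶ N) :
    op g N h z = (θ h).hom ≫ ((𝟙_ T)⟦t⟧ ◁ g) ≫ (ρ_ _).hom ≫ z := by
  have h1 : op g N h z =
      (shiftFunctorAdd' T t e t' h).hom.app (𝟙_ T) ≫ z⟦e⟧' ≫ tz g N := Category.assoc _ _ _
  rw [h1, tz_nat, tz_eq]
  simp [θ]

theorem AI_op {e : ℤ} (g : (𝟙_ T)⟦e⟧ ⟶ 𝟙_ T) (N : T) {t t' : ℤ} (h : t + e = t')
    (z : (𝟙_ T)⟦t⟧ ⟶ N) : AI (op g N h z) (z ⊗ₘ g) :=
  ⟨θ h, (ρ_ N).symm, by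
    rw [op_eq, tensorHom_def', Iso.symm_hom, Category.assoc, Category.assoc, Category.assoc,
      rightUnitor_inv_naturality, Iso.hom_inv_id_assoc]⟩

/-- Whatever kills `g'` kills `g`. -/
def Sus {A B A' B' : T} (g' : A' ⟶ B') (g : A ⟶ B) : Prop :=
  ∀ ⦃X Y : T⦄ (f : X ⟶ Y), f ⊗ₘ g' = 0 → f ⊗ₘ g = 0

namespace Sus

variable {A B A' B' A'' B'' : T} {g : A ⟶ B} {g' : A' ⟶ B'} {g'' : A'' ⟶ B''}

theorem of_AI (h : AI g' g) : Sus g' g := fun _ _ f h0 => ((AI.refl f).tensor h).eq_zero' h0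

theorem trans (h : Sus g'' g') (h' : Sus g' g) : Sus g'' g :=
  fun _ _ f h0 => h' f (h f h0)

theorem tensor {C D C' D' : T} {k : C ⟶ D} {k' : C' ⟶ D'} (h : Sus g' g) (h' : Sus k' k) :
    Sus (g' ⊗ₘ k') (g ⊗ₘ k) := fun _ _ f h0 => by
  have h1 := h' _ ((AI.assoc f g' k').eq_zero h0)
  have h2 := ((AI.refl f).tensor (AI.braid g' k)).eq_zero' ((AI.assoc f g' k).eq_zero' h1)
  have h3 := h _ ((AI.assoc f k g').eq_zero h2)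
  exact ((AI.refl f).tensor (AI.braid g k)).eq_zero ((AI.assoc f k g).eq_zero' h3)

theorem AI_shift (g : A ⟶ B) : AI (g ⊗ₘ 𝟙 ((𝟙_ T)⟦(1 : ℤ)⟧)) (g⟦(1 : ℤ)⟧') :=
  ⟨tensorSph 1 A, tensorSph 1 B, by rw [tensorHom_id, tensorSph_naturality]⟩

theorem shift (g : A ⟶ B) : Sus (g⟦(1 : ℤ)⟧') g := fun _ _ f h0 => by
  have h1 := ((AI.refl f).tensor (AI_shift g)).eq_zero h0
  have h2 := (AI_shift (f ⊗ₘ g)).eq_zero' ((AI.assoc _ _ _).eq_zero h1)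
  exact (shiftFunctor T (1 : ℤ)).map_injective (h2.trans (Functor.map_zero _ _ _).symm)

theorem sh {P Y : T} {t t' : ℤ} (h : t + 1 = t') (f : P⟦t⟧ ⟶ Y) : Sus (sh t 1 t' h f) f :=
  (of_AI (AI.of_iso_comp ((shiftFunctorAdd' T t 1 t' h).app P) _)).trans (shift f)

theorem pow (h : Sus g' g) : ∀ n : ℕ, Sus (tSm (𝟙 (𝟙_ T)) g' n) (tSm (𝟙 (𝟙_ T)) g n)
  | 0 => fun _ _ _ h0 => h0
  | n + 1 => (pow h n).tensor h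

end Sus

/-- The rotation of a triangle, with another name for the third object. -/
theorem cone_rot {L L' X K : T} {α : L ⟶ X} {e : X ⟶ K} {π : K ⟶ L⟦(1 : ℤ)⟧}
    (h : Triangle.mk α e π ∈ distTriang T) (ψ : L' ≅ L⟦(1 : ℤ)⟧) :
    Triangle.mk e (-(π ≫ ψ.inv)) (ψ.hom ≫ α⟦(1 : ℤ)⟧') ∈ distTriang T := by
  refine isomorphic_distinguished _ (rot_of_distTriang _ h) _
    (Triangle.isoMk _ _ (Iso.refl _) (Iso.refl _) (-ψ) ?_ ?_ ?_)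
  · exact (Category.comp_id _).trans (Category.id_comp _).symm
  · change (-(π ≫ ψ.inv)) ≫ (-ψ.hom) = 𝟙 K ≫ π
    simp
  · change (ψ.hom ≫ α⟦(1 : ℤ)⟧') ≫ (𝟙 X)⟦(1 : ℤ)⟧' = (-ψ.hom) ≫ (-α⟦(1 : ℤ)⟧')
    simp

/-- The relations, from the divisibility of `β (e ⊗ e)` and the vanishing of `β³ α`. -/
theorem opRel_of {α : (𝟙_ T)⟦(3 : ℤ)⟧ ⟶ 𝟙_ T} {β : (𝟙_ T)⟦(10 : ℤ)⟧ ⟶ 𝟙_ T} {N K : T} {n : ℤ}
    {e : 𝟙_ T ⟶ K} {π : K ⟶ ((𝟙_ T)⟦(3 : ℤ)⟧)⟦(1 : ℤ)⟧} (hK : Triangle.mk α e π ∈ distTriang T)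
    (hN : Kil n N) (hI : ∃ g, n • g = β ≫ epow e 2)
    (hII : ∀ {S : T} (z : S ⟶ N), z ⊗ₘ (tSm (𝟙 (𝟙_ T)) β 3 ⊗ₘ α) = 0) : OpRel α β N where
  bbba h₁ h₂ h₃ h₄ z := by
    have h1 : tSm (z ⊗ₘ α) β 3 = 0 := (AI_tSm _ _ _).eq_zero ((AI.assoc _ _ _).eq_zero
      (((AI.refl z).tensor (AI.braid _ _)).eq_zero (hII z)))
    exact ((AI_op _ _ _ _).trans ((((AI_op _ _ _ _).trans (((AI_op _ _ _ _).trans
      ((AI_op _ _ _ _).tensor (AI.refl β))).tensor (AI.refl β)))).tensor (AI.refl β))).eq_zero h1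
  abbb h₁ h₂ h₃ h₄ z := by
    have h1 : tSm z β 3 ⊗ₘ α = 0 := ((AI_tSm _ _ _).tensor (AI.refl α)).eq_zero
      ((AI.assoc _ _ _).eq_zero (hII z))
    exact ((AI_op _ _ _ _).trans ((((AI_op _ _ _ _).trans (((AI_op _ _ _ _).trans
      ((AI_op _ _ _ _).tensor (AI.refl β))).tensor (AI.refl β)))).tensor (AI.refl α))).eq_zero h1
  bracket {n₀ _ n₂ n₃} h₁ h₂ h₃ z hz := by
    rw [op_eq, Preadditive.IsIso.comp_left_eq_zero] at hz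
    obtain ⟨F, hF⟩ := Triangle.yoneda_exact₂ _ (dist_whiskerLeft ((𝟙_ T)⟦n₀⟧) hK) _ hz
    have h1 : Ext e z := ⟨F, hF.symm⟩
    have h2 : Ext e ((ρ_ N).inv ≫ (N ◁ e)) :=
      ⟨𝟙 _, by rw [Category.comp_id, Iso.hom_inv_id_assoc]⟩
    obtain ⟨F₂, hF₂⟩ : Ext (epow e 2) ((𝟙 _ ≫ z) ≫ (ρ_ N).inv ≫ (N ◁ e)) :=
      ((Ext.zero_pow e (𝟙 _)).comp h1).comp h2
    obtain ⟨g, hg⟩ := hI
    have h3 : (op β N h₂ z ≫ (ρ_ N).inv) ≫ (N ◁ e) = 0 := by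
      rw [Category.id_comp] at hF₂
      rw [op_eq, Category.assoc, Category.assoc, Category.assoc, Category.assoc, ← hF₂,
        ← MonoidalCategory.whiskerLeft_comp_assoc, ← hg, whiskerLeft_zsmul',
        Preadditive.zsmul_comp, Preadditive.comp_zsmul]
      exact (hN.tensor K).comp _
    obtain ⟨k, hk⟩ : ∃ k : (𝟙_ T)⟦n₃⟧ ⟶ N ⊗ (𝟙_ T)⟦(3 : ℤ)⟧,
        op β N h₂ z ≫ (ρ_ N).inv = k ≫ (N ◁ α) :=
      Triangle.coyoneda_exact₂ _ (dist_whiskerLeft N hK) _ h3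
    refine ⟨(sh n₂ 3 n₃ h₃).symm (k ≫ (β_ _ N).inv ≫ (sphTensor 3 N).hom), ?_⟩
    rw [op_apply α, AddEquiv.apply_symm_apply, tz_eq, Category.assoc, Category.assoc,
      Iso.hom_inv_id_assoc, Iso.inv_hom_id_assoc, ← reassoc_of% hk, Iso.inv_hom_id,
      Category.comp_id]

variable [HasCoproducts.{0} T] [MonoidalClosed T] [IsTriangulated T] [HasProducts.{0} T]
  [StableCat T] {D : MUData T}

theorem todaRel' {U : UnitCof D.R} {p : ℕ} (H : H545.TodaRel p D U) {t : Cob Laz 1}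
    (ht : IsT1 p t) {v w : ℤ} (hv : v = (p : ℤ) - 1) (hw : w = (p : ℤ) * ((p : ℤ) - 1))
    (htw : Cob.IsWt v t) (hb : Cob.IsWt w (bcls p t)) (a : (𝟙_ T)⟦2 * v⟧ ⟶ U.cobar.B 1 (𝟙_ T))
    (ha : ((sphE T v).inv ≫ D.phi U 1 v ⟨t, htw⟩) ≫ U.cobar.q 1 (𝟙_ T) = a ≫ unitMap D.R _)
    (x : (𝟙_ T)⟦2 * w⟧ ⟶ U.cobar.B 2 (𝟙_ T))
    (hx : ((sphE T w).inv ≫ D.phi U 2 w ⟨bcls p t, hb⟩) ≫ U.cobar.q 2 (𝟙_ T) =
      x ≫ unitMap D.R _) :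
    ∃ g, (p : ℤ) • g = tSm (𝟙 (𝟙_ T)) (x ≫ U.bd 1 (𝟙_ T) ≫ (U.bd 0 (𝟙_ T))⟦(1 : ℤ)⟧') p ⊗ₘ
      (a ≫ U.bd 0 (𝟙_ T)) := by
  subst hv hw
  exact H t ht htw hb a ha x hx

theorem det_sphE (G : Geo D) {a : ℕ} {w : ℤ} {x : (𝟙_ T)⟦2 * w⟧ ⟶ G.U.cobar.B a (𝟙_ T)}
    {ζ : Cob.wt Laz a w} (h : G.Det x ζ) :
    ((sphE T w).inv ≫ D.phi G.U a w ζ) ≫ G.U.cobar.q a (𝟙_ T) =
      (((sphE T w).symm ≪≫ G.c w).hom ≫ x) ≫ unitMap D.R _ := by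
  rw [Category.assoc _ x, h, Geo.ch_apply]
  simp

end Rel

open _root_.Vale.Agent.P236T.Rel

variable [HasCoproducts.{0} T] [MonoidalClosed T] [IsTriangulated T] [HasProducts.{0} T]
  [StableCat T] {D : MUData T} (G : Geo D)

/-- The relations between `α₁` and `β₁` on objects killed by three. -/
theorem Geo.opRel (F : SpaceFunctor T) (x : (𝟙_ T)⟦2 * (2 : ℤ)⟧ ⟶ G.U.cobar.B 1 (𝟙_ T))
    (y : (𝟙_ T)⟦2 * (6 : ℤ)⟧ ⟶ G.U.cobar.B 2 (𝟙_ T)) (hx : G.Det x t1w) (hy : G.Det y b0w)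
    (N : T) (hN : ((3 : ℕ) : ℤ) • 𝟙 N = 0) :
    OpRel (hat₁ G.U (e := 3) (by norm_num) x) (hat₂ G.U (e := 10) (by norm_num) y) N := by
  have e₁ : (3 : ℤ) + 1 = 2 * 2 := by norm_num
  have e₂ : (10 : ℤ) + 1 + 1 = 2 * 6 := by norm_num
  obtain ⟨α, hα⟩ : ∃ α, α = hat₁ G.U e₁ x := ⟨_, rfl⟩
  obtain ⟨β, hβ⟩ : ∃ β, β = hat₂ G.U e₂ y := ⟨_, rfl⟩
  have h1 : x ≫ G.U.bd 0 (𝟙_ T) = sh (P := 𝟙_ T) (Y := 𝟙_ T) 3 1 _ e₁ α := by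
    rw [hα, hat₁, AddEquiv.apply_symm_apply]
  have h2 : y ≫ G.U.bd 1 (𝟙_ T) ≫ (G.U.bd 0 (𝟙_ T))⟦(1 : ℤ)⟧' =
      sh (P := 𝟙_ T) (Y := (𝟙_ T)⟦(1 : ℤ)⟧) (10 + 1) 1 _ e₂
        (sh (P := 𝟙_ T) (Y := 𝟙_ T) 10 1 _ rfl β) := by
    rw [hβ, hat₂, AddEquiv.apply_symm_apply, AddEquiv.apply_symm_apply]
  rw [← hα, ← hβ]
  obtain ⟨K, e, π, hK⟩ := distinguished_cocone_triangle α
  let φ := (sphE T 2).symm ≪≫ G.c 2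
  let ψ := (sphE T 6).symm ≪≫ G.c 6
  have h3 : (φ.hom ≫ x) ≫ G.U.bd 0 (𝟙_ T) =
      (φ ≪≫ (shiftFunctorAdd' T 3 1 _ e₁).app (𝟙_ T)).hom ≫ α⟦(1 : ℤ)⟧' :=
    (Category.assoc _ _ _).trans ((congrArg (φ.hom ≫ ·) h1).trans (Category.assoc _ _ _).symm)
  have h4 : (ψ.hom ≫ y) ≫ G.U.bd 1 (𝟙_ T) ≫ (G.U.bd 0 (𝟙_ T))⟦(1 : ℤ)⟧' =
      ψ.hom ≫ sh (P := 𝟙_ T) (Y := (𝟙_ T)⟦(1 : ℤ)⟧) (10 + 1) 1 _ e₂
        (sh (P := 𝟙_ T) (Y := 𝟙_ T) 10 1 _ rfl β) :=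
    (Category.assoc _ _ _).trans (congrArg (ψ.hom ≫ ·) h2)
  refine opRel_of hK hN ?_ fun z => ?_
  · have h5 := cone_rot hK (φ ≪≫ (shiftFunctorAdd' T 3 1 _ e₁).app (𝟙_ T))
    rw [← h3] at h5
    obtain ⟨g, hg⟩ : ∃ g : (𝟙_ T)⟦2 * (6 : ℤ)⟧ ⟶ (G.U.cobar.B 1 (Am K 2))⟦(1 : ℤ)⟧,
        ((3 : ℕ) : ℤ) • g = (ψ.hom ≫ y) ≫ G.U.bd 1 (𝟙_ T) ≫
          (G.U.cobar.Bm 1 (epow e 2))⟦(1 : ℤ)⟧' :=
      toda_zero D G.U (p := 3) (by norm_num) isT1_t1 (by norm_num) (by norm_num) isWt_t1 isWt_b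
        _ (det_sphE G hx) _ (det_sphE G hy) h5
    have h6 : G.U.cobar.Bm 1 (epow e 2) ≫ G.U.bd 0 (Am K 2) =
        G.U.bd 0 (𝟙_ T) ≫ (epow e 2)⟦(1 : ℤ)⟧' := G.U.bd_naturality 0 _
    refine ⟨(sh (P := 𝟙_ T) (Y := Am K 2) 10 1 _ rfl).symm
      ((sh (P := 𝟙_ T) (Y := (Am K 2)⟦(1 : ℤ)⟧) (10 + 1) 1 _ e₂).symm
        (ψ.inv ≫ g ≫ (G.U.bd 0 (Am K 2))⟦(1 : ℤ)⟧')), ?_⟩
    rw [← map_zsmul, ← map_zsmul, AddEquiv.symm_apply_eq, AddEquiv.symm_apply_eq, sh_comp,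
      sh_comp, ← h2, ← Preadditive.comp_zsmul, ← Preadditive.zsmul_comp, hg, Category.assoc,
      Category.assoc, Category.assoc, Iso.inv_hom_id_assoc, ← Functor.map_comp, h6,
      Functor.map_comp, Category.assoc, Category.assoc]
  · have h5 := todaRel' (H163.todaRel F D G.U (p := 3) (by norm_num) G.dist) isT1_t1
      (by norm_num) (by norm_num) isWt_t1 isWt_b _ (det_sphE G hx) _ (det_sphE G hy)
    have h6 : Sus ((φ.hom ≫ x) ≫ G.U.bd 0 (𝟙_ T)) α := by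
      rw [h3]
      exact (Sus.of_AI (AI.of_iso_comp _ _)).trans (Sus.shift α)
    have h7 : Sus ((ψ.hom ≫ y) ≫ G.U.bd 1 (𝟙_ T) ≫ (G.U.bd 0 (𝟙_ T))⟦(1 : ℤ)⟧') β := by
      rw [h4]
      exact ((Sus.of_AI (AI.of_iso_comp _ _)).trans (Sus.sh _ _)).trans (Sus.sh _ _)
    refine (h7.pow 3).tensor h6 z ?_
    rw [MonoidalCategory.tensorHom_def, ← MonoidalCategory.id_tensorHom, Kil.tensorHom hN h5,
      comp_zero]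

end Vale.Agent.P236T
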