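import Vale.Agent.P236T.Asm
import Vale.Agent.P236T.Rel
import Vale.Agent.P236K.Fin2

/-!
# P236T: the topological side is complete
-/

open CategoryTheory MonoidalCategory Limits Pretriangulated

universe u

namespace Vale.Agent.P236T

open Vale.Agent.P251 Vale.Agent.P251.T Vale.Agent.P251.M Vale.Agent.P251.I Vale.Agent.P251.St

section

variable {T : Type u} [Category.{0} T] [Preadditive T] [HasZeroObject T] [HasShift T ℤ]
  [∀ n : ℤ, (shiftFunctor T n).Additive] [Pretriangulated T] [MonoidalCategory T]
  [SymmetricCategory T] [TensorTriangulated T] [HasCoproducts.{0} T]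
  [MonoidalClosed T] [IsTriangulated T] [HasProducts.{0} T] [StableCat T]

theorem Geo.top {D : MUData T} (G : Geo D) (F : SpaceFunctor T) : ∃ P : Top G.C, P.X = G.X :=
  G.exists_top F fun x y hx hy N hN => G.opRel F x y hx hy N hN

theorem exists_top (F : SpaceFunctor T) (D : MUData T) :
    ∃ (G : Geo D) (P : Top G.C), P.X = G.X := by
  obtain ⟨G⟩ := exists_geo D
  exact ⟨G, G.top F⟩

end

theorem moore_of_alg (h : AlgFacts) (T : SHCat) (F : SpaceFunctor T.C) (D : MUData T.C) :
    P236K.Moore D 2 ∧ P236K.Moore D 3 := by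
  obtain ⟨G, P, hP⟩ := exists_top F D
  exact G.moore_of P hP (P.perm h)

/-- The full statement follows from the two algebraic inputs. -/
theorem final_of_alg (hA : P236K.A2) (h : AlgFacts) :
    (∃ (T : SHCat) (S : Susp T), Nonempty (P251CX.IsSH T S.1)) ∧
      ∀ (T : SHCat) (_ : Susp T), P236K.Goal T :=
  P236K.final_of_moore hA (moore_of_alg h)

end Vale.Agent.P236T
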