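import Vale.Agent.P236T.Top
import Vale.Agent.P257.H820.TowIso
import Vale.Agent.P257.H820.LeibJ
import Vale.Agent.P257.H709.LowPi
import Vale.Agent.P257.H709.ModPProd

/-!
# P236T: the exact couple of the Moore spectrum

`Geo D`: a cofibre of the unit of `D.R`, a Moore spectrum `M = S / 3` and a multiplicative family
of identifications `S^{2 w} ≅ 𝟙⟦2 w⟧`.  `G.C` is the couple of the tower of `M`, `G.X` the
description of its `E₁`-term by cochains and `G.mu` the multiplication by a map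
`M⟦k⟧ ⟶ B a M`.
-/

open CategoryTheory MonoidalCategory Limits Pretriangulated MonObj Opposite

set_option linter.unusedSectionVars false

universe v u

namespace Vale.Agent.P236T

open Vale.Agent.P251 Vale.Agent.P251.T Vale.Agent.P251.M Vale.Agent.P251.F Vale.Agent.P251.I
  Vale.Agent.P257 Vale.Agent.P257.H314 Vale.Agent.P257.H820
open Vale.Agent.P251.S hiding IC

variable {T : Type u} [Category.{v} T] [Preadditive T] [HasZeroObject T] [HasShift T ℤ]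
  [∀ n : ℤ, (shiftFunctor T n).Additive] [Pretriangulated T] [MonoidalCategory T]
  [SymmetricCategory T] [TensorTriangulated T]

/-! ### concatenation of the stages -/

section Conc

variable {R : T} [MonObj R] (U : UnitCof R)

theorem B_B {r s n : ℕ} (h : r + s = n) (Y : T) :
    U.cobar.B r (U.cobar.B s Y) = U.cobar.B n Y := by
  subst h
  induction s generalizing Y with
  | zero => rfl
  | succ s ih => exact ih (U.J ⊗ Y)

theorem Q_Q {r s n : ℕ} (h : r + s = n) (Y : T) :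
    U.cobar.Q r (U.cobar.Q s Y) = U.cobar.Q n Y := by
  subst h
  induction s generalizing Y with
  | zero => rfl
  | succ s ih => exact ih (R ⊗ Y)

/-- `B r (B s Y) ≅ B (r + s) Y` -/
def eB {r s n : ℕ} (h : r + s = n) (Y : T) : U.cobar.B r (U.cobar.B s Y) ≅ U.cobar.B n Y :=
  eqToIso (B_B U h Y)

/-- `Q r (Q s Y) ≅ Q (r + s) Y` -/
def eQ {r s n : ℕ} (h : r + s = n) (Y : T) : U.cobar.Q r (U.cobar.Q s Y) ≅ U.cobar.Q n Y :=
  eqToIso (Q_Q U h Y)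

theorem eB_zero {r : ℕ} (h : r + 0 = r) (Y : T) : (eB U h Y).hom = 𝟙 _ := rfl

theorem eB_succ {r s n : ℕ} (h : r + s = n) (h' : r + (s + 1) = n + 1) (Y : T) :
    (eB U h' Y).hom = (eB U h (U.J ⊗ Y)).hom := rfl

theorem eQ_zero {r : ℕ} (h : r + 0 = r) (Y : T) : (eQ U h Y).hom = 𝟙 _ := rfl

theorem eQ_succ {r s n : ℕ} (h : r + s = n) (h' : r + (s + 1) = n + 1) (Y : T) :
    (eQ U h' Y).hom = (eQ U h (R ⊗ Y)).hom := rfl

@[reassoc]
theorem eB_bd {r s n : ℕ} (h : r + s = n) (h' : r + 1 + s = n + 1) (Y : T) :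
    (eB U h' Y).hom ≫ U.bd n Y = U.bd r (U.cobar.B s Y) ≫ ((eB U h Y).hom)⟦(1 : ℤ)⟧' := by
  subst h
  induction s generalizing Y with
  | zero =>
    refine (Category.id_comp _).trans ?_
    exact ((congrArg _ (CategoryTheory.Functor.map_id _ _)).trans (Category.comp_id _)).symm
  | succ s ih => exact ih (U.J ⊗ Y) (by omega)

@[reassoc]
theorem eB_k {r s n : ℕ} (h : r + s = n) (h' : r + 1 + s = n + 1) (Y : T) :
    (R ◁ (eB U h Y).hom) ≫ U.cobar.k n Y = U.cobar.k r (U.cobar.B s Y) ≫ (eB U h' Y).hom := by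
  subst h
  induction s generalizing Y with
  | zero =>
    refine Eq.trans ?_ (Category.comp_id _).symm
    exact (congrArg (· ≫ _) (MonoidalCategory.whiskerLeft_id _ _)).trans (Category.id_comp _)
  | succ s ih => exact ih (U.J ⊗ Y) (by omega)

@[reassoc]
theorem eB_nat {r s n : ℕ} (h : r + s = n) {X Y : T} (f : X ⟶ Y) :
    U.cobar.Bm r (U.cobar.Bm s f) ≫ (eB U h Y).hom = (eB U h X).hom ≫ U.cobar.Bm n f := by
  subst h
  induction s generalizing X Y with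
  | zero => exact (Category.comp_id _).trans (Category.id_comp _).symm
  | succ s ih => exact ih (U.J ◁ f)

@[reassoc]
theorem eQ_nat {r s n : ℕ} (h : r + s = n) {X Y : T} (f : X ⟶ Y) :
    U.cobar.Qm r (U.cobar.Qm s f) ≫ (eQ U h Y).hom = (eQ U h X).hom ≫ U.cobar.Qm n f := by
  subst h
  induction s generalizing X Y with
  | zero => exact (Category.comp_id _).trans (Category.id_comp _).symm
  | succ s ih => exact ih (R ◁ f)

/-- The projections of the cobar complexes and the concatenations. -/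
@[reassoc]
theorem eQ_q {r s n : ℕ} (h : r + s = n) (h' : r + (s + 1) = n + 1) (Y : T) :
    (eQ U h' Y).hom ≫ U.cobar.q n Y =
      U.cobar.Qm r (U.cobar.q s Y) ≫ U.cobar.q r (U.cobar.B s Y) ≫ (R ◁ (eB U h Y).hom) := by
  subst h
  induction s generalizing Y with
  | zero =>
    refine (Category.id_comp _).trans ?_
    rw [CobarData.q_zero, CobarData.Qm_id]
    refine Eq.trans ?_ (Category.id_comp _).symm
    exact ((congrArg _ (MonoidalCategory.whiskerLeft_id _ _)).trans (Category.comp_id _)).symm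
  | succ s ih =>
    have h1 := eQ_nat U (show r + (s + 1) = r + s + 1 from rfl) (U.ρ ▷ Y)
    have h2 := ih (U.J ⊗ Y) rfl
    rw [CobarData.q_succ U.cobar s Y, CobarData.Qm_comp, Category.assoc]
    refine Eq.trans ?_ (congrArg _ h2)
    exact ((reassoc_of% h1) _).symm

end Conc

variable [HasCoproducts.{0} T]

/-- The data of the topological side. -/
structure Geo (D : MUData T) where
  /-- the cofibre of the unit -/
  U : UnitCof D.R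
  /-- the Moore spectrum -/
  M : T
  /-- the bottom cell -/
  i : 𝟙_ T ⟶ M
  /-- the top cell -/
  δ : M ⟶ (𝟙_ T)⟦(1 : ℤ)⟧
  dist : Triangle.mk (((3 : ℕ) : ℤ) • 𝟙 (𝟙_ T)) i δ ∈ distTriang T
  /-- the even spheres -/
  c : ∀ w : ℤ, (stdEven T).S w ≅ (𝟙_ T)⟦2 * w⟧
  coh : ∀ {w v u : ℤ} (h : w + v = u) (k : 2 * w + 2 * v = 2 * u), prodSph (c w) (c v) h k = c u

namespace Geo

variable {D : MUData T} (G : Geo D)

/-- The couple of the tower of the Moore spectrum. -/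
noncomputable abbrev C : Couple.{v, v} := CA G.U G.M

/-- `E^s_n = Hom (𝟙⟦t⟧, R ⊗ B s M)` -/
noncomputable abbrev eE {s : ℕ} {n t : ℤ} (h : n + (s : ℤ) = t) :
    G.C.E s n ≃+ ((𝟙_ T)⟦t⟧ ⟶ D.R ⊗ G.U.cobar.B s G.M) := (G.U.tow G.M).eE (𝟙_ T) h

/-- `D^s_n = Hom (𝟙⟦t⟧, B s M)` -/
noncomputable abbrev eD {s : ℕ} {n t : ℤ} (h : n + (s : ℤ) = t) :
    G.C.D s n ≃+ ((𝟙_ T)⟦t⟧ ⟶ G.U.cobar.B s G.M) := (G.U.tow G.M).eD (𝟙_ T) h

/-- The cochain of the cobar complex of the sphere. -/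
noncomputable def ch {s : ℕ} {w : ℤ} :
    Cob.wt Laz s w →+ ((𝟙_ T)⟦2 * w⟧ ⟶ G.U.cobar.Q (s + 1) (𝟙_ T)) :=
  AddMonoidHom.mk' (fun z => (G.c w).inv ≫ D.phi G.U s w z) fun _ _ => by
    rw [map_add, Preadditive.comp_add]

theorem ch_apply {s : ℕ} {w : ℤ} (z : Cob.wt Laz s w) :
    G.ch z = (G.c w).inv ≫ D.phi G.U s w z := rfl

theorem realizes_ch {s : ℕ} {w : ℤ} (z : Cob.wt Laz s w) :
    Realizes D G.U (G.c w) z.1 (G.ch z) := by
  rw [Realizes, ← D.of_evw, ch_apply, MUData.phi_apply, Category.assoc, Iso.hom_inv_id_assoc,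
    Category.assoc]
  exact congrArg _ ((Category.comp_id _).symm.trans
    (congrArg _ (D.qAm G.U (s + 1)).inv_hom_id.symm))

theorem ch_d {s : ℕ} {w : ℤ} (z : Cob.wt Laz s w) :
    G.ch (Cob.dwt Laz s w z) = G.ch z ≫ G.U.cobar.d (s + 1) (𝟙_ T) := by
  rw [ch_apply, ch_apply, D.phi_d, Category.assoc]

/-- The cochain of the cobar complex of the Moore spectrum. -/
noncomputable def chM {s : ℕ} {w : ℤ} (z : Cob.wt Laz s w) :
    (𝟙_ T)⟦2 * w⟧ ⟶ G.U.cobar.Q (s + 1) G.M := G.ch z ≫ G.U.cobar.Qm (s + 1) G.i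

/-- The image in the `E₁`-term. -/
noncomputable def cE {s : ℕ} {w : ℤ} :
    Cob.wt Laz s w →+ ((𝟙_ T)⟦2 * w⟧ ⟶ D.R ⊗ G.U.cobar.B s G.M) :=
  AddMonoidHom.mk' (fun z => G.ch z ≫ G.U.cobar.Qm (s + 1) G.i ≫ G.U.cobar.q s G.M) fun _ _ => by
    rw [map_add, Preadditive.add_comp]

theorem cE_apply {s : ℕ} {w : ℤ} (z : Cob.wt Laz s w) :
    G.cE z = G.ch z ≫ G.U.cobar.Qm (s + 1) G.i ≫ G.U.cobar.q s G.M := rfl

theorem cE_eq {s : ℕ} {w : ℤ} (z : Cob.wt Laz s w) : G.cE z = G.chM z ≫ G.U.cobar.q s G.M :=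
  (Category.assoc _ _ _).symm

theorem chM_d {s : ℕ} {w : ℤ} (z : Cob.wt Laz s w) :
    G.chM (Cob.dwt Laz s w z) = G.chM z ≫ G.U.cobar.d (s + 1) G.M := by
  rw [chM, chM, ch_d, Category.assoc, Category.assoc, CobarData.d_naturality]

theorem cE_d {s : ℕ} {w : ℤ} (z : Cob.wt Laz s w) :
    G.cE (Cob.dwt Laz s w z) = G.cE z ≫ G.U.cobar.D s G.M := by
  rw [cE_eq, cE_eq, chM_d, Category.assoc, Category.assoc, CobarData.d_q]

/-- `Q s 𝟙 ⊗ M ≅ Q s M` -/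
def nM (s : ℕ) : G.U.cobar.Q s (𝟙_ T) ⊗ G.M ≅ G.U.cobar.Q s G.M :=
  nV G.U G.M s (𝟙_ T) ≪≫ ⟨G.U.cobar.Qm s (λ_ G.M).hom, G.U.cobar.Qm s (λ_ G.M).inv,
    by rw [← CobarData.Qm_comp, Iso.hom_inv_id, CobarData.Qm_id],
    by rw [← CobarData.Qm_comp, Iso.inv_hom_id, CobarData.Qm_id]⟩

theorem red_nM (s : ℕ) : (redC G.i).app (G.U.cobar.Q s (𝟙_ T)) ≫ (G.nM s).hom =
    G.U.cobar.Qm s G.i := redC_nV G.U G.i s

theorem chM_surj {s : ℕ} {w : ℤ} (f : (𝟙_ T)⟦2 * w⟧ ⟶ G.U.cobar.Q (s + 1) G.M) :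
    ∃ z : Cob.wt Laz s w, f = G.chM z := by
  obtain ⟨z, hz⟩ := D.phi_red_surj G.U (p := 3) (by norm_num) G.dist s w
    ((G.c w).hom ≫ f ≫ (G.nM (s + 1)).inv)
  refine ⟨z, ?_⟩
  rw [chM, ch_apply, ← red_nM, Category.assoc, ← reassoc_of% hz, Iso.inv_hom_id,
    Category.comp_id, Iso.inv_hom_id_assoc]

theorem chM_eq_zero {s : ℕ} {w : ℤ} {z : Cob.wt Laz s w} :
    G.chM z = 0 ↔ z.1 ∈ IC 3 1 s := by
  have h1 : G.chM z = (G.c w).inv ≫ (D.phi G.U s w z ≫ (redC G.i).app _) ≫ (G.nM (s + 1)).hom := by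
    rw [chM, ch_apply, ← red_nM, Category.assoc, Category.assoc]
  rw [h1, mem_IC_iff]
  constructor
  · intro h
    rw [Preadditive.IsIso.comp_left_eq_zero, Preadditive.IsIso.comp_right_eq_zero] at h
    obtain ⟨y, hy⟩ := D.phi_red_ker G.U (p := 3) (by norm_num) G.dist s w z h
    exact ⟨y.1, (congrArg Subtype.val hy).symm⟩
  · rintro ⟨y, hy⟩
    have h2 : z = ((3 : ℕ) : ℤ) • (⟨y, Cob.isWt_of_smul (m := 3) (by norm_num) (hy ▸ z.2)⟩ :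
        Cob.wt Laz s w) := Subtype.ext hy.symm
    rw [h2, map_zsmul, zsmul_comp_red G.dist, zero_comp, comp_zero]

theorem odd_Q {s : ℕ} {t : ℤ} (ht : ¬ 2 ∣ t) (f : (𝟙_ T)⟦t⟧ ⟶ G.U.cobar.Q (s + 1) G.M) :
    f = 0 := by
  obtain ⟨k, rfl⟩ : ∃ k, t = 2 * k + 1 := ⟨t / 2, by omega⟩
  rw [← cancel_mono (G.nM (s + 1)).inv, zero_comp]
  exact D.odd_red G.U (p := 3) (by norm_num) G.dist s k _

/-- The odd homotopy of `R ⊗ B s M` vanishes. -/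
theorem odd_W {s : ℕ} {t : ℤ} (ht : ¬ 2 ∣ t) (f : (𝟙_ T)⟦t⟧ ⟶ D.R ⊗ G.U.cobar.B s G.M) :
    f = 0 := by
  obtain ⟨c, hc⟩ : ∃ c : (𝟙_ T)⟦t⟧ ⟶ G.U.cobar.Q (s + 1) G.M, c ≫ G.U.cobar.q s G.M = f :=
    G.U.cobar.q_surjective (F := preadditiveCoyoneda.obj (op ((𝟙_ T)⟦t⟧))) s G.M f
  rw [← hc, G.odd_Q ht c, zero_comp]

theorem cE_surj {s : ℕ} {w : ℤ} (f : (𝟙_ T)⟦2 * w⟧ ⟶ D.R ⊗ G.U.cobar.B s G.M) :
    ∃ z : Cob.wt Laz s w, f = G.cE z := by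
  obtain ⟨c, hc⟩ : ∃ c : (𝟙_ T)⟦2 * w⟧ ⟶ G.U.cobar.Q (s + 1) G.M, c ≫ G.U.cobar.q s G.M = f :=
    G.U.cobar.q_surjective (F := preadditiveCoyoneda.obj (op ((𝟙_ T)⟦2 * w⟧))) s G.M f
  obtain ⟨z, rfl⟩ := G.chM_surj c
  exact ⟨z, by rw [cE_eq, hc]⟩

theorem cc_iff {s : ℕ} {w : ℤ} {z : Cob.wt Laz s w} :
    Cc z ↔ G.chM z ≫ G.U.cobar.d (s + 1) G.M = 0 := by
  rw [← chM_d, chM_eq_zero]
  rfl

theorem cE_surj_cc {s : ℕ} {w : ℤ} (f : (𝟙_ T)⟦2 * w⟧ ⟶ D.R ⊗ G.U.cobar.B s G.M)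
    (hf : f ≫ G.U.cobar.D s G.M = 0) : ∃ z : Cob.wt Laz s w, Cc z ∧ f = G.cE z := by
  obtain ⟨c, hc, hq⟩ : ∃ c : (𝟙_ T)⟦2 * w⟧ ⟶ G.U.cobar.Q (s + 1) G.M,
      c ≫ G.U.cobar.d (s + 1) G.M = 0 ∧ c ≫ G.U.cobar.q s G.M = f :=
    G.U.cobar.exists_cocycle (F := preadditiveCoyoneda.obj (op ((𝟙_ T)⟦2 * w⟧))) s G.M f hf
  obtain ⟨z, rfl⟩ := G.chM_surj c
  exact ⟨z, G.cc_iff.2 hc, by rw [cE_eq, hq]⟩

/-- The class of a cochain in the `E₁`-term of the couple. -/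
noncomputable def cls {s : ℕ} {w n : ℤ} (h : n + s = 2 * w) : Cob.wt Laz s w →+ G.C.E s n :=
  (G.eE h).symm.toAddMonoidHom.comp G.cE

theorem eE_cls {s : ℕ} {w n : ℤ} (h : n + s = 2 * w) (z : Cob.wt Laz s w) :
    G.eE h (G.cls h z) = G.cE z := AddEquiv.apply_symm_apply _ _

theorem eE_j {s : ℕ} {n t : ℤ} (h : n + (s : ℤ) = t) (y : G.C.D s n) :
    G.eE h (G.C.j s n y) = G.eD h y ≫ unitMap D.R _ := (G.U.tow G.M).eE_j _ h y

theorem eD_k {s : ℕ} {n m t : ℤ} (h : n = m + 1) (h1 : n + (s : ℤ) = t)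
    (h2 : m + ((s + 1 : ℕ) : ℤ) = t) (z : G.C.E s n) :
    G.eD h2 (G.C.k s n m h z) = G.eE h1 z ≫ G.U.cobar.k s G.M := (G.U.tow G.M).eD_k _ h h1 h2 z

theorem eD_i {s : ℕ} {n t t' : ℤ} (h : n + (s : ℤ) = t) (h' : n + ((s + 1 : ℕ) : ℤ) = t')
    (ht : t + 1 = t') (y : G.C.D (s + 1) n) :
    sh t 1 t' ht (G.eD h (G.C.i s n y)) = G.eD h' y ≫ G.U.bd s G.M :=
  (G.U.tow G.M).eD_i _ h h' ht y

theorem eE_d {s : ℕ} {n m t : ℤ} (h : n = m + 1) (h1 : n + (s : ℤ) = t)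
    (h2 : m + ((s + 1 : ℕ) : ℤ) = t) (z : G.C.E s n) :
    G.eE h2 (G.C.d s n m h z) = G.eE h1 z ≫ G.U.cobar.D s G.M :=
  (G.U.tow G.M).eE_d _ h h1 h2 z

theorem j_eq_cls {s : ℕ} {w n : ℤ} (h : n + s = 2 * w) (y : G.C.D s n) (z : Cob.wt Laz s w) :
    G.C.j s n y = G.cls h z ↔ G.eD h y ≫ unitMap D.R _ = G.cE z := by
  rw [← (G.eE h).injective.eq_iff, eE_j, eE_cls]

/-- The multiplication by a map `M⟦k⟧ ⟶ B a M`. -/
noncomputable def mu {a : ℕ} {k e : ℤ} (he : e + a = k) (x : G.M⟦k⟧ ⟶ G.U.cobar.B a G.M)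
    {s t : ℕ} {n n' : ℤ} (hs : s + a = t) (hn : n + e = n') : G.C.D s n →+ G.C.D t n' :=
  (G.eD rfl).symm.toAddMonoidHom.comp (AddMonoidHom.mk'
    (fun y => sh (n + s) k (n' + t) (by subst hs hn he; push_cast; ring) (G.eD rfl y) ≫
      G.U.κB k s G.M ≫ G.U.cobar.Bm s x ≫ (eB G.U hs G.M).hom)
    fun _ _ => by rw [map_add, map_add, Preadditive.add_comp])

theorem eD_mu {a : ℕ} {k e : ℤ} (he : e + a = k) (x : G.M⟦k⟧ ⟶ G.U.cobar.B a G.M)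
    {s t : ℕ} {n n' r r' : ℤ} (hs : s + a = t) (hn : n + e = n') (h : n + s = r)
    (h' : n' + t = r') (hr : r + k = r') (y : G.C.D s n) :
    G.eD h' (G.mu he x hs hn y) = sh r k r' hr (G.eD h y) ≫
      G.U.κB k s G.M ≫ G.U.cobar.Bm s x ≫ (eB G.U hs G.M).hom := by
  subst h h'
  exact AddEquiv.apply_symm_apply _ _

/-- The map `M⟦k⟧ ⟶ B a M` defined by an element of the tower of the sphere. -/
noncomputable def xM {a : ℕ} {k : ℤ} (x : (𝟙_ T)⟦k⟧ ⟶ G.U.cobar.B a (𝟙_ T)) :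
    G.M⟦k⟧ ⟶ G.U.cobar.B a G.M :=
  (sphTensor k G.M).inv ≫ (x ▷ G.M) ≫ (bV G.U G.M a (𝟙_ T)).hom ≫ G.U.cobar.Bm a (λ_ G.M).hom

/-- `x` is detected by the cochain `ζ`. -/
def Det {a : ℕ} {w : ℤ} (x : (𝟙_ T)⟦2 * w⟧ ⟶ G.U.cobar.B a (𝟙_ T)) (ζ : Cob.wt Laz a w) : Prop :=
  x ≫ unitMap D.R _ = G.ch ζ ≫ G.U.cobar.q a (𝟙_ T)

variable [MonoidalClosed T] [IsTriangulated T] [HasProducts.{0} T] [StableCat T]

theorem conn_B (s : ℕ) : Conn (2 * (s : ℤ)) (G.U.cobar.B s G.M) :=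
  (B.conn_red G.dist (B.conn_B D G.U s)).of_iso (bV G.U G.M s (𝟙_ T) ≪≫ BmI G.U s (λ_ G.M))

/-- `π₁ M = 0` -/
theorem pi_one (f : (𝟙_ T)⟦(1 : ℤ)⟧ ⟶ G.M) : f = 0 :=
  H709.pi_low D G.U (p := 3) (by norm_num) G.dist le_rfl (by norm_num) f

theorem three_id : ((3 : ℕ) : ℤ) • 𝟙 G.M = 0 := H709.zsmul_id G.dist G.pi_one

/-- The description of the `E₁`-term by cochains. -/
noncomputable def X : Cls G.C where
  cls h := G.cls h
  cls_IC h z hz := by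
    apply (G.eE h).injective
    rw [eE_cls, cE_eq, G.chM_eq_zero.2 hz, zero_comp, map_zero]
  cls_d h hm h' z := by
    apply (G.eE h').injective
    rw [G.eE_d hm h h', eE_cls, eE_cls, cE_d]
  surj {s w n} h e he := by
    have h' : n - 1 + ((s + 1 : ℕ) : ℤ) = 2 * w := by push_cast; omega
    obtain ⟨z, hz, hz'⟩ := G.cE_surj_cc (G.eE h e) (by
      rw [← G.eE_d (by ring) h h', he, map_zero])
    exact ⟨z, hz, (G.eE h).injective (by rw [eE_cls, hz'])⟩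
  inj_zero h z hz := by
    have h1 := G.eE_cls h z
    rw [hz, map_zero, cE_eq, CobarData.q_zero] at h1
    exact G.chM_eq_zero.1 ((Category.comp_id _).symm.trans h1.symm)
  inj_succ {s w n} h z hz hb := by
    obtain ⟨e, he⟩ := hb
    have h1 : n + 1 + (s : ℤ) = 2 * w := by push_cast at h; omega
    have h2 := congrArg (G.eE h) he
    rw [G.eE_d rfl h1 h, eE_cls, cE_eq] at h2
    obtain ⟨c, hc, -⟩ : ∃ c : (𝟙_ T)⟦2 * w⟧ ⟶ G.U.cobar.Q (s + 1) G.M,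
        c ≫ G.U.cobar.d (s + 1) G.M = G.chM z ∧ c ≫ G.U.cobar.q s G.M = G.eE h1 e :=
      G.U.cobar.exists_cobdy (F := preadditiveCoyoneda.obj (op ((𝟙_ T)⟦2 * w⟧))) s G.M
        (G.chM z) (G.cc_iff.1 hz) (G.eE h1 e) h2.symm
    obtain ⟨y, rfl⟩ := G.chM_surj c
    refine ⟨y.1, (G.chM_eq_zero (z := z - Cob.dwt Laz s w y)).1 ?_⟩
    rw [chM, map_sub, Preadditive.sub_comp, ← chM, ← chM, chM_d, hc, sub_self]
  odd h e := (G.eE rfl).injective ((G.odd_W h _).trans (map_zero _).symm)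
  conv {s m} h y := (G.eD rfl).injective ((G.conn_B s _ (by omega) _).trans (map_zero _).symm)

theorem X_cls {s : ℕ} {w n : ℤ} (h : n + s = 2 * w) : G.X.cls h = G.cls h := rfl

end Geo

end Vale.Agent.P236T
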