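import Vale.Agent.P236T.Top

/-!
# P236T: the diagram chase

`Sk C` collects the properties of the exact couple in terms of its `E₂`-term.  From the algebraic
facts we deduce that nothing in the stems `106` and `322` obstructs the two classes.
-/

universe u v

namespace Vale.Agent.P236T

open Vale.Agent.P251.S Vale.Agent.P257.H712

/-- The facts about the stem `322` in filtrations below `S`, without the starting class. -/
def Delta.Col (Δ : Delta) (S : ℕ) : Prop :=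
  (∃ z : HQ 9 164, Δ.KC (a := 14) (b := 15) (c := 16) (e := 20) (u := 166) (v := 170) (r := 172)
      rfl rfl rfl rfl rfl rfl rfl z ∧
    Δ.Ex1 (a := 5) (s := 10) (t := 15) (v := 164) (w := 166) (u := 168) rfl rfl rfl rfl
      (H.cup rfl rfl z h0)) ∧
  (∃ g, Δ.Ex1 (a := 9) (s := 14) (t := 19) (v := 166) (w := 168) (u := 170) rfl rfl rfl rfl g) ∧
  (∃ z : HQ 4 162, Δ.KC (a := 9) (b := 10) (c := 11) (e := 15) (u := 164) (v := 168) (r := 170)
      rfl rfl rfl rfl rfl rfl rfl z ∧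
    Δ.δ (s := 5) (t := 10) (w := 164) (u := 166) rfl rfl (H.cup rfl rfl z h0) = 0) ∧
  (∃ g, Δ.Ex1 (a := 13) (s := 18) (t := 23) (v := 168) (w := 170) (u := 172) rfl rfl rfl rfl g) ∧
  (∃ z : HQ 8 164, Δ.KC (a := 13) (b := 14) (c := 15) (e := 19) (u := 166) (v := 170) (r := 172)
      rfl rfl rfl rfl rfl rfl rfl z ∧
    Δ.δ (s := 9) (t := 14) (w := 166) (u := 168) rfl rfl (H.cup rfl rfl z h0) = 0) ∧
  ∀ (s : ℕ) (w : ℤ), 22 ≤ s → s < S → s + 322 = 2 * w → 2 ∣ w → Δ.Ex s w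

theorem Delta.J3.col {Δ : Delta} {S : ℕ} (h : Δ.J3 S) : Δ.Col S := h.2

/-- The exact couple in terms of its `E₂`-term. -/
structure Sk (C : Couple.{u, v}) where
  /-- the differential -/
  Δ : Delta
  /-- the class of an element of the tower -/
  jc : ∀ {s : ℕ} {w n : ℤ}, n + s = 2 * w → C.D s n →+ HQ s w
  /-- the boundary of a class -/
  kc : ∀ {s : ℕ} {w n m : ℤ}, n + s = 2 * w → n = m + 1 → HQ s w →+ C.D (s + 1) m
  odd : ∀ {s : ℕ} {n : ℤ}, ¬ 2 ∣ n + s → ∀ e : C.E s n, e = 0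
  conv : ∀ {s : ℕ} {m : ℤ}, m < s → ∀ y : C.D s m, y = 0
  jc_k : ∀ {s : ℕ} {w n m : ℤ} (hm : n = m + 1) (h : m + ((s + 1 : ℕ) : ℤ) = 2 * w) (e : C.E s n),
    jc h (C.k s n m hm e) = 0
  of_jc : ∀ {s : ℕ} {w n : ℤ} (h : n + s = 2 * w) (y : C.D s n), jc h y = 0 →
    ∃ y₁ : C.D (s + 1) n, ∀ (b : ℕ) (hb : b < s),
      C.proj n hb.le y = C.proj n (show b ≤ s + 1 by omega) y₁
  kc_jc : ∀ {s : ℕ} {w n m : ℤ} (h : n + s = 2 * w) (hm : n = m + 1) (y : C.D s n),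
    kc h hm (jc h y) = 0
  of_kc : ∀ {s : ℕ} {w n m : ℤ} (h : n + s = 2 * w) (hm : n = m + 1) (x : HQ s w),
    kc h hm x = 0 → ∃ y, jc h y = x
  i_kc : ∀ {s : ℕ} {w n m : ℤ} (h : n + s = 2 * w) (hm : n = m + 1) (x : HQ s w),
    C.i s m (kc h hm x) = 0
  j_kc : ∀ {s : ℕ} {w n m : ℤ} (h : n + s = 2 * w) (hm : n = m + 1) (x : HQ s w),
    C.j (s + 1) m (kc h hm x) = 0
  exists_kc : ∀ {s : ℕ} {w n m : ℤ} (h : n + s = 2 * w) (hm : n = m + 1) (e : C.E s n),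
    C.IsCocycle e → ∃ x, C.k s n m hm e = kc h hm x
  lift5 : ∀ {s t : ℕ} {w n m : ℤ} (hs : s + 5 = t) (h : n + s = 2 * w) (hm : n = m + 1), 2 ∣ w →
    ∀ x : HQ s w, ∃ y : C.D t m, C.proj m (show s + 1 ≤ t by omega) y = kc h hm x
  δ_eq : ∀ {s t : ℕ} {w u n m : ℤ} (hs : s + 5 = t) (hw : w + 2 = u) (h : n + s = 2 * w)
    (hm : n = m + 1) (h' : m + t = 2 * u), 2 ∣ w → ∀ (x : HQ s w) (y : C.D t m),
    C.proj m (show s + 1 ≤ t by omega) y = kc h hm x → Δ.δ hs hw x = jc h' y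

namespace Sk

variable {C : Couple.{u, v}} (S : Sk C)

/-! ### Lifting -/

/-- Elements of `D t m` come from `D (t + 1) m` after projection to `D b m`. -/
def Stp (C : Couple.{u, v}) (m : ℤ) (t b : ℕ) : Prop :=
  ∀ (h : b ≤ t) (y : C.D t m), ∃ y₁ : C.D (t + 1) m,
    C.proj m h y = C.proj m (Nat.le_succ_of_le h) y₁

/-- The map `D t m → D b m` is zero. -/
def P (C : Couple.{u, v}) (m : ℤ) (t b : ℕ) : Prop :=
  ∀ (h : b ≤ t) (y : C.D t m), C.proj m h y = 0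

include S in
theorem exists_i {t : ℕ} {m : ℤ} (h : ¬ 2 ∣ m + t) (y : C.D t m) : ∃ y₁, C.i t m y₁ = y :=
  C.exact_j _ _ _ (S.odd h _)

include S in
theorem stp_odd {t : ℕ} {m : ℤ} (h : ¬ 2 ∣ m + t) (b : ℕ) : Stp C m t b := by
  intro hb y
  obtain ⟨y₁, rfl⟩ := S.exists_i h y
  exact ⟨y₁, (C.proj_succ m hb y₁).symm⟩

include S in
theorem stp_w {t b : ℕ} {m : ℤ} (h : ¬ 4 ∣ m + t) (hb : b < t) : Stp C m t b := by
  by_cases h2 : 2 ∣ m + t
  · obtain ⟨u, hu⟩ := h2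
    intro _ y
    obtain ⟨y₁, hy⟩ := S.of_jc hu y (eq_zero_of_odd (by omega) _)
    exact ⟨y₁, hy b hb⟩
  · exact S.stp_odd h2 b

theorem P.mono {m : ℤ} {t b b' : ℕ} (h : P C m t b) (hb : b' ≤ b) (hbt : b ≤ t) : P C m t b' := by
  intro _ y
  rw [← proj_proj C hb hbt, h, C.proj_zero']

theorem P.down {m : ℤ} {t b : ℕ} (h : P C m (t + 1) b) (hs : Stp C m t b) : P C m t b := by
  intro hb y
  obtain ⟨y₁, hy⟩ := hs hb y
  rw [hy, h]

theorem P.downs {m : ℤ} {t t' b : ℕ} (h : P C m t' b) (htt : t ≤ t')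
    (hs : ∀ r, t ≤ r → r < t' → Stp C m r b) : P C m t b := by
  induction t', htt using Nat.le_induction with
  | base => exact h
  | succ t' ht ih =>
    exact ih (h.down (hs t' ht (Nat.lt_succ_self _))) fun r h1 h2 => hs r h1 (by omega)

theorem lifts {m : ℤ} {t t' b : ℕ} (hb : b ≤ t) (htt : t ≤ t')
    (hs : ∀ r, t ≤ r → r < t' → Stp C m r b) (y : C.D t m) :
    ∃ y' : C.D t' m, C.proj m (hb.trans htt) y' = C.proj m hb y := by
  induction t', htt using Nat.le_induction with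
  | base => exact ⟨y, rfl⟩
  | succ t' ht ih =>
    obtain ⟨y', hy⟩ := ih fun r h1 h2 => hs r h1 (by omega)
    obtain ⟨y₁, h₁⟩ := hs t' ht (Nat.lt_succ_self _) (hb.trans ht) y'
    exact ⟨y₁, h₁.symm.trans hy⟩

include S in
/-- One step of the uniqueness of lifts. -/
theorem proj_up {m : ℤ} {b t : ℕ} (hb : b + 2 ≤ t) (h4 : ¬ 4 ∣ m + 1 + b) (g : C.D t m)
    (hg : C.proj m (show b ≤ t by omega) g = 0) : C.proj m (show b + 1 ≤ t by omega) g = 0 := by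
  obtain ⟨e, he⟩ := C.exact_i b (m + 1) m rfl (C.proj m (show b + 1 ≤ t by omega) g)
    (by rw [C.i_proj, hg])
  by_cases h2 : 2 ∣ m + 1 + b
  · obtain ⟨u, hu⟩ := h2
    have hc : C.IsCocycle e := by
      intro l hl
      obtain rfl : l = m := by omega
      rw [C.d_apply, he, ← C.i_proj _ hb, C.j_i]
    obtain ⟨x, hx⟩ := S.exists_kc hu rfl e hc
    rw [← he, hx, eq_zero_of_odd (by omega) x, map_zero]
  · rw [← he, S.odd h2 e, map_zero]

include S in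
theorem uniq {s : ℕ} {m : ℤ} (h4 : 4 ∣ m + s + 5) (g : C.D (s + 5) m)
    (hg : C.proj m (show s + 1 ≤ s + 5 by omega) g = 0) : C.i (s + 4) m g = 0 := by
  have h1 := S.proj_up (b := s + 1) (by omega) (by push_cast; omega) g hg
  have h2 := S.proj_up (b := s + 2) (by omega) (by push_cast; omega) g h1
  have h3 := S.proj_up (b := s + 3) (by omega) (by push_cast; omega) g h2
  rw [← h3]
  exact (proj_one C g).symm

theorem δ_jc {s t : ℕ} {w u n : ℤ} (hs : s + 5 = t) (hw : w + 2 = u) (h : n + s = 2 * w)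
    (y : C.D s n) : S.Δ.δ hs hw (S.jc h y) = 0 := by
  by_cases h2 : 2 ∣ w
  · rw [S.δ_eq hs hw h (show n = n - 1 + 1 by ring) (by omega) h2 _ 0
      (by rw [C.proj_zero', S.kc_jc]), map_zero]
  · exact eq_zero_of_odd (by omega) _

theorem exists_null {a t : ℕ} {v u m : ℤ} (ha : a + 5 = t) (hv : v + 2 = u) (h : m + t = 2 * u)
    (x : HQ a v) : ∃ g : C.D t m, S.jc h g = S.Δ.δ ha hv x ∧
      ∀ (b : ℕ) (hb : b ≤ a), C.proj m (show b ≤ t by omega) g = 0 := by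
  by_cases h2 : 2 ∣ v
  · have h' : m + 1 + a = 2 * v := by omega
    obtain ⟨g, hg⟩ := S.lift5 ha h' rfl h2 x
    refine ⟨g, (S.δ_eq ha hv h' rfl h h2 x g hg).symm, fun b hb => ?_⟩
    rw [← proj_proj C (show b ≤ a + 1 by omega) (show a + 1 ≤ t by omega), hg, C.proj_succ m hb,
      S.i_kc, C.proj_zero']
  · exact ⟨0, by rw [map_zero]; exact (eq_zero_of_odd (by omega) _).symm,
      fun b _ => C.proj_zero' _ _⟩

theorem lift6 {s t : ℕ} {w u n m : ℤ} (hs : s + 5 = t) (hw : w + 2 = u) (h : n + s = 2 * w)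
    (hm : n = m + 1) (h2 : 2 ∣ w) (x : HQ s w) (hx : S.Δ.δ hs hw x = 0) :
    ∃ y : C.D (t + 1) m, C.proj m (show s + 1 ≤ t + 1 by omega) y = S.kc h hm x := by
  obtain ⟨y, hy⟩ := S.lift5 hs h hm h2 x
  have h' : m + t = 2 * u := by omega
  obtain ⟨y₁, h₁⟩ := S.of_jc h' y ((S.δ_eq hs hw h hm h' h2 x y hy).symm.trans hx)
  exact ⟨y₁, (h₁ (s + 1) (by omega)).symm.trans hy⟩

/-- An element whose class is a boundary lifts. -/
theorem lift_of_δ {a t b : ℕ} {v u m : ℤ} (ha : a + 5 = t) (hv : v + 2 = u) (h : m + t = 2 * u)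
    (hb : b ≤ a) (y : C.D t m) (x : HQ a v) (hy : S.jc h y = S.Δ.δ ha hv x) :
    ∃ y₁ : C.D (t + 1) m,
      C.proj m (show b ≤ t by omega) y = C.proj m (show b ≤ t + 1 by omega) y₁ := by
  obtain ⟨g, hg, hg0⟩ := S.exists_null ha hv h x
  obtain ⟨y₁, h₁⟩ := S.of_jc h (y - g) (by rw [map_sub, hy, hg, sub_self])
  refine ⟨y₁, ?_⟩
  rw [← h₁ b (by omega), proj_sub, hg0 b hb, sub_zero]

theorem stp_ex {t b : ℕ} {m : ℤ} (hb : b + 5 ≤ t)
    (hE : ∀ u : ℤ, m + t = 2 * u → 2 ∣ u → S.Δ.Ex t u) : Stp C m t b := by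
  by_cases h4 : 4 ∣ m + t
  · obtain ⟨c, hc⟩ := h4
    obtain ⟨a, rfl⟩ : ∃ a, t = a + 5 := ⟨t - 5, by omega⟩
    have h : m + ((a + 5 : ℕ) : ℤ) = 2 * (2 * c) := by omega
    intro _ y
    obtain ⟨x, hx⟩ := hE _ h ⟨c, rfl⟩ (v := 2 * c - 2) rfl rfl (by ring) rfl (S.jc h y)
      (S.δ_jc _ _ h y)
    exact S.lift_of_δ rfl _ h (by omega) y x hx
  · exact S.stp_w h4 (by omega)

theorem smul_three {s : ℕ} {w c : ℤ} (hc : 3 ∣ c) (g : HQ s w) : c • g = 0 := by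
  obtain ⟨d, rfl⟩ := hc
  rw [mul_comm, mul_smul, three_smul, smul_zero]

theorem smul_smul_unit {s : ℕ} {w c : ℤ} (hc : ¬ 3 ∣ c) (g : HQ s w) : c • c • g = g := by
  have h : 3 ∣ c * c - 1 := by
    have : c % 3 = 1 ∨ c % 3 = 2 := by omega
    rcases this with h | h
    · exact ⟨c / 3 * (c + 1), by
        have : c = 3 * (c / 3) + 1 := by omega
        linear_combination (c + 1) * this⟩
    · exact ⟨(c / 3 + 1) * (c - 1), by
        have : c = 3 * (c / 3) + 2 := by omega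
        linear_combination (c - 1) * this⟩
  have := smul_three h g
  rwa [sub_smul, one_smul, sub_eq_zero, mul_smul] at this

/-- A one dimensional obstruction group is killed by a class which is not a permanent cycle. -/
theorem kill {a t r b : ℕ} {v u q m : ℤ} (ha : a + 5 = t) (hr : t + 5 = r) (hv : v + 2 = u)
    (hq : u + 2 = q) (h : m + t = 2 * u) (hb : b + 1 ≤ a) {g : HQ t u}
    (hE : S.Δ.Ex1 ha hr hv hq g) (hP : P C m (t + 1) (b + 1)) (yt : C.D t m)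
    (h1 : C.proj m (show b + 1 ≤ t by omega) yt ≠ 0)
    (h0 : C.proj m (show b ≤ t by omega) yt = 0) : P C m t b := by
  obtain ⟨c, x, hc⟩ := hE _ (S.δ_jc hr hq h yt)
  have h3 : ¬ 3 ∣ c := by
    intro h3
    rw [smul_three h3, zero_add] at hc
    obtain ⟨y₁, h₁⟩ := S.lift_of_δ ha hv h hb yt x hc
    exact h1 (h₁.trans (hP _ _))
  intro hbt y
  obtain ⟨c', x', hc'⟩ := hE _ (S.δ_jc hr hq h y)
  obtain ⟨y₁, h₁⟩ := S.lift_of_δ ha hv h (show b ≤ a by omega) (y - c' • c • yt)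
    (x' - c' • c • x) (by
      rw [map_sub, map_sub, map_zsmul, map_zsmul, map_zsmul, map_zsmul, hc, hc', smul_add,
        smul_smul_unit h3, smul_add]
      abel)
  rw [proj_sub, proj_zsmul, proj_zsmul, h0, smul_zero, smul_zero, sub_zero] at h₁
  exact h₁.trans (hP.mono (Nat.le_succ b) (by omega) _ _)

/-! ### Multiplications -/

/-- The multiplication by a permanent cycle with the class `ζ`. -/
structure Mu (a : ℕ) (v e : ℤ) (ζ : HQ a v) where
  /-- the multiplication -/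
  μ : ∀ {s t : ℕ} {n n' : ℤ}, s + a = t → n + e = n' → C.D s n →+ C.D t n'
  deg : e + a = 2 * v
  i_μ : ∀ {s t : ℕ} {n n' : ℤ} (hs : s + a = t) (hn : n + e = n') (y : C.D (s + 1) n),
    C.i t n' (μ (show s + 1 + a = t + 1 by omega) hn y) = μ hs hn (C.i s n y)
  jc_μ : ∀ {s t : ℕ} {n n' w u : ℤ} (hs : s + a = t) (hn : n + e = n') (hw : w + v = u)
    (h : n + s = 2 * w) (h' : n' + t = 2 * u) (y : C.D s n),
    S.jc h' (μ hs hn y) = H.cup hs hw (S.jc h y) ζ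
  kc_μ : ∀ {s t : ℕ} {n n' m m' w u : ℤ} (hs : s + a = t) (hm : m + e = m') (hw : w + v = u)
    (h : n + s = 2 * w) (h' : n' + t = 2 * u) (k : n = m + 1) (k' : n' = m' + 1) (x : HQ s w),
    μ (show s + 1 + a = t + 1 by omega) hm (S.kc h k x) = S.kc h' k' (H.cup hs hw x ζ)

variable {S}

namespace Mu

variable {a a' a'' : ℕ} {v v' v'' e e' e'' : ℤ} {ζ : HQ a v} {ζ' : HQ a' v'}

theorem proj_μ (M : S.Mu a v e ζ) {b s t r : ℕ} {n n' : ℤ} (hb : b ≤ s) (hs : s + a = t)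
    (hr : b + a = r) (hn : n + e = n') (y : C.D s n) :
    C.proj n' (show r ≤ t by omega) (M.μ hs hn y) = M.μ hr hn (C.proj n hb y) := by
  induction s, hb using Nat.le_induction generalizing t with
  | base =>
    obtain rfl : t = r := by omega
    rw [C.proj_self, C.proj_self]
  | succ s hb ih =>
    obtain rfl : t = s + a + 1 := by omega
    rw [C.proj_succ n' (show r ≤ s + a by omega), M.i_μ rfl hn, ih rfl, C.proj_succ n hb]

/-- The action of the image in filtration zero. -/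
def act (M : S.Mu a v e ζ) {s : ℕ} {n n' : ℤ} (hn : n + e = n') (y : C.D s n) : C.D s n' :=
  C.proj n' (Nat.le_add_right s a) (M.μ rfl hn y)

theorem act_eq (M : S.Mu a v e ζ) {s t : ℕ} {n n' : ℤ} (hs : s + a = t) (hn : n + e = n')
    (y : C.D s n) : C.proj n' (show s ≤ t by omega) (M.μ hs hn y) = M.act hn y := by
  subst hs
  rfl

/-- The product of two permanent cycles. -/
def comp (M : S.Mu a v e ζ) (N : S.Mu a' v' e' ζ') (ha : a + a' = a'') (hv : v + v' = v'')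
    (he : e + e' = e'') : S.Mu a'' v'' e'' (H.cup ha hv ζ ζ') where
  μ {s t n n'} hs hn := (N.μ (show s + a + a' = t by omega) (show n + e + e' = n' by omega)).comp
    (M.μ rfl rfl)
  deg := by
    have := M.deg
    have := N.deg
    omega
  i_μ {s t n n'} hs hn y := by
    have h1 := M.i_μ (s := s) (n := n) rfl rfl y
    have h2 := N.i_μ (show s + a + a' = t by omega) (show n + e + e' = n' by omega)
      (M.μ (show s + 1 + a = s + a + 1 by omega) rfl y)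
    rw [h1] at h2
    refine Eq.trans ?_ h2
    have key : ∀ {r : ℕ} (hr : s + 1 + a = r) (hr' : r + a' = t + 1),
        N.μ hr' (show n + e + e' = n' by omega) (M.μ hr rfl y) =
          N.μ (show s + 1 + a + a' = t + 1 by omega) (show n + e + e' = n' by omega)
            (M.μ rfl rfl y) := by
      intro r hr hr'
      subst hr
      rfl
    rw [key]
    rfl
  jc_μ {s t n n' w u} hs hn hw h h' y := by
    have hd := M.deg
    have h1 : n + e + ((s + a : ℕ) : ℤ) = 2 * (w + v) := by push_cast; omega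
    rw [AddMonoidHom.comp_apply, N.jc_μ _ _ (show w + v + v' = u by omega) h1 h',
      M.jc_μ rfl rfl rfl h h1, H.cup_assoc _ _ ha hs _ _ hv hw]
  kc_μ {s t n n' m m' w u} hs hm hw h h' k k' x := by
    have hd := M.deg
    have h1 : n + e + ((s + a : ℕ) : ℤ) = 2 * (w + v) := by push_cast; omega
    have h2 := M.kc_μ (m' := m + e) rfl rfl rfl h h1 k (by omega) x
    have h3 := N.kc_μ (show s + a + a' = t by omega) (show m + e + e' = m' by omega)
      (show w + v + v' = u by omega) h1 h' (by omega) k' (H.cup rfl rfl x ζ)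
    rw [← h2, H.cup_assoc _ _ ha hs _ _ hv hw] at h3
    refine Eq.trans ?_ h3
    have key : ∀ {r : ℕ} (hr : s + 1 + a = r) (hr' : r + a' = t + 1) (y : C.D (s + 1) m),
        N.μ hr' (show m + e + e' = m' by omega) (M.μ hr rfl y) =
          N.μ (show s + 1 + a + a' = t + 1 by omega) (show m + e + e' = m' by omega)
            (M.μ rfl rfl y) := by
      intro r hr hr' y
      subst hr
      rfl
    rw [key]
    rfl

theorem act_comp (M : S.Mu a v e ζ) (N : S.Mu a' v' e' ζ') (ha : a + a' = a'')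
    (hv : v + v' = v'') (he : e + e' = e'') {s : ℕ} {n n₁ n' : ℤ} (hn : n + e'' = n')
    (h₁ : n + e = n₁) (h₂ : n₁ + e' = n') (y : C.D s n) :
    (M.comp N ha hv he).act hn y = N.act h₂ (M.act h₁ y) := by
  subst h₁
  have h := N.proj_μ (Nat.le_add_right s a) (show s + a + a' = s + a'' by omega) rfl h₂
    (M.μ rfl rfl y)
  unfold act
  rw [← h, proj_proj]
  rfl

/-- Change of the class. -/
def copy (M : S.Mu a v e ζ) {ξ : HQ a v} (h : ζ = ξ) : S.Mu a v e ξ where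
  μ := M.μ
  deg := M.deg
  i_μ := M.i_μ
  jc_μ := h ▸ M.jc_μ
  kc_μ := h ▸ M.kc_μ

end Mu

/-- The relations between `α₁` and `β₁`. -/
structure Td (A : S.Mu 1 2 3 h0) (B : S.Mu 2 6 10 b0) : Prop where
  bbba : ∀ {s : ℕ} {n₀ n₁ n₂ n₃ n₄ : ℤ} (h₁ : n₀ + 3 = n₁) (h₂ : n₁ + 10 = n₂)
    (h₃ : n₂ + 10 = n₃) (h₄ : n₃ + 10 = n₄) (y : C.D s n₀),
    B.act h₄ (B.act h₃ (B.act h₂ (A.act h₁ y))) = 0
  abbb : ∀ {s : ℕ} {n₀ n₁ n₂ n₃ n₄ : ℤ} (h₁ : n₀ + 10 = n₁) (h₂ : n₁ + 10 = n₂)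
    (h₃ : n₂ + 10 = n₃) (h₄ : n₃ + 3 = n₄) (y : C.D s n₀),
    A.act h₄ (B.act h₃ (B.act h₂ (B.act h₁ y))) = 0
  bracket : ∀ {s : ℕ} {n₀ n₁ n₂ n₃ : ℤ} (h₁ : n₀ + 3 = n₁) (h₂ : n₀ + 10 = n₃)
    (h₃ : n₂ + 3 = n₃) (y : C.D s n₀), A.act h₁ y = 0 →
      ∃ Y : C.D s n₂, B.act h₂ y = A.act h₃ Y

variable {A : S.Mu 1 2 3 h0} {B : S.Mu 2 6 10 b0}

/-- The Toda bracket argument: `z h₀` is not a permanent cycle. -/
theorem not_perm (T : Td A B) {s s₁ a b c e : ℕ} {w u v r n m : ℤ} (ha : s + 5 = a)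
    (hb : s + 6 = b) (hc : s + 7 = c) (he : s + 11 = e) (hu : w + 2 = u) (hv : w + 6 = v)
    (hr : w + 8 = r) (h2 : 2 ∣ w) {z : HQ s w} (hz : S.Δ.KC ha hb hc he hu hv hr z)
    (hs : s + 1 = s₁) (h : n + s₁ = 2 * u) (hm : n = m + 1) :
    S.kc h hm (H.cup hs hu z h0) ≠ 0 := by
  subst ha hb hc he hs
  intro h0'
  obtain ⟨l, rfl⟩ : ∃ l, m = l + 3 := ⟨m - 3, by ring⟩
  have hl : l + 1 + s = 2 * w := by push_cast at h; omega
  obtain ⟨y, hy⟩ := S.lift5 rfl hl rfl h2 z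
  have h1 : C.proj (l + 3) (show s + 1 + 1 ≤ s + 1 + 5 by omega)
      (A.μ (show s + 5 + 1 = s + 1 + 5 by omega) rfl y) = 0 := by
    rw [A.proj_μ (show s + 1 ≤ s + 5 by omega) _ rfl rfl, hy, A.kc_μ rfl rfl hu hl h rfl hm, h0']
  have h3 : A.act rfl y = 0 := by
    rw [← S.uniq (s := s + 1) (by push_cast; omega) _ h1]
    exact proj_one C _
  obtain ⟨Y, hY⟩ := T.bracket rfl rfl (show l + 7 + 3 = l + 10 by ring) y h3
  obtain ⟨Y₁, rfl⟩ := S.exists_i (by push_cast; omega) Y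
  have h4 : C.proj (l + 10) (show s + 5 ≤ s + 7 by omega)
      (B.μ rfl rfl y - A.μ rfl (show l + 7 + 3 = l + 10 by ring) Y₁) = 0 := by
    rw [proj_sub, B.act_eq, hY, sub_eq_zero, ← A.act_eq (show s + 5 + 1 = s + 6 from rfl),
      ← A.i_μ, C.proj_succ _ (show s + 5 ≤ s + 6 by omega)]
  have h5 := S.proj_up (b := s + 5) le_rfl (by push_cast; omega) _ h4
  rw [proj_one] at h5
  obtain ⟨e, he⟩ := C.exact_i _ _ _ rfl _ h5
  have k1 : l + 10 + ((s + 6 + 1 : ℕ) : ℤ) = 2 * r := by push_cast; omega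
  have k2 : l + ((s + 5 : ℕ) : ℤ) = 2 * u := by push_cast; omega
  have k3 : l + 7 + ((s + 5 + 1 : ℕ) : ℤ) = 2 * v := by push_cast; omega
  have h6 := S.jc_k rfl k1 e
  rw [he, map_sub, sub_eq_zero, B.jc_μ _ _ (show u + 6 = r by omega) k2,
    A.jc_μ _ _ (show v + 2 = r by omega) k3, ← S.δ_eq rfl hu hl rfl k2 h2 z y hy] at h6
  exact hz _ (S.δ_jc _ _ k3 Y₁) h6

/-- The powers of `β₁`. -/
noncomputable def pw (B : S.Mu 2 6 10 b0) : ∀ K : ℕ,
    S.Mu (2 * (K + 1)) (6 * ((K + 1 : ℕ) : ℤ)) (10 * ((K + 1 : ℕ) : ℤ)) (bp (K + 1))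
  | 0 => B.copy (H.one_cup rfl rfl b0).symm
  | K + 1 => (pw B K).comp B rfl (by push_cast; ring) (by push_cast; ring)

theorem act_pw_succ (K : ℕ) {s : ℕ} {n n₁ n' : ℤ} (hn : n + 10 * ((K + 1 + 1 : ℕ) : ℤ) = n')
    (h₁ : n + 10 * ((K + 1 : ℕ) : ℤ) = n₁) (h₂ : n₁ + 10 = n') (y : C.D s n) :
    (pw B (K + 1)).act hn y = B.act h₂ ((pw B K).act h₁ y) :=
  Mu.act_comp _ _ _ _ _ hn h₁ h₂ y

theorem act_pw_zero {s : ℕ} {n n' : ℤ} (hn : n + 10 * ((0 + 1 : ℕ) : ℤ) = n') (h : n + 10 = n')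
    (y : C.D s n) : (pw B 0).act hn y = B.act h y := rfl

/-- `β₁ ^ 7 = 0` -/
theorem act_seven (T : Td A B) {s : ℕ} {n n' : ℤ} (hn : n + 10 * ((6 + 1 : ℕ) : ℤ) = n')
    (y : C.D s n) : (pw B 6).act hn y = 0 := by
  rw [act_pw_succ 5 hn (n₁ := n + 60) (by norm_num) (by omega),
    act_pw_succ 4 _ (n₁ := n + 50) (by norm_num) (by omega),
    act_pw_succ 3 _ (n₁ := n + 40) (by norm_num) (by omega),
    act_pw_succ 2 _ (n₁ := n + 30) (by norm_num) (by omega),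
    act_pw_succ 1 _ (n₁ := n + 20) (by norm_num) (by omega),
    act_pw_succ 0 _ (n₁ := n + 10) (by norm_num) (by omega), act_pw_zero _ rfl]
  obtain ⟨Y, hY⟩ := T.bracket (n₁ := n + 33) (n₂ := n + 37) (n₃ := n + 40) (by omega) (by omega)
    (by omega) _ (T.abbb (n₁ := n + 10) (n₂ := n + 20) (n₃ := n + 30) rfl (by omega) (by omega)
      (by omega) y)
  rw [hY]
  exact T.bbba _ _ _ _ Y

/-! ### Periodicity -/

theorem per_onto {N : ℕ} (hP : Per N) {a s : ℕ} {v w : ℤ} (h : a + 2 * 7 = s)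
    (k : v + 6 * (7 : ℕ) = w) (hs : N ≤ s) (hw : 322 + (s : ℤ) = 2 * w) (y : HQ s w) :
    ∃ x : HQ a v, H.cup h k x (bp 7) = y := by
  by_cases h2 : 2 ∣ w
  · exact hP.1 h k hs (by omega) h2 y
  · exact ⟨0, by rw [map_zero, AddMonoidHom.zero_apply]; exact (eq_zero_of_odd h2 y).symm⟩

theorem per_inj {N : ℕ} (hP : Per N) {a s : ℕ} {v w : ℤ} (h : a + 2 * 7 = s)
    (k : v + 6 * (7 : ℕ) = w) (hs : N + 2 ≤ s) (hw : 321 + (s : ℤ) = 2 * w) (x : HQ a v)
    (hx : H.cup h k x (bp 7) = 0) : x = 0 := by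
  by_cases h2 : 2 ∣ w
  · exact hP.2 h k hs (by omega) h2 x hx
  · exact eq_zero_of_odd (by push_cast at k; omega) x

theorem down_ind {Q : ℕ → Prop} (N : ℕ) (h0 : ∀ a, N ≤ a → Q a) (h1 : ∀ a, Q (a + 1) → Q a)
    (a : ℕ) : Q a := by
  rcases le_total N a with h | h
  · exact h0 a h
  · induction h using Nat.decreasingInduction with
    | self => exact h0 N le_rfl
    | of_succ k _ ih => exact h1 k ih

variable {N : ℕ} (M : S.Mu (2 * 7) (6 * (7 : ℕ)) 70 (bp 7))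

theorem inj (hP : Per N) (a : ℕ) : N ≤ a + 13 → ∀ x : C.D (a + 1) 251,
    M.μ (t := a + 14) (n' := 321) rfl rfl (C.i a 251 x) = 0 → C.i a 251 x = 0 := by
  refine down_ind (Q := fun a => N ≤ a + 13 → ∀ x : C.D (a + 1) 251,
    M.μ (t := a + 14) (n' := 321) rfl rfl (C.i a 251 x) = 0 → C.i a 251 x = 0) 251
    (fun a ha _ x _ => by rw [S.conv (by push_cast; omega) x, map_zero]) ?_ a
  intro a ih ha x hx
  replace ih := ih (by omega)
  have h1 : ∃ x₁ : C.D (a + 2) 251, C.i a 251 x = C.i a 251 (C.i (a + 1) 251 x₁) := by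
    by_cases h2 : 2 ∣ (251 : ℤ) + ((a + 1 : ℕ) : ℤ)
    · obtain ⟨v, hv⟩ := h2
      rw [← M.i_μ] at hx
      obtain ⟨e, he⟩ := C.exact_i _ _ _ (show (322 : ℤ) = 321 + 1 from rfl) _ hx
      have k1 : 321 + ((a + 14 + 1 : ℕ) : ℤ) = 2 * (v + 6 * (7 : ℕ)) := by
        push_cast at hv ⊢; omega
      have h3 := S.jc_k (show (322 : ℤ) = 321 + 1 from rfl) k1 e
      rw [he, M.jc_μ _ _ rfl hv] at h3
      obtain ⟨x₁, h₁⟩ := S.of_jc hv x (per_inj hP _ rfl (by omega) k1 _ h3)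
      refine ⟨x₁, ?_⟩
      have h4 := h₁ a (Nat.lt_succ_self a)
      rwa [proj_one, C.proj_succ _ (Nat.le_succ a), proj_one] at h4
    · obtain ⟨x₁, rfl⟩ := S.exists_i h2 x
      exact ⟨x₁, rfl⟩
  obtain ⟨x₁, h₁⟩ := h1
  rw [h₁] at hx ⊢
  rw [← M.i_μ] at hx
  obtain ⟨e, he⟩ := C.exact_i _ _ _ (show (322 : ℤ) = 321 + 1 from rfl) _ hx
  by_cases h2 : 2 ∣ (322 : ℤ) + ((a + 14 : ℕ) : ℤ)
  · obtain ⟨w, hw⟩ := h2
    have hc : C.IsCocycle e := by
      intro l hl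
      obtain rfl : l = 321 := by omega
      rw [C.d_apply, he, ← M.i_μ (show a + 1 + 2 * 7 = a + 14 + 1 from rfl), C.j_i]
    obtain ⟨x₂, h₂⟩ := S.exists_kc hw (show (322 : ℤ) = 321 + 1 from rfl) e hc
    obtain ⟨x₃, rfl⟩ := per_onto hP (a := a) (v := w - 42) rfl (by push_cast; ring) (by omega) hw x₂
    have k1 : 252 + (a : ℤ) = 2 * (w - 42) := by push_cast at hw; omega
    obtain ⟨y₃, h₃⟩ := C.exact_j _ _ _ (S.j_kc k1 (show (252 : ℤ) = 251 + 1 from rfl) x₃)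
    rw [← M.kc_μ _ (show (251 : ℤ) + 70 = 321 from rfl) _ k1 hw rfl, ← h₃, he] at h₂
    have h₄ := ih (x₁ - y₃) (by rw [map_sub, map_sub, sub_eq_zero]; exact h₂)
    rw [map_sub, sub_eq_zero] at h₄
    rw [h₄, h₃, S.i_kc]
  · rw [S.odd h2 e, map_zero] at he
    rw [ih x₁ he.symm, map_zero]

theorem onto (hP : Per N) (a : ℕ) : N ≤ a + 15 → ∀ y : C.D (a + 14 + 1) 322,
    ∃ x : C.D (a + 1) 252,
      C.i (a + 14) 322 y = M.μ (t := a + 14) (n' := 322) rfl rfl (C.i a 252 x) := by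
  refine down_ind (Q := fun a => N ≤ a + 15 → ∀ y : C.D (a + 14 + 1) 322, ∃ x : C.D (a + 1) 252,
      C.i (a + 14) 322 y = M.μ (t := a + 14) (n' := 322) rfl rfl (C.i a 252 x)) 322
    (fun a ha _ y => ⟨0, by
      rw [S.conv (by push_cast; omega) y, map_zero, map_zero, map_zero]⟩) ?_ a
  intro a ih ha y
  replace ih := ih (by omega)
  have key : ∀ y₁ : C.D (a + 14 + 1 + 1) 322, ∃ x : C.D (a + 1) 252,
      C.i (a + 14) 322 (C.i (a + 14 + 1) 322 y₁) =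
        M.μ (t := a + 14) (n' := 322) rfl rfl (C.i a 252 x) := by
    intro y₁
    obtain ⟨x₁, h₁⟩ := ih y₁
    refine ⟨C.i (a + 1) 252 x₁, ?_⟩
    rw [← M.i_μ]
    exact congrArg _ h₁
  by_cases h2 : 2 ∣ (322 : ℤ) + ((a + 14 + 1 : ℕ) : ℤ)
  · obtain ⟨w, hw⟩ := h2
    have kw : w - 42 + 6 * (7 : ℕ) = w := by push_cast; ring
    obtain ⟨x₂, h₂⟩ := per_onto hP (a := a + 1) (show a + 1 + 2 * 7 = a + 14 + 1 from rfl) kw
      (by omega) hw (S.jc hw y)
    have k1 : 252 + ((a + 1 : ℕ) : ℤ) = 2 * (w - 42) := by push_cast at hw ⊢; omega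
    obtain ⟨y₂, h₃⟩ := C.exact_j _ _ _ (S.j_kc k1 (show (252 : ℤ) = 251 + 1 from rfl) x₂)
    have h₄ := M.kc_μ (show a + 1 + 2 * 7 = a + 14 + 1 from rfl)
      (show (251 : ℤ) + 70 = 321 from rfl) kw k1 hw rfl rfl x₂
    rw [h₂, S.kc_jc, ← h₃] at h₄
    have h₅ := inj M hP (a + 2) (by omega) y₂ h₄
    obtain ⟨x, hx⟩ := S.of_kc k1 _ x₂ (h₃.symm.trans h₅)
    obtain ⟨y₁, h₁⟩ := S.of_jc hw (y - M.μ (t := a + 14 + 1) (n' := 322) rfl rfl x) (by
      rw [map_sub, M.jc_μ _ _ kw k1, hx, h₂, sub_self])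
    have h₆ := h₁ (a + 14) (Nat.lt_succ_self _)
    rw [proj_one, C.proj_succ _ (Nat.le_succ _), proj_one, map_sub, sub_eq_iff_eq_add] at h₆
    obtain ⟨x₁, h₇⟩ := key y₁
    refine ⟨x₁ + x, ?_⟩
    rw [h₆, h₇, map_add, map_add, ← M.i_μ (t := a + 14) (n' := 322) rfl rfl x]
  · obtain ⟨y₁, rfl⟩ := S.exists_i h2 y
    exact key y₁

theorem top (T : Td A B) (hN : 24 ≤ N) (hP : Per N) : P C 322 N 10 := by
  obtain ⟨a, rfl⟩ : ∃ a, N = a + 14 + 1 := ⟨N - 15, by omega⟩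
  refine P.mono (b := a + 1) (fun h y => ?_) (by omega) (by omega)
  obtain ⟨x, hx⟩ := onto (pw B 6) hP a le_rfl y
  rw [C.proj_succ _ (show a + 1 ≤ a + 14 by omega), hx, ← Mu.i_μ,
    ← C.proj_succ _ (show a + 1 ≤ a + 14 by omega), Mu.act_eq]
  exact act_seven T _ x

/-! ### The two stems -/

variable (S) in
theorem stem106 (h : S.Δ.J2) : P C 106 7 2 := by
  refine P.downs (t' := 107) (fun _ y => ?_) (by norm_num) fun r h1 h2 => ?_
  · rw [S.conv (by norm_num) y, C.proj_zero']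
  · exact S.stp_ex (by omega) fun u hu h3 => h.2 r u (by omega) (by omega) h3

theorem stem322 (T : Td A B) (hN : 24 ≤ N) (hP : Per N) (h : S.Δ.Col N) : P C 322 7 2 := by
  obtain ⟨⟨z9, k9, e10⟩, ⟨g14, e14⟩, ⟨z4, k4, d5⟩, ⟨g18, e18⟩, ⟨z8, k8, d9⟩, hE⟩ := h
  have hm : (323 : ℤ) = 322 + 1 := rfl
  have p19 : P C 322 19 10 := (top T hN hP).downs (by omega) fun r h1 h2 =>
    S.stp_ex (by omega) fun u hu h3 => hE r u (by omega) h2 (by omega) h3
  have p18 : P C 322 18 9 := by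
    have hw : (323 : ℤ) + ((9 : ℕ) : ℤ) = 2 * 166 := by norm_num
    obtain ⟨y, hy⟩ := S.lift6 _ _ hw hm (by norm_num) _ d9
    obtain ⟨y', hy'⟩ := lifts (b := 10) (t' := 18) (by norm_num) (by norm_num)
      (fun r h1 h2 => S.stp_w (by omega) (by omega)) y
    refine S.kill rfl rfl rfl rfl (by norm_num) (by norm_num) e18 p19 y' ?_ ?_
    · rw [hy', hy]
      exact not_perm T _ _ _ _ _ _ _ (by norm_num) k8 rfl hw hm
    · rw [← C.i_proj _ (show 9 + 1 ≤ 18 by norm_num), hy', hy, S.i_kc]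
  have p15 : P C 322 15 6 := (p18.downs (by norm_num) fun r h1 h2 =>
    S.stp_w (by omega) (by omega)).mono (by norm_num) (by norm_num)
  have p14 : P C 322 14 5 := by
    have hw : (323 : ℤ) + ((5 : ℕ) : ℤ) = 2 * 164 := by norm_num
    obtain ⟨y, hy⟩ := S.lift6 _ _ hw hm (by norm_num) _ d5
    obtain ⟨y', hy'⟩ := lifts (b := 6) (t' := 14) (by norm_num) (by norm_num)
      (fun r h1 h2 => S.stp_w (by omega) (by omega)) y
    refine S.kill rfl rfl rfl rfl (by norm_num) (by norm_num) e14 p15 y' ?_ ?_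
    · rw [hy', hy]
      exact not_perm T _ _ _ _ _ _ _ (by norm_num) k4 rfl hw hm
    · rw [← C.i_proj _ (show 5 + 1 ≤ 14 by norm_num), hy', hy, S.i_kc]
  have p11 : P C 322 11 5 := p14.downs (by norm_num) fun r h1 h2 => S.stp_w (by omega) (by omega)
  have p10 : P C 322 10 5 := by
    refine p11.down fun hb y => ?_
    have hw : (322 : ℤ) + ((10 : ℕ) : ℤ) = 2 * 166 := by norm_num
    obtain ⟨c, x, hc⟩ := e10 _ (S.δ_jc _ _ hw y)
    by_cases h3 : 3 ∣ c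
    · rw [smul_three h3, zero_add] at hc
      exact S.lift_of_δ _ _ hw le_rfl y x hc
    · obtain ⟨g, hg, -⟩ := S.exists_null (a := 5) (v := 164) rfl rfl hw x
      refine absurd ?_ (not_perm T _ _ _ _ _ _ _ (by norm_num) k9 rfl hw
        (show (322 : ℤ) = 321 + 1 from rfl))
      rw [← smul_smul_unit h3 (H.cup _ _ z9 h0), eq_sub_of_add_eq hc.symm, ← hg, ← map_sub,
        map_zsmul, S.kc_jc, smul_zero]
  exact (p10.downs (by norm_num) fun r h1 h2 => S.stp_w (by omega) (by omega)).mono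
    (by norm_num) (by norm_num)

variable (S) in
/-- A class killed by `δ` is a permanent cycle if nothing obstructs. -/
theorem kc_eq_zero {w u n m : ℤ} (hw : w + 2 = u) (h : n + ((1 : ℕ) : ℤ) = 2 * w) (hm : n = m + 1)
    (h2 : 2 ∣ w) (hP : P C m 7 2) (x : HQ 1 w) (hx : S.Δ.δ (t := 6) rfl hw x = 0) :
    S.kc h hm x = 0 := by
  obtain ⟨y, hy⟩ := S.lift6 _ hw h hm h2 x hx
  exact hy.symm.trans (hP _ y)

end Sk

end Vale.Agent.P236T
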