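import Vale.Agent.P236T.Model
import Vale.Agent.P236T.Chase

/-!
# P236T: from the algebraic facts to the permanent cycles
-/

universe u v

namespace Vale.Agent.P236T

open Vale.Agent.P251 Vale.Agent.P251.F Vale.Agent.P251.I Vale.Agent.P257.H314
open Vale.Agent.P251.S hiding IC
open Vale.Agent.P257.H712

variable {C : Couple.{u, v}}

namespace Top

variable (T : Top C)

/-- The couple in terms of its `E₂`-term. -/
noncomputable def sk : Sk C where
  Δ := T.delta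
  jc := T.X.jc
  kc := T.X.kc
  odd := T.X.odd
  conv := T.X.conv
  jc_k hm h e := T.X.jc_k h hm e
  of_jc h _ hy := T.X.of_jc_eq_zero h hy
  kc_jc := T.X.kc_jc
  of_kc h hm _ hx := T.X.exists_jc_eq h hm hx
  i_kc := T.X.i_kc
  j_kc := T.X.j_kc
  exists_kc h hm e he := by
    obtain ⟨z, hz, rfl⟩ := T.X.surj h e he
    exact ⟨_, (T.X.kc_cl h hm hz).symm⟩
  lift5 hs h hm _ x := T.X.exists_lift hs h hm x
  δ_eq hs hw h hm h' _ _ _ e := T.X.dl_eq hs hw h hm h' e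

/-- The multiplication on the level of classes. -/
noncomputable def mu {a : ℕ} {v e : ℤ} {ζ : Cob.wt Laz a v} (M : MulA T.X ζ e) (hζ : Cc ζ)
    (he : e + a = 2 * v) : T.sk.Mu a v e (cl ζ.1 ζ.2 hζ) where
  μ := M.μ
  deg := he
  i_μ := M.i_μ
  jc_μ {s t n n' w u} hs hn hw h h' y := by
    obtain ⟨z, hz, e⟩ := T.X.exists_rep h y
    exact (T.X.jc_eq h' (M.j_μ hs hn hw h h' y z e) (hz.cpw hs hw hζ)).trans
      ((cl_cpw hs hw hz hζ).trans (congrArg (fun x => H.cup hs hw x _) (T.X.jc_eq h e hz).symm))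
  kc_μ {s t n n' m m' w u} hs hm hw h h' k k' x := by
    obtain ⟨z, hz, rfl⟩ := exists_clw x
    refine (congrArg _ (T.X.kc_cl h k hz)).trans ((M.k_μ hs hm hw h h' k k' z).trans ?_)
    exact (T.X.kc_cl h' k' (hz.cpw hs hw hζ)).symm.trans (congrArg _ (cl_cpw hs hw hz hζ))

theorem td : Sk.Td (S := T.sk) (T.mu T.A cc_t1 (by norm_num)) (T.mu T.B cc_b0 (by norm_num)) :=
  ⟨T.toda.bbba, T.toda.abbb, T.toda.bracket⟩

/-- **Survival in the stem `106`**: the map `D 7 → D 2` is zero. -/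
theorem surv106 (h : T.delta.J2) (y : C.D 7 106) : C.proj 106 (show 2 ≤ 7 by norm_num) y = 0 :=
  T.sk.stem106 h _ y

/-- **Survival in the stem `322`**: the map `D 7 → D 2` is zero. -/
theorem surv322 {N : ℕ} (hN : 24 ≤ N) (hP : Per N) (h : T.delta.Col N) (y : C.D 7 322) :
    C.proj 322 (show 2 ≤ 7 by norm_num) y = 0 :=
  Sk.stem322 T.td hN hP h _ y

theorem perm_of_start {q : ℕ} {w u n m : ℤ} (hw : w + 2 = u) (hn : n + ((1 : ℕ) : ℤ) = 2 * w)
    (hm : n = m + 1) (h2 : 2 ∣ w)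
    (hP : ∀ y : C.D 7 m, C.proj m (show 2 ≤ 7 by norm_num) y = 0) (h : T.delta.Start q hw) :
    T.X.Perm q w n hn := by
  obtain ⟨z, hz, dz, a, r, ha, hr, hδ⟩ := h
  have h0 := T.sk.kc_eq_zero hw hn hm h2 (fun _ y => hP y) _ hδ
  obtain ⟨y, hy⟩ := C.exact_k _ _ _ hm _ ((T.X.kc_cl hn hm (z := ⟨z, hz⟩) dz).symm.trans h0)
  exact ⟨⟨z, hz⟩, a, r, y, ha, dz, hr, hy⟩

theorem perm27 (h : T.delta.J2) : T.X.Perm 27 54 107 (by norm_num) :=
  T.perm_of_start rfl _ rfl (by norm_num) (T.surv106 h) h.1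

/-- **The two classes are permanent cycles.** -/
theorem perm (h : AlgFacts) :
    T.X.Perm 27 54 107 (by norm_num) ∧ T.X.Perm 81 162 323 (by norm_num) := by
  obtain ⟨N, hN, hP, h⟩ := h
  obtain ⟨h2, h3⟩ := h T.delta
  exact ⟨T.perm27 h2, T.perm_of_start rfl _ rfl (by norm_num) (T.surv322 hN hP h3.col) h3.1⟩

end Top

end Vale.Agent.P236T
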