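import Vale.Agent.P236T.Geo
import Vale.Agent.P251.M.PiZero

/-!
# P236T: the differential anticommutes with the Bockstein homomorphism
-/

open CategoryTheory MonoidalCategory Limits Pretriangulated MonObj Opposite

set_option linter.unusedSectionVars false

universe v u

namespace Vale.Agent.P236T

open Vale.Agent.P251 Vale.Agent.P251.T Vale.Agent.P251.M Vale.Agent.P251.F Vale.Agent.P251.I
  Vale.Agent.P257 Vale.Agent.P257.H314 Vale.Agent.P257.H820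
open Vale.Agent.P251.S hiding IC

namespace BockT

/-! ### The algebraic argument -/

section Alg

variable (C : Couple.{u, v}) {m l : ℤ} (β : ∀ s : ℕ, C.D s m →+ C.D s l)
  (hβ : ∀ (s : ℕ) (y : C.D (s + 1) m), β s (C.i s m y) = -C.i s l (β (s + 1) y))

include hβ

theorem alg {s : ℕ} (c : ℤ) (kx : C.D (s + 1) m) (kb : C.D (s + 2) l) (hkb : (c * c) • kb = kb)
    (o₁ : ∀ e : C.E (s + 1) (m + 1), e = 0) (o₂ : ∀ e : C.E (s + 5 + 1) m, e = 0)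
    (x : C.D (s + 2) m) (hx : C.i (s + 1) m x = kx) (hx' : β (s + 2) x = c • kb)
    (y y₀ : C.D (s + 5) m) (hy : C.proj m (by omega) y = kx)
    (hy₀ : C.j (s + 5) m y₀ = C.j (s + 5) m y) (z : C.D (s + 5 + 1) l)
    (hz : β (s + 5) y₀ = c • C.i (s + 5) l z) :
    ∃ y' : C.D (s + 5 + 1) l, C.proj l (by omega) y' = kb ∧
      C.j (s + 5 + 1) l y' = -((c * c) • C.j (s + 5 + 1) l z) := by
  have p3 : ∀ (n : ℤ) (y : C.D (s + 5) n), C.proj n (show s + 2 ≤ s + 5 by omega) y =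
      C.i (s + 2) n (C.i (s + 3) n (C.i (s + 4) n y)) := by
    intro n y
    rw [C.proj_succ n (show s + 2 ≤ s + 4 by omega), C.proj_succ n (show s + 2 ≤ s + 3 by omega),
      C.proj_succ n (le_refl (s + 2)), C.proj_self]
  have h1 : x = C.proj m (show s + 2 ≤ s + 5 by omega) y := by
    obtain ⟨e, he⟩ := C.exact_i (s + 1) (m + 1) m rfl
      (x - C.proj m (show s + 2 ≤ s + 5 by omega) y) (by
        rw [map_sub, hx, C.i_proj, hy, sub_self])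
    rw [o₁ e, map_zero] at he
    exact sub_eq_zero.1 he.symm
  obtain ⟨y₁, hy₁⟩ := C.exact_j (s + 5) m (y - y₀) (by rw [map_sub, hy₀, sub_self])
  obtain ⟨y₂, rfl⟩ := C.exact_j (s + 5 + 1) m y₁ (o₂ _)
  have h2 : β (s + 5) y = C.i (s + 5) l (c • z + C.i (s + 5 + 1) l (β (s + 5 + 1 + 1) y₂)) := by
    rw [eq_add_of_sub_eq' hy₁.symm, map_add, hz, hβ, hβ, map_neg, neg_neg, map_add, map_zsmul]
  have h3 : c • kb = -C.proj l (show s + 2 ≤ s + 5 + 1 by omega)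
      (c • z + C.i (s + 5 + 1) l (β (s + 5 + 1 + 1) y₂)) := by
    rw [← hx', h1, p3, C.proj_succ l (show s + 2 ≤ s + 5 by omega), ← h2, p3, hβ, hβ, hβ]
    simp only [map_neg, neg_neg]
  refine ⟨(-c) • (c • z + C.i (s + 5 + 1) l (β (s + 5 + 1 + 1) y₂)), ?_, ?_⟩
  · rw [H712.proj_zsmul, neg_smul, ← smul_neg, ← h3, smul_smul, hkb]
  · rw [map_zsmul, map_add, C.j_i, add_zero, map_zsmul, smul_smul, neg_mul, neg_smul]

end Alg

variable {T : Type u} [Category.{v} T] [Preadditive T] [HasZeroObject T] [HasShift T ℤ]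
  [∀ n : ℤ, (shiftFunctor T n).Additive] [Pretriangulated T] [MonoidalCategory T]
  [SymmetricCategory T] [TensorTriangulated T]

/-! ### The Bockstein operator -/

theorem tensorSph_one (Y : T) : (tensorSph 1 Y).hom = (TensorTriangulated.e Y).hom := by
  have h1 : (Y ◁ (TensorTriangulated.e (𝟙_ T)).inv) ≫ (α_ Y (𝟙_ T) ((𝟙_ T)⟦(1 : ℤ)⟧)).inv =
      (ρ_ Y).inv ▷ ((𝟙_ T)⟦(1 : ℤ)⟧) := by
    have h2 : (TensorTriangulated.e (𝟙_ T)).inv = (λ_ ((𝟙_ T)⟦(1 : ℤ)⟧)).inv := by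
      rw [Iso.inv_eq_inv]
      exact TensorTriangulated.e_unit
    rw [h2]
    simp
  have h3 : (tensorSph 1 Y).hom = (csh Y 1 (𝟙_ T)).hom ≫ ((ρ_ Y).hom)⟦(1 : ℤ)⟧' := rfl
  rw [h3, csh_one, Category.assoc, Category.assoc, reassoc_of% h1,
    reassoc_of% TensorTriangulated.e_naturality (ρ_ Y).inv, ← Functor.map_comp, Iso.inv_hom_id,
    CategoryTheory.Functor.map_id, Category.comp_id]

theorem shR_sph (Y : T) :
    (shR Y ((𝟙_ T)⟦(1 : ℤ)⟧)).hom ≫ ((tensorSph 1 Y).hom)⟦(1 : ℤ)⟧' =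
      -(tensorSph 1 (Y⟦(1 : ℤ)⟧)).hom := by
  have h := signProp_one (T := T) Y
  rw [shiftFunctorComm_eq_refl] at h
  have h1 : (csh ((𝟙_ T)⟦(1 : ℤ)⟧) 1 Y).hom ≫ (sOne Y)⟦(1 : ℤ)⟧' = -sOne (Y⟦(1 : ℤ)⟧) := by
    rw [← neg_one_zsmul, ← h]
    exact congrArg _ (Category.comp_id _).symm
  rw [tensorSph_one, tensorSph_one, shR_hom, Category.assoc, Category.assoc, ← Functor.map_comp,
    ← sOne, h1, sOne, Preadditive.comp_neg, SymmetricCategory.symmetry_assoc]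

variable {M : T} (i : 𝟙_ T ⟶ M) (δ : M ⟶ (𝟙_ T)⟦(1 : ℤ)⟧)

theorem shR_bdC (Y : T) :
    (shR Y M).hom ≫ (bdC δ Y)⟦(1 : ℤ)⟧' = -bdC δ (Y⟦(1 : ℤ)⟧) := by
  rw [bdC, bdC, Functor.map_comp, ← shR_nat_right_assoc, shR_sph, Preadditive.comp_neg]

/-- The reduction map. -/
def red (Y : T) : Y ⟶ Y ⊗ M := (redC i).app Y

theorem red_eq (Y : T) : red i Y = (ρ_ Y).inv ≫ (Y ◁ i) := rfl

@[reassoc]
theorem red_nat {Y Z : T} (f : Y ⟶ Z) : f ≫ red i Z = red i Y ≫ (f ▷ M) := (redC i).naturality f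

@[reassoc]
theorem red_shR (Y : T) : red i (Y⟦(1 : ℤ)⟧) ≫ (shR Y M).hom = (red i Y)⟦(1 : ℤ)⟧' := by
  have h := NatTrans.shift_app_comm (redC i) (1 : ℤ) Y
  rw [tensorRight_commShiftIso_one] at h
  refine h.symm.trans ?_
  exact (congrArg (· ≫ _) (Category.comp_id _)).trans (Category.id_comp _)

theorem red_zsmul {c : ℤ} (h : c • i = i) (Y : T) : c • red i Y = red i Y := by
  have h1 : Y ◁ (c • i) = c • (Y ◁ i) := (tensorLeft Y).map_zsmul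
  rw [red_eq, ← Preadditive.comp_zsmul, ← h1, h]

/-- A class in `π₁ (M ⊗ M)` which describes the two boundary maps. -/
structure Kap (c : ℤ) where
  /-- the class -/
  κ : (𝟙_ T)⟦(1 : ℤ)⟧ ⟶ M ⊗ M
  left : κ ≫ (δ ▷ M) = red i ((𝟙_ T)⟦(1 : ℤ)⟧)
  right : κ ≫ (M ◁ δ) = c • ((λ_ ((𝟙_ T)⟦(1 : ℤ)⟧)).inv ≫ (i ▷ ((𝟙_ T)⟦(1 : ℤ)⟧)))
  sq : (c * c) • i = i

variable {i δ} {n : ℤ} (hC : Triangle.mk (n • 𝟙 (𝟙_ T)) i δ ∈ distTriang T)

include hC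

theorem exists_kap (h1 : ∀ f : (𝟙_ T)⟦(1 : ℤ)⟧ ⟶ M, f = 0)
    (h0 : ∀ f : 𝟙_ T ⟶ M, ∃ c : ℤ, f = c • i) : ∃ c : ℤ, Nonempty (Kap i δ c) := by
  obtain ⟨κ, hκ⟩ : ∃ κ : (𝟙_ T)⟦(1 : ℤ)⟧ ⟶ M ⊗ M, i⟦(1 : ℤ)⟧' = κ ≫ bdC δ M :=
    Triangle.coyoneda_exact₁ _ (redTri_distinguished hC M) (i⟦(1 : ℤ)⟧') (by
      change i⟦(1 : ℤ)⟧' ≫ (n • 𝟙 M)⟦(1 : ℤ)⟧' = 0
      rw [← Functor.map_comp, Preadditive.comp_zsmul, Category.comp_id, H709.zsmul_unit hC,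
        Functor.map_zero])
  have hinj : ∀ f : (𝟙_ T)⟦(1 : ℤ)⟧ ⟶ M ⊗ M, f ≫ bdC δ M = 0 → f = 0 := by
    intro f hf
    obtain ⟨g, hg⟩ : ∃ g : (𝟙_ T)⟦(1 : ℤ)⟧ ⟶ M, f = g ≫ (redC i).app M :=
      Triangle.coyoneda_exact₃ _ (redTri_distinguished hC M) f hf
    rw [hg, h1 g, zero_comp]
  have hu : (tensorSph 1 (𝟙_ T)).hom = (λ_ ((𝟙_ T)⟦(1 : ℤ)⟧)).hom :=
    (tensorSph_one _).trans TensorTriangulated.e_unit
  have h2 : κ ≫ (M ◁ δ) = (λ_ ((𝟙_ T)⟦(1 : ℤ)⟧)).inv ≫ (i ▷ ((𝟙_ T)⟦(1 : ℤ)⟧)) := by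
    rw [← cancel_mono (tensorSph 1 M).hom, Category.assoc, Category.assoc, tensorSph_naturality,
      hu, Iso.inv_hom_id_assoc, hκ, bdC]
  obtain ⟨g, hg⟩ := (shiftFunctor T (1 : ℤ)).map_surjective (κ ≫ (β_ M M).hom ≫ bdC δ M)
  obtain ⟨c, rfl⟩ := h0 g
  have h3 : κ ≫ (β_ M M).hom = c • κ := by
    rw [← sub_eq_zero]
    apply hinj
    rw [Preadditive.sub_comp, Category.assoc, ← hg, Preadditive.zsmul_comp, ← hκ,
      Functor.map_zsmul, sub_self]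
  refine ⟨c, ⟨κ ≫ (β_ M M).hom, ?_, ?_, ?_⟩⟩
  · rw [Category.assoc, ← BraidedCategory.braiding_naturality_right, reassoc_of% h2,
      BraidedCategory.braiding_naturality_left, braiding_tensorUnit_left, red_eq]
    simp
  · rw [h3, Preadditive.zsmul_comp, h2]
  · have h4 : (c * c) • κ = κ := by
      rw [← smul_smul, ← h3, ← Preadditive.zsmul_comp, ← h3, Category.assoc,
        SymmetricCategory.symmetry, Category.comp_id]
    apply (shiftFunctor T (1 : ℤ)).map_injective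
    rw [Functor.map_zsmul, hκ, ← Preadditive.zsmul_comp, h4]

/-- The universal example. -/
theorem dual {c : ℤ} (K : Kap i δ c) {X Y Z S : T} {f : X ⟶ Y} {g : Y ⟶ Z}
    {h : Z ⟶ X⟦(1 : ℤ)⟧} (hd : Triangle.mk f g h ∈ distTriang T) (x : S ⟶ X) (e : S ⟶ Y)
    (hx : x ≫ f = n • e) : ∃ u : S⟦(1 : ℤ)⟧ ⟶ Z ⊗ M,
      u ≫ (h ▷ M) ≫ (shR X M).hom = (x ≫ red i X)⟦(1 : ℤ)⟧' ∧
        u ≫ bdC δ Z = c • (e ≫ g)⟦(1 : ℤ)⟧' := by
  obtain ⟨φ, hφ, hφ'⟩ : ∃ φ : S ⊗ M ⟶ Z, red i S ≫ φ = e ≫ g ∧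
      bdC δ S ≫ x⟦(1 : ℤ)⟧' = φ ≫ h :=
    complete_distinguished_triangle_morphism _ _ (redTri_distinguished hC S) hd x e (by
      change (n • 𝟙 S) ≫ e = x ≫ f
      rw [hx, Preadditive.zsmul_comp, Category.id_comp])
  refine ⟨(tensorSph 1 S).inv ≫ (S ◁ K.κ) ≫ (α_ S M M).inv ≫ (φ ▷ M), ?_, ?_⟩
  · have h1 : (S ◁ red i ((𝟙_ T)⟦(1 : ℤ)⟧)) ≫ (α_ S ((𝟙_ T)⟦(1 : ℤ)⟧) M).inv =
        red i (S ⊗ (𝟙_ T)⟦(1 : ℤ)⟧) := by
      rw [red_eq, red_eq]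
      simp
    simp only [Category.assoc]
    rw [← comp_whiskerRight_assoc, ← hφ', bdC, comp_whiskerRight, comp_whiskerRight]
    simp only [Category.assoc]
    rw [← associator_inv_naturality_middle_assoc, ← MonoidalCategory.whiskerLeft_comp_assoc,
      K.left, reassoc_of% h1, ← red_nat_assoc, ← red_nat_assoc, Iso.inv_hom_id_assoc, red_shR,
      Functor.map_comp]
  · have h1 : (S ◁ ((λ_ ((𝟙_ T)⟦(1 : ℤ)⟧)).inv ≫ (i ▷ ((𝟙_ T)⟦(1 : ℤ)⟧)))) ≫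
        (α_ S M ((𝟙_ T)⟦(1 : ℤ)⟧)).inv = red i S ▷ ((𝟙_ T)⟦(1 : ℤ)⟧) := by
      rw [red_eq]
      simp
    have h2 : S ◁ (K.κ ≫ (M ◁ δ)) =
        c • (S ◁ ((λ_ ((𝟙_ T)⟦(1 : ℤ)⟧)).inv ≫ (i ▷ ((𝟙_ T)⟦(1 : ℤ)⟧)))) := by
      rw [K.right]
      exact (tensorLeft S).map_zsmul
    simp only [Category.assoc]
    rw [bdC_naturality, bdC, Category.assoc, ← associator_inv_naturality_right_assoc,
      ← MonoidalCategory.whiskerLeft_comp_assoc, h2, Preadditive.zsmul_comp, reassoc_of% h1,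
      tensorSph_naturality_assoc, Preadditive.comp_zsmul, Iso.inv_hom_id_assoc,
      ← Functor.map_comp, hφ]

omit hC in
/-- The operator on the couple of a tower defined by maps `J s ⟶ (J s)⟦1⟧`. -/
noncomputable def opD (Y : Tow T) (P : T) (b : ∀ s, Y.J s ⟶ (Y.J s)⟦(1 : ℤ)⟧) {m l : ℤ}
    (h : m = l + 1) (s : ℕ) : (Y.couple P).D s m →+ (Y.couple P).D s l :=
  (Y.eD P rfl).symm.toAddMonoidHom.comp (AddMonoidHom.mk'
    (fun y => (sh (l + s) 1 (m + s) (by rw [h]; ring)).symm (Y.eD P rfl y ≫ b s))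
    fun _ _ => by rw [map_add, Preadditive.add_comp, map_add])

omit hC in
theorem eD_opD (Y : Tow T) (P : T) (b : ∀ s, Y.J s ⟶ (Y.J s)⟦(1 : ℤ)⟧) {m l t t' : ℤ}
    (h : m = l + 1) {s : ℕ} (h1 : l + s = t) (h2 : m + s = t') (ht : t + 1 = t')
    (y : (Y.couple P).D s m) :
    sh t 1 t' ht (Y.eD P h1 (opD Y P b h s y)) = Y.eD P h2 y ≫ b s := by
  subst h1 h2
  exact (congrArg _ (AddEquiv.apply_symm_apply _ _)).trans (AddEquiv.apply_symm_apply _ _)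

omit hC in
theorem opD_i (Y : Tow T) (P : T) (b : ∀ s, Y.J s ⟶ (Y.J s)⟦(1 : ℤ)⟧)
    (hb : ∀ s, Y.c s ≫ (b s)⟦(1 : ℤ)⟧' = -(b (s + 1) ≫ (Y.c s)⟦(1 : ℤ)⟧')) {m l : ℤ}
    (h : m = l + 1) (s : ℕ) (y : (Y.couple P).D (s + 1) m) :
    opD Y P b h s ((Y.couple P).i s m y) = -(Y.couple P).i s l (opD Y P b h (s + 1) y) := by
  have e1 : m + (s : ℤ) = l + s + 1 := by rw [h]; ring
  have e2 : l + ((s + 1 : ℕ) : ℤ) = l + s + 1 := by push_cast; ring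
  have e3 : m + ((s + 1 : ℕ) : ℤ) = l + s + 1 + 1 := by rw [h]; push_cast; ring
  apply (Y.eD P rfl).injective
  apply (sh (l + s) 1 (l + s + 1) rfl).injective
  rw [eD_opD Y P b h rfl e1, map_neg, map_neg, Y.eD_i P rfl e2]
  apply (sh (l + s + 1) 1 (l + s + 1 + 1) rfl).injective
  rw [sh_comp, map_neg, sh_comp, eD_opD Y P b h e2 e3, Y.eD_i P e1 e3, Category.assoc, hb,
    Preadditive.comp_neg, Category.assoc]

omit hC in
/-- `Y` is the tower `X ⊗ M`. -/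
structure Red (M : T) (X Y : Tow T) where
  /-- the isomorphisms on the stages -/
  φ : ∀ s, X.J s ⊗ M ≅ Y.J s
  /-- the isomorphisms on the layers -/
  ψ : ∀ s, X.W s ⊗ M ≅ Y.W s
  comm_a : ∀ s, (X.a s ▷ M) ≫ (ψ s).hom = (φ s).hom ≫ Y.a s
  comm_b : ∀ s, (X.b s ▷ M) ≫ (φ (s + 1)).hom = (ψ s).hom ≫ Y.b s
  comm_c : ∀ s, (X.c s ▷ M) ≫ (shR (X.J s) M).hom ≫ ((φ s).hom)⟦(1 : ℤ)⟧' =
    (φ (s + 1)).hom ≫ Y.c s

namespace Red

variable {X Y : Tow T} (R : Red M X Y)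

section

variable (i δ)

omit hC

/-- The reduction on the stages. -/
def rJ (s : ℕ) : X.J s ⟶ Y.J s := red i (X.J s) ≫ (R.φ s).hom

/-- The reduction on the layers. -/
def rW (s : ℕ) : X.W s ⟶ Y.W s := red i (X.W s) ≫ (R.ψ s).hom

/-- The Bockstein operator. -/
noncomputable def B (s : ℕ) : Y.J s ⟶ (Y.J s)⟦(1 : ℤ)⟧ :=
  (R.φ s).inv ≫ bdC δ (X.J s) ≫ (R.rJ i s)⟦(1 : ℤ)⟧'

@[reassoc]
theorem a_rW (s : ℕ) : X.a s ≫ R.rW i s = R.rJ i s ≫ Y.a s := by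
  rw [rW, rJ, red_nat_assoc, R.comm_a, Category.assoc]

@[reassoc]
theorem b_rJ (s : ℕ) : X.b s ≫ R.rJ i (s + 1) = R.rW i s ≫ Y.b s := by
  rw [rW, rJ, red_nat_assoc, R.comm_b, Category.assoc]

@[reassoc]
theorem c_rJ (s : ℕ) : X.c s ≫ (R.rJ i s)⟦(1 : ℤ)⟧' = R.rJ i (s + 1) ≫ Y.c s := by
  rw [rJ, rJ, Functor.map_comp, ← red_shR_assoc, red_nat_assoc, R.comm_c, Category.assoc]

theorem c_B (s : ℕ) :
    Y.c s ≫ (R.B i δ s)⟦(1 : ℤ)⟧' = -(R.B i δ (s + 1) ≫ (Y.c s)⟦(1 : ℤ)⟧') := by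
  rw [← cancel_epi (R.φ (s + 1)).hom, ← reassoc_of% R.comm_c s, ← Functor.map_comp, B, B,
    Iso.hom_inv_id_assoc, Functor.map_comp, reassoc_of% shR_bdC δ (X.J s), Preadditive.neg_comp,
    Preadditive.comp_neg, Preadditive.comp_neg, bdC_naturality_assoc, Category.assoc,
    Category.assoc, Iso.hom_inv_id_assoc, ← Functor.map_comp, ← Functor.map_comp, c_rJ]

theorem rJ_zsmul {c : ℤ} (h : c • i = i) (s : ℕ) : c • R.rJ i s = R.rJ i s := by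
  rw [rJ, ← Preadditive.zsmul_comp, red_zsmul i h]

theorem rW_zsmul {c : ℤ} (h : c • i = i) (s : ℕ) : c • R.rW i s = R.rW i s := by
  rw [rW, ← Preadditive.zsmul_comp, red_zsmul i h]

end

theorem first {c : ℤ} (K : Kap i δ c) {S : T} {s : ℕ} (x : S ⟶ X.J s) (e : S ⟶ X.W s)
    (h : x ≫ X.a s = n • e) : ∃ u : S⟦(1 : ℤ)⟧ ⟶ Y.J (s + 1),
      u ≫ Y.c s = (x ≫ R.rJ i s)⟦(1 : ℤ)⟧' ∧
        u ≫ R.B i δ (s + 1) = c • (e ≫ R.rW i s ≫ Y.b s)⟦(1 : ℤ)⟧' := by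
  obtain ⟨u, hu, hu'⟩ := dual hC K (X.dist s) x e h
  refine ⟨u ≫ (R.φ (s + 1)).hom, ?_, ?_⟩
  · rw [Category.assoc, ← R.comm_c, reassoc_of% hu, ← Functor.map_comp, rJ, Category.assoc]
  · rw [B, Category.assoc, Iso.hom_inv_id_assoc, reassoc_of% hu', Preadditive.zsmul_comp,
      ← Functor.map_comp, Category.assoc, b_rJ]

theorem second {c : ℤ} (K : Kap i δ c) {S : T} {s : ℕ} (x : S ⟶ X.W s) (e : S ⟶ X.J (s + 1))
    (h : x ≫ X.b s = n • e) : ∃ y : S ⟶ Y.J s, y ≫ Y.a s = x ≫ R.rW i s ∧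
      y ≫ R.B i δ s = c • (e ≫ R.rJ i (s + 1) ≫ Y.c s) := by
  have hd : Triangle.mk (X.b s) (X.c s) (-(X.a s)⟦(1 : ℤ)⟧') ∈ distTriang T :=
    rot_of_distTriang _ (X.dist s)
  obtain ⟨w, hw, hw'⟩ := dual hC K hd x e h
  obtain ⟨y, hy⟩ := (shiftFunctor T (1 : ℤ)).map_surjective (-(w ≫ (shR (X.J s) M).hom))
  have hw1 : y ≫ (X.a s ▷ M) = x ≫ red i _ := by
    apply (shiftFunctor T (1 : ℤ)).map_injective
    have h1 : (-(X.a s)⟦(1 : ℤ)⟧') ▷ M = -((X.a s)⟦(1 : ℤ)⟧' ▷ M) := (tensorRight M).map_neg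
    rw [← hw, Functor.map_comp, hy, Preadditive.neg_comp, Category.assoc, ← shR_nat_left, h1,
      Preadditive.neg_comp, Preadditive.comp_neg]
  have hw2 : y ≫ bdC δ (X.J s) = c • (e ≫ X.c s) := by
    apply (shiftFunctor T (1 : ℤ)).map_injective
    rw [Functor.map_zsmul, ← hw', Functor.map_comp, hy, Preadditive.neg_comp, Category.assoc,
      shR_bdC, Preadditive.comp_neg, neg_neg]
  refine ⟨y ≫ (R.φ s).hom, ?_, ?_⟩
  · rw [Category.assoc, ← R.comm_a, reassoc_of% hw1, rW]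
  · rw [B, Category.assoc, Iso.hom_inv_id_assoc, reassoc_of% hw2, Preadditive.zsmul_comp,
      Category.assoc, c_rJ]

/-- The statement for the reduction of a tower. -/
theorem tower {c : ℤ} (K : Kap i δ c) (P : T) {s : ℕ} {k m l a a' : ℤ}
    (h : k + s = a) (hm : k = m + 1) (hl : m = l + 1) (h' : m + ((s + 5 : ℕ) : ℤ) = a')
    (h₁ : m + ((s + 1 : ℕ) : ℤ) = a) (h₁' : l + ((s + 5 + 1 : ℕ) : ℤ) = a')
    (xt : P⟦a⟧ ⟶ X.W s) (bt : P⟦a⟧ ⟶ X.W (s + 1)) (gt : P⟦a'⟧ ⟶ X.W (s + 5))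
    (ct : P⟦a'⟧ ⟶ X.W (s + 5 + 1)) (hb : xt ≫ X.b s ≫ X.a (s + 1) = n • bt)
    (hc : gt ≫ X.b (s + 5) ≫ X.a (s + 5 + 1) = n • ct)
    (htf : ∀ f : P⟦a'⟧ ⟶ X.W (s + 5 + 1), n • f = 0 → f = 0)
    (o₁ : ∀ e : (Y.couple P).E (s + 1) (m + 1), e = 0)
    (o₂ : ∀ e : (Y.couple P).E (s + 5 + 1) m, e = 0)
    (x : (Y.couple P).E s k) (b : (Y.couple P).E (s + 1) m)
    (hx : Y.eE P h x = xt ≫ R.rW i s) (hb' : Y.eE P h₁ b = bt ≫ R.rW i (s + 1))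
    (y : (Y.couple P).D (s + 5) m)
    (hy : (Y.couple P).proj m (by omega) y = (Y.couple P).k s k m hm x)
    (hy' : Y.eE P h' ((Y.couple P).j _ _ y) = gt ≫ R.rW i (s + 5)) :
    ∃ y' : (Y.couple P).D (s + 5 + 1) l,
      (Y.couple P).proj l (by omega) y' = (Y.couple P).k (s + 1) m l hl b ∧
      Y.eE P h₁' ((Y.couple P).j _ _ y') = -(ct ≫ R.rW i (s + 5 + 1)) := by
  have e1 : m + ((s + 1 + 1 : ℕ) : ℤ) = a + 1 := by rw [← h₁]; push_cast; ring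
  have e2 : l + ((s + 1 + 1 : ℕ) : ℤ) = a := by rw [← h₁, hl]; push_cast; ring
  have e3 : l + ((s + 5 : ℕ) : ℤ) + 1 = a' := by rw [← h₁']; push_cast; ring
  have kb : Y.eD P e2 ((Y.couple P).k (s + 1) m l hl b) =
      bt ≫ R.rW i (s + 1) ≫ Y.b (s + 1) := by
    rw [Y.eD_k P hl h₁ e2, hb', Category.assoc]
  obtain ⟨u, hu, hu'⟩ := R.first hC K (xt ≫ X.b s) bt (by rw [Category.assoc, hb])
  obtain ⟨e, he⟩ := exists_zsmul_of_red hC (gt ≫ X.b (s + 5)) (by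
    have h1 := congrArg (· ≫ Y.b (s + 5)) hy'
    simp only [Y.eE_j P h', Category.assoc, Tow.a_b, comp_zero] at h1
    rw [← cancel_mono (R.φ (s + 5 + 1)).hom, zero_comp, h1, ← b_rJ, Category.assoc,
      Category.assoc]
    rfl)
  have he' : e ≫ X.a (s + 5 + 1) = ct := by
    rw [← sub_eq_zero]
    apply htf
    rw [smul_sub, ← hc, ← Preadditive.zsmul_comp, he, Category.assoc, sub_self]
  obtain ⟨y₀, hw, hw'⟩ := R.second hC K gt e he.symm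
  obtain ⟨y', p1, p2⟩ := alg (Y.couple P) (opD Y P (R.B i δ) hl)
    (opD_i Y P (R.B i δ) (R.c_B i δ) hl) c _ ((Y.couple P).k (s + 1) m l hl b) (by
      apply (Y.eD P e2).injective
      rw [map_zsmul, kb, ← Preadditive.comp_zsmul, ← Preadditive.zsmul_comp,
        R.rW_zsmul i K.sq]) o₁ o₂
    ((Y.eD P e1).symm ((shiftFunctorAdd' T a 1 (a + 1) rfl).hom.app P ≫ u)) rfl (by
      apply (Y.eD P e2).injective
      apply (sh a 1 (a + 1) rfl).injective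
      rw [eD_opD Y P _ hl e2 e1, AddEquiv.apply_symm_apply, map_zsmul, kb, map_zsmul,
        Category.assoc, hu', Preadditive.comp_zsmul]
      rfl) y ((Y.eD P h').symm y₀) (by
      rw [hy]
      apply (Y.eD P h₁).injective
      apply (sh a 1 (a + 1) rfl).injective
      rw [Y.eD_i P h₁ e1, AddEquiv.apply_symm_apply, Y.eD_k P hm h h₁, hx, Category.assoc,
        Category.assoc, hu, Category.assoc, b_rJ]
      rfl) (by
      apply (Y.eE P h').injective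
      rw [hy', Y.eE_j P h', AddEquiv.apply_symm_apply, hw])
    ((Y.eD P h₁').symm (e ≫ R.rJ i _)) (by
      apply (Y.eD P rfl).injective
      apply (sh _ 1 a' e3).injective
      rw [eD_opD Y P _ hl rfl h', AddEquiv.apply_symm_apply, map_zsmul, map_zsmul,
        Y.eD_i P rfl h₁', AddEquiv.apply_symm_apply, hw', Category.assoc])
  refine ⟨y', p1, ?_⟩
  rw [p2, map_neg, map_zsmul, Y.eE_j P h₁', AddEquiv.apply_symm_apply, Category.assoc, ← a_rW,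
    reassoc_of% he', ← Preadditive.comp_zsmul, R.rW_zsmul i K.sq]

end Red

end BockT

variable {T : Type u} [Category.{v} T] [Preadditive T] [HasZeroObject T] [HasShift T ℤ]
  [∀ n : ℤ, (shiftFunctor T n).Additive] [Pretriangulated T] [MonoidalCategory T]
  [SymmetricCategory T] [TensorTriangulated T] [HasCoproducts.{0} T] {D : MUData T} (G : Geo D)

namespace BockT

/-- The tower of the Moore spectrum is the reduction of the tower of the sphere. -/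
noncomputable def redG : Red G.M (G.U.tow (𝟙_ T)) (G.U.tow G.M) where
  φ s := bV G.U G.M s (𝟙_ T) ≪≫ BmI G.U s (λ_ G.M)
  ψ s := wV G.U G.M s (𝟙_ T) ≪≫ whiskerLeftIso D.R (BmI G.U s (λ_ G.M))
  comm_a s := (TV G.U G.M).comm_a s
  comm_b s := (TV G.U G.M).comm_b s
  comm_c s := by
    have h := (TV G.U G.M).comm_c s
    rw [← tensorRight_commShiftIso_one]
    exact (Category.assoc _ _ _).symm.trans h

/-- The integral cochain in the `E₁`-term of the sphere. -/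
noncomputable def cS {s : ℕ} {w : ℤ} (z : Cob.wt Laz s w) :
    (𝟙_ T)⟦2 * w⟧ ⟶ D.R ⊗ G.U.cobar.B s (𝟙_ T) := G.ch z ≫ G.U.cobar.q s (𝟙_ T)

theorem cS_rW {s : ℕ} {w : ℤ} (z : Cob.wt Laz s w) :
    G.cE z = cS G z ≫ Red.rW G.i (redG G) s := by
  have h2 := q_wV G.U G.M s (𝟙_ T)
  have h3 := G.U.cobar.q_naturality s (λ_ G.M).hom
  have h4 := redC_nV G.U G.i (s + 1)
  have h1 : G.cE z = cS G z ≫ red G.i (D.R ⊗ G.U.cobar.B s (𝟙_ T)) ≫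
      (wV G.U G.M s (𝟙_ T)).hom ≫ (D.R ◁ G.U.cobar.Bm s (λ_ G.M).hom) := by
    rw [G.cE_apply, cS, Category.assoc, red_nat_assoc, ← h4]
    refine congrArg _ ?_
    refine (Category.assoc _ _ _).trans (congrArg _ ?_)
    refine (Category.assoc _ _ _).trans ?_
    refine Eq.trans ?_ ((reassoc_of% h2) _).symm
    exact congrArg _ h3
  exact h1

theorem cS_d {s : ℕ} {w : ℤ} (x : Cob.wt Laz s w) (b : Cob.wt Laz (s + 1) w)
    (h : (3 : ℤ) • b.1 = Cob.d s x.1) :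
    cS G x ≫ G.U.cobar.D s (𝟙_ T) = ((3 : ℕ) : ℤ) • cS G b := by
  have h1 : Cob.dwt Laz s w x = ((3 : ℕ) : ℤ) • b := Subtype.ext h.symm
  rw [cS, cS, Category.assoc, ← CobarData.d_q, ← Category.assoc, ← G.ch_d, h1, map_zsmul,
    Preadditive.zsmul_comp]

theorem pi_zero (F : SpaceFunctor T) (f : 𝟙_ T ⟶ G.M) : ∃ c : ℤ, f = c • G.i := by
  obtain ⟨g, hg⟩ : ∃ g : 𝟙_ T ⟶ 𝟙_ T, f = g ≫ G.i :=
    Triangle.coyoneda_exact₃ _ G.dist f (by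
      change f ≫ G.δ = 0
      rw [← cancel_epi ((shiftFunctorZero T ℤ).hom.app (𝟙_ T)), comp_zero]
      exact D.conn_unit.shift 1 1 (by norm_num) 0 (by norm_num) _)
  obtain ⟨c, rfl⟩ := exists_int_unit F g
  exact ⟨c, by rw [hg, Preadditive.zsmul_comp, Category.id_comp]⟩

end BockT

variable [MonoidalClosed T] [IsTriangulated T] [HasProducts.{0} T] [StableCat T]

/-- The differential anticommutes with the Bockstein homomorphism. -/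
theorem Geo.bock (F : SpaceFunctor T) : G.X.Bock := by
  rintro s _ w u n m l rfl h hm hl h' h₁ h₁' x b y g c hb hc ⟨hy, hy'⟩
  obtain ⟨e, ⟨K⟩⟩ := BockT.exists_kap G.dist G.pi_one (BockT.pi_zero G F)
  obtain ⟨y', p1, p2⟩ := (BockT.redG G).tower G.dist K (𝟙_ T) h hm hl h' h₁ h₁'
    (BockT.cS G x) (BockT.cS G b) (BockT.cS G g) (BockT.cS G c) (BockT.cS_d G x b hb)
    (BockT.cS_d G g c hc) (B.torsionFree_W D G.U (p := 3) (by norm_num) G.dist _ u)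
    (G.X.odd (by push_cast at h₁ ⊢; omega)) (G.X.odd (by push_cast at h' ⊢; omega))
    (G.cls h x) (G.cls h₁ b) ((G.eE_cls h x).trans (BockT.cS_rW G x))
    ((G.eE_cls h₁ b).trans (BockT.cS_rW G b)) y hy
    ((congrArg (G.eE h') hy').trans ((G.eE_cls h' g).trans (BockT.cS_rW G g)))
  refine ⟨y', p1, (G.eE h₁').injective (p2.trans ?_)⟩
  rw [G.X_cls, G.eE_cls, map_neg, BockT.cS_rW]
  rfl

end Vale.Agent.P236T
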