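import Vale.Agent.P236T.Iface
import Vale.Agent.P257.H919.Steps
import Vale.Agent.P257.H545.InfP
import Vale.Agent.P257.H545.T1P

/-!
# P236T: periodicity with respect to `b₀` and the vanishing line

* `onto_b0`, `inj_b0`: multiplication by `b₀` is onto `H^{s+2}_{w+6}` and injective on
  `H^{s+1}_w` if `w ≤ 9 s`;
* `per : Per 27`;
* `eq_zero_of_line`: `H^s_w = 0` if `w + 2 ≤ 3 s`.
-/

namespace Vale.Agent.P236T

open Vale.Agent.P251 Vale.Agent.P251.F Vale.Agent.P251.I Vale.Agent.P257.H314 Vale.Agent.P257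

namespace PerPf

/-! ### the four term sequence -/

section four

open H93 H919 H93.Coch

variable {p : ℕ} {𝒢 : Grp p} {𝒳 : GSet 𝒢} {ℳ 𝒩 : Rep 𝒢} {s : ℕ} {v w : ℤ}

/-- Multiplication on the right by the class of a four term sequence is injective. -/
theorem inj (S : Four (triv 𝒢) ℳ 𝒩 ((triv 𝒢).shift v)) (τ : Coch 𝒳 𝒩 0) (σ : Coch 𝒳 ℳ 1)
    (b : Coch 𝒳 (triv 𝒢) 2)
    (hτ : ∀ {B : Type} [CommRing B] [FpA p B] (x : 𝒳.obj B) (g : ℕ → 𝒢.obj B),
      S.r.h (τ.f x g) = (1 : B))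
    (hτσ : τ.d = σ.push S.δ) (hσb : σ.d = b.push S.i) (hτw : τ.IsWt v) (hσw : σ.IsWt v)
    (hM : Van 𝒳 ℳ (s + 2) (w + v)) (hN : Van 𝒳 𝒩 (s + 1) (w + v))
    {c : Coch 𝒳 (triv 𝒢) (s + 1)} (hc : c.IsWt w) (hd : c.d = 0)
    {e : Coch 𝒳 (triv 𝒢) (s + 2)} (he : e.IsWt (w + v)) (h : e.d = c.cup b) :
    ∃ y : Coch 𝒳 (triv 𝒢) s, y.IsWt w ∧ y.d = c := by
  rw [van_succ] at hM hN
  obtain ⟨G, hG, hdG⟩ := hM (((-1 : ℤ) ^ (s + 1)) • c.cup σ - e.push S.i)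
    (IsWt.sub (IsWt.zsmul (hc.cup hσw) _) (he.push _)) (by
      rw [d_sub, d_zsmul, d_cup_left hd, hσb, push_d, h, push_cup, smul_smul, ← pow_add,
        ← two_mul, pow_mul, show ((-1 : ℤ) ^ 2) = 1 by norm_num, one_pow, one_smul]
      exact sub_self _)
  obtain ⟨F, hF, hdF⟩ := hN (c.cup τ - G.push S.δ) (IsWt.sub (hc.cup hτw) (hG.push _)) (by
    have h1 : (c.cup τ).d = ((-1 : ℤ) ^ (s + 1)) • c.cup τ.d := d_cup_left hd τ
    rw [d_sub, push_d, hdG, push_sub, S.push_push_i, sub_zero, push_zsmul, push_cup, ← hτσ]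
    exact sub_eq_zero.2 h1)
  refine ⟨(F.push S.r).ofShift, ?_, ?_⟩
  · have h : (F.push S.r).ofShift.IsWt (w + v - v) := isWt_ofShift (hF.push S.r)
    rwa [add_sub_cancel_right] at h
  · rw [d_ofShift, push_d, hdF, push_sub, S.push_push_δ, sub_zero]
    refine ext' fun {B} _ _ x g => ?_
    rw [ofShift_f, push_cup, cup_f, push_f, hτ]
    exact mul_one (c.f x g : B)

theorem inj_bP [hp : Fact p.Prime] (hp2 : p ≠ 2) {k n : ℕ} {w : ℤ}
    (h1 : Van (pt (addG p)) (DG p k).rep (n + 2) (w + eD p (k + 1)))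
    (h2 : Van (pt (addG p)) (DG p k).rep (n + 1) (w + eD p (k + 1) - eD p k))
    {z : CobP p (n + 1)} (hz : IsWtP p (n + 1) w z) (hd : dP (n + 1) z = 0) {e : CobP p (n + 2)}
    (he : IsWtP p (n + 2) (w + eD p (k + 1)) e)
    (h : dP (n + 2) e = cupP (a := n + 1) (b := 2) z (H134.bP p 1 k)) :
    ∃ y : CobP p n, IsWtP p n w y ∧ dP n y = z := by
  obtain ⟨F, hF, hdF⟩ := inj (𝒳 := pt (addG p)) (s := n) (w := w)
    (fourD k) (tauD p k) (sigD p k) (ofP (-(H134.bP p 1 k)))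
    (fun {B} _ _ x g => coeff_pT (zc p k (g 0))) (tauD_d k) (sigD_d hp2 k) (isWt_tauD k)
    (isWt_sigD k) h1 (van_shift.2 h2) (c := ofP z) (isWt_ofP.2 hz)
    (by rw [← ofP_dP, hd, ofP_zero]) (e := ofP (-e)) (isWt_ofP.2 he.neg) (by
      rw [← ofP_dP, map_neg, h, ← ofP_cupP]
      congr 1
      have h3 := cupP_add z (H134.bP p 1 k) (-(H134.bP p 1 k))
      rw [add_neg_cancel, cupP_zero] at h3
      exact neg_eq_of_add_eq_zero_right h3.symm)
  refine ⟨toP F, isWt_toP.2 hF, ofP_injective ?_⟩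
  rw [ofP_dP, ofP_toP, hdF]

end four

/-! ### the weights of monomials -/

section mon

open H327 Finset

theorem pow_le_wt (a : ℕ × ℕ) : 3 ^ (a.2 + a.1) ≤ wt 3 a :=
  single_le_sum (f := fun l => 3 ^ (a.2 + l)) (fun _ _ => Nat.zero_le _)
    (mem_range.2 (Nat.lt_succ_self _))

theorem one_le_wt (a : ℕ × ℕ) : 1 ≤ wt 3 a := (Nat.one_le_pow _ _ (by norm_num)).trans (pow_le_wt a)

theorem three_le_wt {a : ℕ × ℕ} (ha : a ≠ (0, 0)) : 3 ≤ wt 3 a := by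
  refine le_trans ?_ (pow_le_wt a)
  refine Nat.le_self_pow (fun h => ha (Prod.ext ?_ ?_)) 3 <;> simp only <;> omega

theorem nine_le_wt {a : ℕ × ℕ} (ha : a ≠ (0, 0)) :
    9 ≤ 2 * wt 3 a + ((if a = (0, 1) then 3 else 0) + if a = (1, 0) then 1 else 0) := by
  by_cases h1 : a = (0, 1)
  · subst h1
    decide
  by_cases h2 : a = (1, 0)
  · subst h2
    decide
  have h3 : 2 ≤ a.2 + a.1 := by
    obtain ⟨i, j⟩ := a
    simp only [ne_eq, Prod.mk.injEq] at ha h1 h2 ⊢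
    omega
  have h4 := (Nat.pow_le_pow_right (show 0 < 3 by norm_num) h3).trans (pow_le_wt a)
  omega

theorem line_D {x : Mon} (hh : (0, 0) ∉ x.h) (hb : (0, 0) ∉ x.b.support) :
    9 * x.s ≤ 2 * x.W 3 + 4 := by
  have h1 : ∑ _a ∈ x.h, 9 ≤ ∑ a ∈ x.h, (2 * wt 3 a +
      ((if a = (0, 1) then 3 else 0) + if a = (1, 0) then 1 else 0)) :=
    sum_le_sum fun a ha => nine_le_wt fun h => hh (h ▸ ha)
  rw [sum_add_distrib, sum_add_distrib, sum_ite_eq', sum_ite_eq', ← mul_sum, sum_const,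
    smul_eq_mul] at h1
  have h2 : ∑ a ∈ x.b.support, 3 * x.b a ≤ ∑ a ∈ x.b.support, x.b a * wt 3 a :=
    sum_le_sum fun a ha => by
      rw [mul_comm]
      exact Nat.mul_le_mul_left _ (three_le_wt fun h => hb (h ▸ ha))
  rw [← mul_sum] at h2
  rw [Mon.s, Mon.W, Finsupp.sum, Finsupp.sum]
  split_ifs at h1 <;> omega

theorem line_one (x : Mon) : 3 * x.s ≤ 2 * x.W 3 + 1 := by
  have h1 : ∑ _a ∈ x.h, 3 ≤ ∑ a ∈ x.h, (2 * wt 3 a + if a = (0, 0) then 1 else 0) :=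
    sum_le_sum fun a _ => by
      have h := one_le_wt a
      split_ifs with ha
      · omega
      · have := three_le_wt ha
        omega
  rw [sum_add_distrib, sum_ite_eq', ← mul_sum, sum_const, smul_eq_mul] at h1
  have h2 : ∑ a ∈ x.b.support, x.b a ≤ ∑ a ∈ x.b.support, x.b a * wt 3 a :=
    sum_le_sum fun a _ => Nat.le_mul_of_pos_right _ (one_le_wt a)
  rw [Mon.s, Mon.W, Finsupp.sum, Finsupp.sum]
  split_ifs at h1 <;> omega

theorem van_D {s : ℕ} {w : ℤ} (h : w + 5 ≤ 9 * s) :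
    H93.Van (H93.pt (H93.addG 3)) (H919.DG 3 0).rep s w :=
  H919.van_DG fun x hh hb hs hW => by
    have := line_D hh hb
    omega

end mon

/-! ### the cone of the multiplication by `b₀` -/

open H545

/-- the cocycle `b₀` modulo `I_h` -/
noncomputable def bq (h : ℕ) : Cob (QI 3 h) 2 :=
  Cob.mapRing (Ideal.Quotient.mk (Laz.I 3 h)) 2 (bcls 3 t1)

theorem d_bq (h : ℕ) : Cob.d 2 (bq h) = 0 := by
  rw [bq, ← Cob.mapRing_d (isLawHom_mkI 3 h), d_b, map_zero]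

theorem d_cp_two {N : Type} [CommRing N] [LawRing N] {s : ℕ} (y : Cob N s) {b : Cob N 2}
    (hb : Cob.d 2 b = 0) : Cob.d (s + 2) (cp rfl y b) =
      cp (show s + 1 + 2 = s + 2 + 1 from rfl) (Cob.d s y) b := by
  rw [d_cp, hb, cp_zero, smul_zero, add_zero]

theorem sub_cp {N : Type} [CommRing N] [LawRing N] {a b n : ℕ} (h : a + b = n) (x x' : Cob N a)
    (y : Cob N b) : cp h (x - x') y = cp h x y - cp h x' y := by
  rw [cp, cp, cp, map_sub, sub_mul]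

theorem add_cp {N : Type} [CommRing N] [LawRing N] {a b n : ℕ} (h : a + b = n) (x x' : Cob N a)
    (y : Cob N b) : cp h (x + x') y = cp h x y + cp h x' y := by
  rw [cp, cp, cp, map_add, add_mul]

theorem vQ_cp {h a b n : ℕ} (k : a + b = n) (x : Cob (QI 3 h) a) (y : Cob (QI 3 h) b) :
    cp k (MvPolynomial.C (vQ 3 h) * x) y = MvPolynomial.C (vQ 3 h) * cp k x y := by
  rw [cp, cp, map_mul, mul_assoc, mp, map_C_vQ]

theorem red_cp {h a n : ℕ} (k : a + 2 = n) (x : Cob (QI 3 h) a) :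
    red 3 h n (cp k x (bq h)) = cp k (red 3 h a x) (bq (h + 1)) := by
  rw [red, mapRing_cp (isLawHom_redQ 3 h), bq, bq, ← red_mapRing]
  rfl

/-- The cone of the multiplication by `b₀` is exact at one place. -/
def Cone (h s : ℕ) (w : ℤ) : Prop :=
  ∀ (x : Cob (QI 3 h) (s + 1)) (c : Cob (QI 3 h) (s + 2)), Cob.IsWt w x → Cob.IsWt (w + 6) c →
    Cob.d (s + 1) x = 0 → Cob.d (s + 2) c = cp (show s + 1 + 2 = s + 2 + 1 from rfl) x (bq h) →
    ∃ (y : Cob (QI 3 h) s) (e : Cob (QI 3 h) (s + 1)), Cob.IsWt w y ∧ Cob.IsWt (w + 6) e ∧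
      Cob.d s y = x ∧ c = cp rfl y (bq h) + Cob.d (s + 1) e

theorem isWt_bq (h : ℕ) : Cob.IsWt 6 (bq h) := isWt_b.mapRing (isLawHom_mkI 3 h)

theorem cone_neg {h s : ℕ} {w : ℤ} (hw : w + 6 < 0) : Cone h s w := by
  intro x c hx hc _ _
  obtain ⟨x, rfl⟩ := exists_lift_wt hx
  obtain ⟨c, rfl⟩ := exists_lift_wt hc
  refine ⟨0, 0, Cob.isWt_zero _, Cob.isWt_zero _, ?_, ?_⟩
  · rw [eq_zero_of_isWt_neg (by omega) x.2, map_zero, map_zero]
  · rw [eq_zero_of_isWt_neg hw c.2, map_zero, map_zero, zero_cp, add_zero]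

theorem cone_step {h s : ℕ} {w : ℤ} (h1 : Cone (h + 1) s w)
    (h2 : Cone h s (w - (((3 : ℕ) ^ h : ℤ) - 1))) : Cone h s w := by
  intro x c hx hc dx dc
  obtain ⟨y, e, hy0, he0, dy, hce⟩ := h1 (red 3 h _ x) (red 3 h _ c) (isWt_red hx) (isWt_red hc)
    (by rw [← red_d, dx, map_zero]) (by rw [← red_d, dc, red_cp])
  obtain ⟨y, hy, rfl⟩ := exists_red_eq hy0
  obtain ⟨e, he, rfl⟩ := exists_red_eq he0
  have hx1 : Cob.IsWt w (x - Cob.d s y) := (Cob.wt _ _ _).sub_mem hx hy.d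
  have hc1 : Cob.IsWt (w + 6) (c - (cp rfl y (bq h) + Cob.d (s + 1) e)) :=
    (Cob.wt _ _ _).sub_mem hc ((isWt_cp rfl rfl hy (isWt_bq h)).add he.d)
  obtain ⟨x', hx', ex⟩ := exists_of_red_eq_zero hx1 (by rw [map_sub, red_d, dy, sub_self])
  obtain ⟨c', hc', ec⟩ := exists_of_red_eq_zero hc1 (by
    rw [map_sub, map_add, red_d, red_cp, ← hce, sub_self])
  obtain ⟨y', e', hy', he', dy', hce'⟩ := h2 x' c' hx' (by convert hc' using 1; ring)
    (vQ_mul_eq_zero 3 h (by rw [← d_vQ_mul, ← ex, map_sub, dx, Cob.d_d, sub_zero]))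
    (vQ_mul_cancel 3 h (by
      rw [← d_vQ_mul, ← ec, ← vQ_cp, ← ex, map_sub, map_add, Cob.d_d, add_zero, dc,
        d_cp_two y (d_bq h), sub_cp]))
  refine ⟨y + MvPolynomial.C (vQ 3 h) * y', e + MvPolynomial.C (vQ 3 h) * e', hy.add ?_,
    he.add ?_, ?_, ?_⟩
  · convert (isWt_C_vQ 3 h s).mul hy' using 1
    ring
  · convert (isWt_C_vQ 3 h (s + 1)).mul he' using 1
    ring
  · rw [map_add, d_vQ_mul, dy', ← ex, add_sub_cancel]
  · rw [add_cp, vQ_cp, map_add, d_vQ_mul, add_add_add_comm, ← mul_add, ← hce', ← ec,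
      add_sub_cancel]

theorem cone_top {h s : ℕ} {w : ℤ} (hh : 1 ≤ h) (hw : w + 6 < ((3 : ℕ) : ℤ) ^ h - 1)
    (hs : w ≤ 9 * (s + 1 : ℕ)) : Cone h (s + 1) w := by
  intro x c hx0 hc0 dx dc
  have e1 : H93.eD 3 (0 + 1) = 6 := by norm_num [H93.eD]
  have e0 : H93.eD 3 0 = 2 := by norm_num [H93.eD]
  have hL := isLawHom_mkI 3 h
  have hb : H93.fP 3 2 (bcls 3 t1) = H134.bP 3 1 0 := fP_bcls isT1_t1
  obtain ⟨⟨x, hx⟩, rfl⟩ := exists_lift_wt hx0
  obtain ⟨⟨c, hc⟩, rfl⟩ := exists_lift_wt hc0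
  simp only at dx dc ⊢
  rw [← Cob.mapRing_d hL, mapRing_eq_zero_iff] at dx
  rw [← Cob.mapRing_d hL, bq, ← mapRing_cp hL, ← sub_eq_zero, ← map_sub,
    mapRing_eq_zero_iff] at dc
  -- `x` is a coboundary
  obtain ⟨y, hy, dy⟩ := inj_bP (p := 3) (k := 0) (n := s + 1) (w := w) (by norm_num)
    (van_D (by rw [e1]; push_cast at hs ⊢; omega))
    (van_D (by rw [e1, e0]; push_cast at hs ⊢; omega)) (H93.fP_wt hx)
    (by rw [← H93.fP_d, H93.fP_IC dx]) (e := H93.fP 3 _ c) (by rw [e1]; exact H93.fP_wt hc) (by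
      have h3 := H93.fP_IC dc
      rw [map_sub, sub_eq_zero, H93.fP_d] at h3
      rw [h3, ← hb, ← H93.fP_cup]
      exact congrArg _ (cp_rfl x (bcls 3 t1)))
  obtain ⟨y₀, hy₀, dy₀⟩ := (cmpP (infCmp 3)).inj hh (show w < ((3 : ℕ) : ℤ) ^ h - 1 by omega)
    hx dx hy dy
  -- `c - y₀ b` is a cocycle
  have hc1 : Cob.IsWt (w + 6) (c - cp rfl y₀ (bcls 3 t1)) :=
    (Cob.wt _ _ _).sub_mem hc (isWt_cp rfl rfl hy₀ isWt_b)
  have dc1 : Cob.d (s + 1 + 2) (c - cp rfl y₀ (bcls 3 t1)) ∈ IC 3 h (s + 1 + 2 + 1) := by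
    rw [← mapRing_eq_zero_iff, map_sub] at dy₀ dc
    rw [← mapRing_eq_zero_iff, map_sub, d_cp_two y₀ d_b, map_sub, mapRing_cp hL,
      ← sub_eq_zero.1 dy₀, ← mapRing_cp hL]
    exact dc
  obtain ⟨c₀, e, hc₀, he, dc₀, hce⟩ := H93.onto_bP (p := 3) (k := 0) (n := s + 1) (w := w + 6)
    (by norm_num) (van_D (by push_cast at hs ⊢; omega))
    (van_D (by rw [e0]; push_cast at hs ⊢; omega)) (H93.fP_wt hc1)
    (by rw [← H93.fP_d, H93.fP_IC dc1])
  rw [e1, add_sub_cancel_right] at hc₀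
  obtain ⟨z, e', hz, he', dz, hze⟩ := (cmpP (infCmp 3)).surj hh
    (show w < ((3 : ℕ) : ℤ) ^ h - 1 by omega) hc₀ dc₀
  have hze' : H93.fP 3 (s + 1) z = c₀ + H93.dP s e' := hze
  have hc2 : Cob.IsWt (w + 6) (c - cp rfl y₀ (bcls 3 t1) - cp rfl z (bcls 3 t1)) :=
    (Cob.wt _ _ _).sub_mem hc1 (isWt_cp rfl rfl hz isWt_b)
  have dz2 : Cob.d (s + 1 + 2) (cp rfl z (bcls 3 t1)) ∈ IC 3 h (s + 1 + 2 + 1) := by
    rw [← mapRing_eq_zero_iff] at dz
    rw [← mapRing_eq_zero_iff, d_cp_two z d_b, mapRing_cp hL, dz, zero_cp]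
  have hbw : H93.IsWtP 3 2 6 (H134.bP 3 1 0) := hb ▸ H93.fP_wt isWt_b
  obtain ⟨u, hu, du⟩ := (cmpP (infCmp 3)).inj (n := s + 2) hh hw hc2
    (by rw [map_sub]; exact sub_mem dc1 dz2)
    (y := e - H93.cupP (a := s) (b := 2) e' (H134.bP 3 1 0))
    (H93.IsWtP.sub he (H93.IsWtP.cupP he' hbw)) (by
      change H93.dP (s + 2) _ = H93.fP 3 (s + 1 + 2) _
      rw [map_sub (H93.fP 3 (s + 1 + 2)), hce, cp_rfl, H93.fP_cup, hze', hb, H93.add_cupP,
        map_sub, dP_cupP_two (a := s) e' (H919.dP_bP_one 0)]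
      abel)
  refine ⟨Cob.mapRing _ _ (y₀ + z), Cob.mapRing _ _ u, (hy₀.add hz).mapRing hL, hu.mapRing hL,
    ?_, ?_⟩
  · rw [← Cob.mapRing_d hL, eq_comm, ← sub_eq_zero, ← map_sub, mapRing_eq_zero_iff, map_add,
      ← sub_sub]
    exact sub_mem dy₀ dz
  · rw [← Cob.mapRing_d hL, bq, ← mapRing_cp hL, ← map_add, ← sub_eq_zero, ← map_sub,
      mapRing_eq_zero_iff, add_cp, ← sub_sub, ← sub_sub]
    exact du

/-- Descent along the Bockstein sequences. -/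
theorem desc {P : ℕ → ℤ → Prop} {W c : ℤ} (hneg : ∀ h w, w + c < 0 → P h w)
    (hstep : ∀ h w, P (h + 1) w → P h (w - (((3 : ℕ) ^ h : ℤ) - 1)) → P h w)
    (htop : ∀ h w, 1 ≤ h → w + c < ((3 : ℕ) : ℤ) ^ h - 1 → w ≤ W → P h w) {w : ℤ} (hw : w ≤ W) :
    P 1 w := by
  have key : ∀ k h : ℕ, 1 ≤ h → W + c < ((3 : ℕ) : ℤ) ^ (h + k) - 1 → ∀ w ≤ W, P h w := by
    intro k
    induction k with
    | zero => exact fun h hh hk w hw => htop h w hh (by rw [add_zero] at hk; omega) hw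
    | succ k ih =>
      intro h hh hk
      have h1 := ih (h + 1) (by omega) (by rwa [add_right_comm, add_assoc])
      have h3 : ((3 : ℕ) : ℤ) ^ 1 ≤ ((3 : ℕ) : ℤ) ^ h := pow_le_pow_right₀ (by norm_num) hh
      have h2 : ∀ n : ℕ, ∀ w ≤ W, w + c < n → P h w := by
        intro n
        induction n with
        | zero => exact fun w _ hn => hneg h w hn
        | succ n ihn =>
          intro w hw hn
          refine hstep h w (h1 w hw) (ihn _ ?_ ?_) <;> push_cast at h3 hn ⊢ <;> omega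
      exact fun w hw => h2 ((w + c).toNat + 1) w hw (by omega)
  refine key (W + c + 1).toNat 1 le_rfl ?_ w hw
  have h1 : 1 + (W + c + 1).toNat < 3 ^ (1 + (W + c + 1).toNat) := Nat.lt_pow_self (by norm_num)
  have h2 : ((1 + (W + c + 1).toNat : ℕ) : ℤ) < ((3 : ℕ) : ℤ) ^ (1 + (W + c + 1).toNat) := by
    exact_mod_cast h1
  omega

theorem cone {s : ℕ} {w : ℤ} (hs : 1 ≤ s) (hw : w ≤ 9 * s) : Cone 1 s w := by
  obtain ⟨s, rfl⟩ : ∃ n, s = n + 1 := ⟨s - 1, by omega⟩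
  exact desc (P := fun h w => Cone h (s + 1) w) (c := 6) (fun _ _ => cone_neg)
    (fun _ _ => cone_step) (fun _ _ => cone_top) hw

end PerPf

open PerPf

/-- Multiplication by `b₀` is onto below the line `w = 9 s`. -/
theorem onto_b0 {a s : ℕ} {v w : ℤ} (h : a + 2 = s) (k : v + 6 = w) (ha : 1 ≤ a) (hv : v ≤ 9 * a)
    (y : HQ s w) : ∃ x : HQ a v, H.cup h k x b0 = y := by
  subst h k
  obtain ⟨c, hc, dc, rfl⟩ := H.exists_rep y
  obtain ⟨y, e, hy, -, dy, hce⟩ := cone ha hv 0 c (Cob.isWt_zero _) hc (map_zero _)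
    (by rw [dc, zero_cp])
  refine ⟨H.mk y hy dy, ?_⟩
  rw [b0, cl, H.cup_mk, H.mk_eq_mk, hce, show rd 2 (bcls 3 t1) = bq 1 from rfl,
    sub_add_cancel_left]
  exact neg_mem (d_mem_Bc _)

/-- Multiplication by `b₀` is injective below the line `w = 9 (s - 1)`. -/
theorem inj_b0 {a s : ℕ} {v w : ℤ} (h : a + 2 = s) (k : v + 6 = w) (ha : 2 ≤ a)
    (hv : v + 9 ≤ 9 * a) (x : HQ a v) (hx : H.cup h k x b0 = 0) : x = 0 := by
  obtain ⟨a, rfl⟩ : ∃ n, a = n + 1 := ⟨a - 1, by omega⟩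
  subst h k
  obtain ⟨x, hw, dx, rfl⟩ := H.exists_rep x
  rw [b0, cl, H.cup_mk, H.mk_eq_zero] at hx
  obtain ⟨c, hc⟩ := hx
  obtain ⟨c, hc, dc⟩ := Cob.exists_isWt_of_d
    (isWt_cp (show a + 1 + 2 = a + 2 + 1 from rfl) rfl hw (isWt_rd isWt_b)) hc
  obtain ⟨y, -, -, -, dy, -⟩ := cone (s := a) (by omega) (by push_cast at hv; omega) x c hw hc dx dc
  exact H.mk_eq_zero.2 ⟨y, dy⟩

theorem cup_bp_step {a s K : ℕ} {v w : ℤ} (h : a + 2 * (K + 1) = s)
    (k : v + 6 * ((K + 1 : ℕ) : ℤ) = w) (x : HQ a v) : H.cup h k x (bp (K + 1)) =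
      H.cup (show a + 2 * K + 2 = s by omega) (show v + 6 * K + 6 = w by push_cast at k; omega)
        (H.cup rfl rfl x (bp K)) b0 :=
  (H.cup_assoc rfl _ rfl h rfl _ _ k x (bp K) b0).symm

theorem onto_bp (K : ℕ) {a s : ℕ} {v w : ℤ} (h : a + 2 * K = s) (k : v + 6 * (K : ℕ) = w)
    (ha : 1 ≤ a) (hv : v ≤ 9 * a) (y : HQ s w) : ∃ x : HQ a v, H.cup h k x (bp K) = y := by
  induction K generalizing s w with
  | zero =>
    obtain rfl : a = s := h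
    obtain rfl : v = w := by simpa using k
    exact ⟨y, H.cup_one rfl (add_zero _) y⟩
  | succ K ih =>
    obtain ⟨y', rfl⟩ := onto_b0 (show a + 2 * K + 2 = s by omega)
      (show v + 6 * K + 6 = w by push_cast at k; omega) (by omega) (by push_cast; omega) y
    obtain ⟨x, rfl⟩ := ih rfl rfl y'
    exact ⟨x, cup_bp_step h k x⟩

theorem inj_bp (K : ℕ) {a s : ℕ} {v w : ℤ} (h : a + 2 * K = s) (k : v + 6 * (K : ℕ) = w)
    (ha : 2 ≤ a) (hv : v + 9 ≤ 9 * a) (x : HQ a v) (hx : H.cup h k x (bp K) = 0) : x = 0 := by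
  induction K generalizing s w with
  | zero =>
    obtain rfl : a = s := h
    obtain rfl : v = w := by simpa using k
    exact (H.cup_one rfl (add_zero _) x).symm.trans hx
  | succ K ih =>
    rw [cup_bp_step] at hx
    exact ih rfl rfl (inj_b0 _ _ (by omega) (by push_cast; omega) _ hx)

/-- **Periodicity.** -/
theorem per : Per 27 :=
  ⟨fun h k hs hw h2 y => onto_bp 7 h k (by omega) (by push_cast at k; omega) y,
    fun h k hs hw h2 x hx => inj_bp 7 h k (by omega) (by push_cast at k; omega) x hx⟩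

/-- **The vanishing line.** -/
theorem eq_zero_of_line {s : ℕ} {w : ℤ} (hw : w + 2 ≤ 3 * s) (a : HQ s w) : a = 0 := by
  refine eq_zero_of_algVan ?_ a
  refine desc (P := fun h w => AlgVan 3 h s w) (c := 0) (W := 3 * s - 2)
    (fun _ _ hw => algVan_neg (by omega)) (fun _ _ => H545.algVan_step) (fun h w hh h1 h2 => ?_)
    (by omega)
  refine (H545.cmpP (H545.infCmp 3)).algVan_of_van hh (by omega) ?_
  have h3 : H545.VanP 3 s w := H545.vanP_iff.2 (H919.bound_addG fun x hx hW => by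
    have := line_one x
    omega)
  cases s <;> exact h3

end Vale.Agent.P236T
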