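import Vale.Agent.P236T.Geo
import Vale.Agent.P236K.Thom

/-!
# P236T: coherent spheres, the unit, and the permanent cycles in filtration one
-/

open CategoryTheory MonoidalCategory Limits Pretriangulated MonObj

set_option linter.unusedSectionVars false

universe v u

namespace Vale.Agent.P236T

open Vale.Agent.P251 Vale.Agent.P251.T Vale.Agent.P251.M Vale.Agent.P251.F Vale.Agent.P251.I
  Vale.Agent.P257 Vale.Agent.P257.H314 Vale.Agent.P257.H820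
open Vale.Agent.P251.S hiding IC

section

variable {T : Type u} [Category.{v} T] [Preadditive T] [HasZeroObject T] [HasShift T ℤ]
  [∀ n : ℤ, (shiftFunctor T n).Additive] [Pretriangulated T] [MonoidalCategory T]
  [SymmetricCategory T] [TensorTriangulated T]

namespace Base

theorem tensorSph_hom (n : ℤ) (Y : T) :
    (tensorSph n Y).hom = (csh Y n (𝟙_ T)).hom ≫ ((ρ_ Y).hom)⟦n⟧' := rfl

@[reassoc]
theorem csh_add (X Z : T) {a b c : ℤ} (h : a + b = c) :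
    (X ◁ (shiftFunctorAdd' T a b c h).inv.app Z) ≫ (csh X c Z).hom =
      (csh X b (Z⟦a⟧)).hom ≫ ((csh X a Z).hom)⟦b⟧' ≫
        (shiftFunctorAdd' T a b c h).inv.app (X ⊗ Z) := by
  have h1 : (csh X c Z).hom = (X ◁ (shiftFunctorAdd' T a b c h).hom.app Z) ≫
      (csh X b (Z⟦a⟧)).hom ≫ ((csh X a Z).hom)⟦b⟧' ≫
        (shiftFunctorAdd' T a b c h).inv.app (X ⊗ Z) := by
    have h3 := congrArg (fun e => e.hom.app Z) (Functor.commShiftIso_add' (tensorLeft X) h)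
    rw [Functor.CommShift.isoAdd'_hom_app] at h3
    exact h3
  rw [h1, ← MonoidalCategory.whiskerLeft_comp_assoc, Iso.inv_hom_id_app,
    MonoidalCategory.whiskerLeft_id, Category.id_comp]

@[reassoc]
theorem tensorSph_csh (X Y : T) (n : ℤ) :
    (α_ X Y ((𝟙_ T)⟦n⟧)).hom ≫ (X ◁ (tensorSph n Y).hom) ≫ (csh X n Y).hom =
      (tensorSph n (X ⊗ Y)).hom := by
  rw [tensorSph_hom, tensorSph_hom, MonoidalCategory.whiskerLeft_comp, Category.assoc, csh_nat,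
    ← csh_associator_assoc, ← Functor.map_comp]
  congr 2
  simp

/-- The multiplication of the spheres. -/
noncomputable def ms {a b c : ℤ} (h : a + b = c) : (𝟙_ T)⟦a⟧ ⊗ (𝟙_ T)⟦b⟧ ⟶ (𝟙_ T)⟦c⟧ :=
  (tensorSph b ((𝟙_ T)⟦a⟧)).hom ≫ (shiftFunctorAdd' T a b c h).inv.app (𝟙_ T)

theorem ms_assoc {a b c ab bc n : ℤ} (h₁ : a + b = ab) (h₂ : ab + c = n) (h₃ : b + c = bc)
    (h₄ : a + bc = n) : (ms (T := T) h₁ ▷ (𝟙_ T)⟦c⟧) ≫ ms h₂ =
      (α_ _ _ _).hom ≫ ((𝟙_ T)⟦a⟧ ◁ ms h₃) ≫ ms h₄ := by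
  have e : ((shiftFunctorAdd' T b c bc h₃).inv.app ((𝟙_ T)⟦a⟧ ⊗ 𝟙_ T)) ≫
      ((ρ_ ((𝟙_ T)⟦a⟧)).hom)⟦bc⟧' = (((ρ_ ((𝟙_ T)⟦a⟧)).hom)⟦b⟧')⟦c⟧' ≫
        (shiftFunctorAdd' T b c bc h₃).inv.app ((𝟙_ T)⟦a⟧) :=
    ((shiftFunctorAdd' T b c bc h₃).inv.naturality _).symm
  rw [ms, ms, ms, ms, tensorSph_naturality_assoc, Functor.map_comp, Category.assoc,
    shiftFunctorAdd'_assoc_inv_app a b c ab bc n h₁ h₃ (by omega),
    MonoidalCategory.whiskerLeft_comp, Category.assoc, tensorSph_hom bc, Category.assoc,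
    csh_add_assoc, tensorSph_csh_assoc, reassoc_of% e, tensorSph_hom b, Functor.map_comp,
    Category.assoc]

theorem ms_zero {a : ℤ} (h : a + 0 = a) :
    ((𝟙_ T)⟦a⟧ ◁ (shiftFunctorZero T ℤ).inv.app (𝟙_ T)) ≫ ms h = (ρ_ _).hom := by
  have h1 : (csh ((𝟙_ T)⟦a⟧) 0 (𝟙_ T)).hom = ((𝟙_ T)⟦a⟧ ◁ (shiftFunctorZero T ℤ).hom.app (𝟙_ T)) ≫
      (shiftFunctorZero T ℤ).inv.app ((𝟙_ T)⟦a⟧ ⊗ 𝟙_ T) := by
    have h3 := congrArg (fun e => e.hom.app (𝟙_ T))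
      (Functor.commShiftIso_zero (tensorLeft ((𝟙_ T)⟦a⟧)) ℤ)
    rw [Functor.CommShift.isoZero_hom_app] at h3
    exact h3
  have h2 : ((ρ_ ((𝟙_ T)⟦a⟧)).hom)⟦(0 : ℤ)⟧' ≫ (shiftFunctorZero T ℤ).hom.app ((𝟙_ T)⟦a⟧) =
      (shiftFunctorZero T ℤ).hom.app _ ≫ (ρ_ _).hom := (shiftFunctorZero T ℤ).hom.naturality _
  rw [ms, shiftFunctorAdd'_add_zero_inv_app, tensorSph_hom, Category.assoc, h2, h1, Category.assoc,
    Iso.inv_hom_id_app_assoc, ← MonoidalCategory.whiskerLeft_comp_assoc, Iso.inv_hom_id_app]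
  exact (congrArg (· ≫ _) (MonoidalCategory.whiskerLeft_id _ _)).trans (Category.id_comp _)

variable [HasCoproducts.{0} T]

theorem prodSph_hom {w v u t k n : ℤ} (a : (stdEven T).S w ≅ (𝟙_ T)⟦t⟧)
    (b : (stdEven T).S v ≅ (𝟙_ T)⟦k⟧) (h : w + v = u) (h' : t + k = n) :
    (prodSph a b h h').hom = ((stdEven T).mu w v u h).inv ≫ (a.hom ⊗ₘ b.hom) ≫ ms h' := rfl

theorem prodSph_assoc {w v x wv vx u t k l tk kl n : ℤ} (a : (stdEven T).S w ≅ (𝟙_ T)⟦t⟧)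
    (b : (stdEven T).S v ≅ (𝟙_ T)⟦k⟧) (c : (stdEven T).S x ≅ (𝟙_ T)⟦l⟧) (h₁ : w + v = wv)
    (h₂ : wv + x = u) (h₃ : v + x = vx) (h₄ : w + vx = u) (k₁ : t + k = tk) (k₂ : tk + l = n)
    (k₃ : k + l = kl) (k₄ : t + kl = n) :
    prodSph (prodSph a b h₁ k₁) c h₂ k₂ = prodSph a (prodSph b c h₃ k₃) h₄ k₄ := by
  ext
  rw [prodSph_hom, prodSph_hom, prodSph_hom, prodSph_hom, Iso.inv_comp_eq,
    ← cancel_epi (((stdEven T).mu w v wv h₁).hom ▷ (stdEven T).S x),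
    reassoc_of% (stdEven T).mu_assoc w v x wv vx u h₁ h₂ h₃ h₄, Iso.hom_inv_id_assoc,
    whiskerRight_comp_tensorHom_assoc, Iso.hom_inv_id_assoc, whiskerLeft_comp_tensorHom_assoc,
    Iso.hom_inv_id_assoc, ← tensorHom_comp_whiskerRight_assoc, ms_assoc k₁ k₂ k₃ k₄,
    associator_naturality_assoc, tensorHom_comp_whiskerLeft_assoc]

theorem exists_zero {k : ℤ} (hk : k = 0) : ∃ x : (stdEven T).S 0 ≅ (𝟙_ T)⟦k⟧,
    ∀ {w t : ℤ} (a : (stdEven T).S w ≅ (𝟙_ T)⟦t⟧) (h : w + 0 = w) (h' : t + k = t),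
      prodSph a x h h' = a := by
  subst hk
  refine ⟨(stdEven T).zero.symm ≪≫ ((shiftFunctorZero T ℤ).app (𝟙_ T)).symm,
    fun {w t} a h h' => Iso.ext ?_⟩
  rw [prodSph_hom, Iso.inv_comp_eq, ← cancel_epi ((stdEven T).S w ◁ (stdEven T).zero.hom),
    reassoc_of% (stdEven T).mu_zero' w h, whiskerLeft_comp_tensorHom_assoc, Iso.trans_hom,
    Iso.symm_hom, Iso.hom_inv_id_assoc, MonoidalCategory.tensorHom_def, Category.assoc]
  exact (congrArg _ (ms_zero h')).trans (rightUnitor_naturality _)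

theorem prodSph_hom' {w v u t k n : ℤ} (a : (stdEven T).S w ≅ (𝟙_ T)⟦t⟧)
    (b : (stdEven T).S v ≅ (𝟙_ T)⟦k⟧) (h : w + v = u) (h' : t + k = n) :
    (prodSph a b h h').hom = (((stdEven T).mu w v u h).symm ≪≫ whiskerLeftIso _ b ≪≫
      tensorSph k _).hom ≫ a.hom⟦k⟧' ≫ ((shiftFunctorAdd' T t k n h').app (𝟙_ T)).inv := by
  rw [prodSph_hom, ms, tensorHom_def', Category.assoc, tensorSph_naturality_assoc, Iso.trans_hom,
    Iso.trans_hom, Category.assoc, Category.assoc]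
  rfl

theorem prodSph_bij {w v u t k n : ℤ} (b : (stdEven T).S v ≅ (𝟙_ T)⟦k⟧) (h : w + v = u)
    (h' : t + k = n) :
    Function.Bijective fun a : (stdEven T).S w ≅ (𝟙_ T)⟦t⟧ => prodSph a b h h' := by
  refine ⟨fun a a' e => Iso.ext ((shiftFunctor T k).map_injective ?_), fun x =>
    ⟨(shiftFunctor T k).preimageIso ((((stdEven T).mu w v u h).symm ≪≫ whiskerLeftIso _ b ≪≫
      tensorSph k _).symm ≪≫ x ≪≫ (shiftFunctorAdd' T t k n h').app (𝟙_ T)), Iso.ext ?_⟩⟩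
  · have := congrArg Iso.hom e
    rwa [prodSph_hom', prodSph_hom', cancel_epi, cancel_mono] at this
  · rw [prodSph_hom', Functor.preimageIso_hom, Functor.map_preimage, Iso.trans_hom _ (x ≪≫ _),
      Iso.symm_hom, Category.assoc, Iso.hom_inv_id_assoc, Iso.trans_hom, Category.assoc,
      Iso.hom_inv_id, Category.comp_id]

theorem exists_step (x : (stdEven T).S 0 ≅ (𝟙_ T)⟦2 * (0 : ℤ)⟧)
    (g : (stdEven T).S 1 ≅ (𝟙_ T)⟦2 * (1 : ℤ)⟧) :
    ∃ c : ∀ w : ℤ, (stdEven T).S w ≅ (𝟙_ T)⟦2 * w⟧, c 0 = x ∧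
      ∀ w u (h : w + 1 = u) (k : 2 * w + 2 * 1 = 2 * u), prodSph (c w) g h k = c u := by
  choose pre hpre using fun (w u : ℤ) (h : w + 1 = u) =>
    (prodSph_bij (t := 2 * w) (n := 2 * u) g h (by omega)).2
  let cp : ∀ n : ℕ, (stdEven T).S (Int.ofNat n) ≅ (𝟙_ T)⟦2 * Int.ofNat n⟧ := fun n =>
    Nat.rec x (fun n y => prodSph y g rfl (by simp; ring)) n
  let cn : ∀ n : ℕ, (stdEven T).S (Int.negSucc n) ≅ (𝟙_ T)⟦2 * Int.negSucc n⟧ := fun n =>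
    Nat.rec (pre _ 0 rfl x) (fun n y => pre _ (Int.negSucc n) (by omega) y) n
  refine ⟨fun w => Int.casesOn w cp cn, rfl, fun w u h k => ?_⟩
  rcases w with n | _ | n
  · obtain rfl : u = Int.ofNat (n + 1) := h.symm
    rfl
  · obtain rfl : u = Int.ofNat 0 := h.symm
    exact hpre _ 0 rfl x
  · obtain rfl : u = Int.negSucc n := by omega
    exact hpre _ _ h (cn n)

theorem exists_coh : ∃ c : ∀ w : ℤ, (stdEven T).S w ≅ (𝟙_ T)⟦2 * w⟧,
    ∀ {w v u : ℤ} (h : w + v = u) (k : 2 * w + 2 * v = 2 * u), prodSph (c w) (c v) h k = c u := by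
  obtain ⟨x, hx⟩ := exists_zero (T := T) (mul_zero (2 : ℤ))
  obtain ⟨c, h0, hc⟩ := exists_step x (B.sphE T 1)
  refine ⟨c, fun {w v u} h k => ?_⟩
  induction v using Int.induction_on generalizing u with
  | zero =>
    obtain rfl : u = w := by omega
    rw [h0]
    exact hx _ _ _
  | succ n ih =>
    rw [← hc n (n + 1) rfl (by omega), ← prodSph_assoc (wv := w + n) (tk := 2 * (w + n)) _ _ _ rfl
      (by omega) _ _ (by omega) (by omega), ih, hc]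
  | pred n ih =>
    refine (prodSph_bij (u := u + 1) (n := 2 * (u + 1)) (B.sphE T 1) rfl (by omega)).1 ?_
    dsimp only
    rw [prodSph_assoc (vx := -n) (kl := 2 * (-n)) _ _ _ _ _ (by omega) (by omega) _ _ (by omega)
      (by omega), hc, ih, hc]

end Base

variable [HasCoproducts.{0} T]

theorem exists_geo (D : MUData T) : Nonempty (Geo D) := by
  obtain ⟨U⟩ := exists_unitCof D.R
  obtain ⟨M, i, δ, h⟩ := distinguished_cocone_triangle (((3 : ℕ) : ℤ) • 𝟙 (𝟙_ T))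
  obtain ⟨c, hc⟩ := Base.exists_coh (T := T)
  exact ⟨⟨U, M, i, δ, h, c, hc⟩⟩

variable {D : MUData T} (G : Geo D) [MonoidalClosed T] [IsTriangulated T] [HasProducts.{0} T]
  [StableCat T]

theorem Geo.unit : ∃ y : G.C.D 0 0, G.C.j 0 0 y = G.X.cls (w := 0) rfl ⟨1, Cob.isWt_one⟩ := by
  let e : (𝟙_ T)⟦2 * (0 : ℤ)⟧ ≅ 𝟙_ T := (G.c 0).symm ≪≫ (stdEven T).zero.symm
  have h1 := realizes_one (M := D) (U := G.U) e
  have h2 : (stdEven T).zero.symm ≪≫ e.symm = G.c 0 := by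
    ext
    exact Iso.inv_hom_id_assoc _ _
  rw [h2] at h1
  have h3 := (G.realizes_ch (w := 0) ⟨1, Cob.isWt_one⟩).unique h1
  refine ⟨(G.eD (t := 2 * 0) rfl).symm (e.hom ≫ G.i), (G.j_eq_cls (w := 0) rfl _ _).2 ?_⟩
  rw [AddEquiv.apply_symm_apply, Geo.cE_apply, h3, CobarData.q_zero]
  refine (Category.assoc _ _ _).trans (Eq.trans ?_ (Category.assoc _ _ _).symm)
  exact congrArg _ ((unitMap_nat G.i).trans (congrArg _ (Category.comp_id _).symm))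

end

section

variable {T : Type u} [Category.{0} T] [Preadditive T] [HasZeroObject T]
    [HasShift T ℤ] [∀ n : ℤ, (shiftFunctor T n).Additive] [Pretriangulated T] [IsTriangulated T]
    [MonoidalCategory T] [SymmetricCategory T] [TensorTriangulated T] [MonoidalClosed T]
    [HasCoproducts.{0} T] [HasProducts.{0} T] [StableCat T] {D : MUData T}

theorem Geo.moore (G : Geo D) {j q : ℕ} {w n : ℤ} {h : n + ((1 : ℕ) : ℤ) = 2 * w}
    (hq : q = 3 ^ (j + 1)) (hw : w = P236Z.Det.w0 j) (hP : G.X.Perm q w n h) :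
    P236K.Moore D j := by
  subst hq hw
  obtain ⟨z, c, r, y, hc, hz, hI, hy⟩ := hP
  obtain ⟨b, hb⟩ := mem_IC_iff.1 hz
  let f : G.U.cobar.B 1 (𝟙_ T) ⊗ G.M ≅ G.U.cobar.B 1 G.M :=
    bV G.U G.M 1 (𝟙_ T) ≪≫ BmI G.U 1 (λ_ G.M)
  let g : (D.R ⊗ G.U.cobar.B 1 (𝟙_ T)) ⊗ G.M ≅ D.R ⊗ G.U.cobar.B 1 G.M :=
    wV G.U G.M 1 (𝟙_ T) ≪≫ whiskerLeftIso D.R (BmI G.U 1 (λ_ G.M))
  refine ⟨t1, isT1_t1, G.U, G.M, G.i, G.δ, G.dist, z, c, r,
    (G.c _).hom ≫ G.eD h y ≫ f.inv, hc, ⟨b, ?_⟩, hI, ?_⟩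
  · rw [← hb, zsmul_eq_mul]
    rfl
  · have h1 := (G.j_eq_cls h y z).1 hy
    have h2 : (unitMap D.R (G.U.cobar.B 1 (𝟙_ T)) ▷ G.M) ≫ g.hom = f.hom ≫ unitMap D.R _ :=
      (TV G.U G.M).comm_a 1
    have h3 := q_wV G.U G.M 1 (𝟙_ T)
    have h4 := G.U.cobar.q_naturality 1 (λ_ G.M).hom
    have h5 := redC_nV G.U G.i 2
    have h6 : P236Z.Dt.qq D G.U 1 ≫ P236Z.Dt.red G.i _ ≫ g.hom =
        (D.qAm G.U 2).inv ≫ G.U.cobar.Qm 2 G.i ≫ G.U.cobar.q 1 G.M := by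
      refine (Category.assoc _ _ _).trans (congrArg _ ?_)
      refine (P236Z.Dt.red_nat_assoc G.i (G.U.cobar.q 1 (𝟙_ T)) g.hom).trans ?_
      rw [← h5, Category.assoc, Category.assoc]
      exact congrArg _ (((reassoc_of% h3) _).trans (congrArg _ h4.symm))
    rw [← cancel_mono g.hom, Category.assoc, Category.assoc, Category.assoc, h2,
      Iso.inv_hom_id_assoc, h1, Geo.cE_apply, Geo.ch_apply, Category.assoc,
      Iso.hom_inv_id_assoc, MUData.phi_apply, Category.assoc, Category.assoc, Category.assoc, h6]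

end

end Vale.Agent.P236T
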