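import Vale.Agent.P236T.Leib
import Vale.Agent.P236T.Mul
import Vale.Agent.P236T.Act
import Vale.Agent.P236T.BockT
import Vale.Agent.P236T.Base
import Vale.Agent.P236T.Model2

/-!
# P236T: the assembly of the topological side
-/

open CategoryTheory MonoidalCategory Limits Pretriangulated MonObj

set_option linter.unusedSectionVars false

universe u

namespace Vale.Agent.P236T

open Vale.Agent.P251 Vale.Agent.P251.T Vale.Agent.P251.M Vale.Agent.P251.F Vale.Agent.P251.I
  Vale.Agent.P257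
open Vale.Agent.P251.S hiding IC

variable {T : Type u} [Category.{0} T] [Preadditive T] [HasZeroObject T] [HasShift T ℤ]
  [∀ n : ℤ, (shiftFunctor T n).Additive] [Pretriangulated T] [MonoidalCategory T]
  [SymmetricCategory T] [TensorTriangulated T] [HasCoproducts.{0} T] {D : MUData T} (G : Geo D)

/-- The relations between `α₁` and `β₁` on three-torsion objects. -/
def Geo.RelH : Prop :=
  ∀ (x : (𝟙_ T)⟦2 * (2 : ℤ)⟧ ⟶ G.U.cobar.B 1 (𝟙_ T))
    (y : (𝟙_ T)⟦2 * (6 : ℤ)⟧ ⟶ G.U.cobar.B 2 (𝟙_ T)), G.Det x t1w → G.Det y b0w →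
    ∀ N : T, ((3 : ℕ) : ℤ) • 𝟙 N = 0 →
      OpRel (hat₁ G.U (e := 3) (by norm_num) x) (hat₂ G.U (e := 10) (by norm_num) y) N

variable [MonoidalClosed T] [IsTriangulated T] [HasProducts.{0} T] [StableCat T]

/-- The couple of the Moore spectrum has all the properties. -/
theorem Geo.exists_top (F : SpaceFunctor T) (h : G.RelH) : ∃ P : Top G.C, P.X = G.X := by
  obtain ⟨V⟩ := G.exists_V
  obtain ⟨x, hx⟩ := G.exists_alpha
  obtain ⟨y, hy⟩ := G.exists_beta
  exact ⟨⟨G.X, V, G.mulA (by norm_num) (by norm_num) t1w _ (G.xM_det hx),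
    G.mulA (by norm_num) (by norm_num) b0w _ (G.xM_det hy),
    G.toda_of (G.act_one _ _ ⟨2, rfl⟩ (by norm_num) x) (G.act_two _ _ ⟨6, rfl⟩ (by norm_num) y)
      (fun s => h x y hx hy _ (G.three_B s)) _ _ (fun _ _ => rfl) (fun _ _ => rfl),
    G.leib, G.bock F, G.unit⟩, rfl⟩

theorem Geo.moore_of (P : Top G.C) (hP : P.X = G.X)
    (h : P.X.Perm 27 54 107 (by norm_num) ∧ P.X.Perm 81 162 323 (by norm_num)) :
    P236K.Moore D 2 ∧ P236K.Moore D 3 := by
  rw [hP] at h
  exact ⟨G.moore rfl (by decide) h.1, G.moore rfl (by decide) h.2⟩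

end Vale.Agent.P236T
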