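import Vale.Agent.P236T.Ops
import Vale.Agent.P257.H820.Leib2
import Vale.Agent.P257.H766.NPack

/-!
# P236T: the Leibniz rule with an arbitrary test object

`dn`: the map from the stage `r` of the tower of `A` to `A`.  `leibZ`: the Leibniz rule.
-/

open CategoryTheory MonoidalCategory Limits Pretriangulated MonObj

set_option linter.unusedSectionVars false

universe v u

namespace Vale.Agent.P236T

open Vale.Agent.P251 Vale.Agent.P251.T Vale.Agent.P257 Vale.Agent.P257.H820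
  Vale.Agent.P257.H712
open Vale.Agent.P251.S hiding IC

variable {T : Type u} [Category.{v} T] [Preadditive T] [HasZeroObject T] [HasShift T ℤ]
  [∀ n : ℤ, (shiftFunctor T n).Additive] [Pretriangulated T] [MonoidalCategory T]
  [SymmetricCategory T] [TensorTriangulated T]

variable {R : T} [MonObj R] (U : UnitCof R)

/-- The map from the stage `r` of the tower of `A` to `A`. -/
noncomputable def dn {P A : T} : ∀ (r : ℕ) {t t' : ℤ}, t + (r : ℤ) = t' →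
    (P⟦t'⟧ ⟶ U.cobar.B r A) → (P⟦t⟧ ⟶ A)
  | 0, _, _, h, c => cst P A (by rw [← h, Nat.cast_zero, add_zero]) c
  | r + 1, t, t', h, c => dn r rfl
      ((sh (t + (r : ℤ)) 1 t' (by rw [← h]; push_cast; ring)).symm (c ≫ U.bd r A))

theorem dn_zero {P A : T} {t : ℤ} (h : t + ((0 : ℕ) : ℤ) = t) (c : P⟦t⟧ ⟶ U.cobar.B 0 A) :
    dn U 0 h c = c := rfl

theorem dn_succ {P A : T} {r : ℕ} {t t₁ t' : ℤ} (h : t + ((r + 1 : ℕ) : ℤ) = t')
    (h₁ : t + (r : ℤ) = t₁) (h₂ : t₁ + 1 = t') (c : P⟦t'⟧ ⟶ U.cobar.B (r + 1) A)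
    (c₁ : P⟦t₁⟧ ⟶ U.cobar.B r A) (hc : sh t₁ 1 t' h₂ c₁ = c ≫ U.bd r A) :
    dn U (r + 1) h c = dn U r h₁ c₁ := by
  subst h₁
  rw [dn, ← hc, AddEquiv.symm_apply_apply]

theorem exists_down {P A : T} {r : ℕ} {t₁ t' : ℤ} (h₂ : t₁ + 1 = t')
    (c : P⟦t'⟧ ⟶ U.cobar.B (r + 1) A) :
    ∃ c₁ : P⟦t₁⟧ ⟶ U.cobar.B r A, sh t₁ 1 t' h₂ c₁ = c ≫ U.bd r A :=
  (sh t₁ 1 t' h₂).surjective _

theorem dn_nat {P A A' : T} (f : A ⟶ A') (r : ℕ) {t t' : ℤ} (h : t + (r : ℤ) = t')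
    (c : P⟦t'⟧ ⟶ U.cobar.B r A) : dn U r h (c ≫ U.cobar.Bm r f) = dn U r h c ≫ f := by
  induction r generalizing t' with
  | zero =>
    obtain rfl : t' = t := by omega
    rfl
  | succ r ih =>
    have h₂ : t + (r : ℤ) + 1 = t' := by push_cast at h; omega
    obtain ⟨c₁, hc⟩ := exists_down U h₂ c
    rw [dn_succ U h rfl h₂ c c₁ hc, ← ih, dn_succ U h rfl h₂ _ (c₁ ≫ U.cobar.Bm r f)]
    rw [sh_comp, hc, Category.assoc, Category.assoc, U.bd_naturality]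

/-- Even shifts. -/
theorem dn_shift {P A : T} {k : ℤ} (hk : ∃ n : ℕ, k = 2 * (n : ℤ)) (r : ℕ) {t t' l l' : ℤ}
    (h : t + (r : ℤ) = t') (h' : l + (r : ℤ) = l') (e : t + k = l) (e' : t' + k = l')
    (c : P⟦t'⟧ ⟶ U.cobar.B r A) :
    dn U r h' (sh t' k l' e' c ≫ U.κB k r A) = sh t k l e (dn U r h c) := by
  obtain ⟨n, rfl⟩ := hk
  induction r generalizing t' l' with
  | zero =>
    obtain rfl : t' = t := by omega
    obtain rfl : l' = l := by omega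
    exact Category.comp_id _
  | succ r ih =>
    have h₂ : t + (r : ℤ) + 1 = t' := by push_cast at h; omega
    have h₃ : l + (r : ℤ) + 1 = l' := by push_cast at h'; omega
    have h₄ : t + (r : ℤ) + 2 * (n : ℤ) = l + (r : ℤ) := by omega
    obtain ⟨c₁, hc⟩ := exists_down U h₂ c
    rw [dn_succ U h rfl h₂ c c₁ hc, ← ih rfl rfl c₁ h₄,
      dn_succ U h' rfl h₃ _ (sh _ _ _ h₄ c₁ ≫ U.κB _ r A)]
    rw [sh_comp, ← sh_sh_comm _ 1 _ _ _ _ h₂ e' h₄ h₃, hc, sh_comp, Category.assoc,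
      Category.assoc, Category.assoc, U.κB_bd]

/-- Moving a factor in: `X ⊗ B s Y ⟶ B s (X ⊗ Y)`. -/
def inB (X : T) : ∀ (s : ℕ) (Y : T), X ⊗ U.cobar.B s Y ⟶ U.cobar.B s (X ⊗ Y)
  | 0, _ => 𝟙 _
  | s + 1, Y => inB X s (U.J ⊗ Y) ≫ U.cobar.Bm s (sw X U.J Y)

theorem inB_zero (X Y : T) : inB U X 0 Y = 𝟙 _ := rfl

theorem inB_succ (X : T) (s : ℕ) (Y : T) :
    inB U X (s + 1) Y = inB U X s (U.J ⊗ Y) ≫ U.cobar.Bm s (sw X U.J Y) := rfl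

@[reassoc]
theorem inB_nat (X : T) (s : ℕ) {Y Y' : T} (f : Y ⟶ Y') :
    (X ◁ U.cobar.Bm s f) ≫ inB U X s Y' = inB U X s Y ≫ U.cobar.Bm s (X ◁ f) := by
  induction s generalizing Y Y' with
  | zero => exact (Category.comp_id _).trans (Category.id_comp _).symm
  | succ s ih =>
    have h := ih (U.J ◁ f)
    rw [inB_succ, inB_succ, Category.assoc]
    refine ((reassoc_of% h) _).trans (congrArg _ ?_)
    rw [CobarData.Bm_succ, ← CobarData.Bm_comp, ← CobarData.Bm_comp, sw_nat_right]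

instance isIso_sw (X Y Z : T) : IsIso (sw X Y Z) := ⟨sw Y X Z, sw_sw _ _ _, sw_sw _ _ _⟩

theorem sw_bdry (X Y : T) : sw X U.J Y ≫ U.bdry (X ⊗ Y) = (X ◁ U.bdry Y) ≫ (csh X 1 Y).hom := by
  obtain ⟨F, ⟨L⟩⟩ := exists_link U
  have h := L.sw_χ X Y
  rw [L.bdry_eq, L.bdry_eq, MonoidalCategory.whiskerLeft_comp, Category.assoc, csh_nat,
    whisker_ep, Functor.map_comp, ← cancel_epi (sw U.J X Y), sw_sw_assoc, reassoc_of% h,
    ← Functor.map_comp_assoc, sw_sw, CategoryTheory.Functor.map_id, Category.id_comp]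

theorem inB_bd (X : T) (s : ℕ) (Y : T) : inB U X (s + 1) Y ≫ U.bd s (X ⊗ Y) =
    (X ◁ U.bd s Y) ≫ (csh X 1 (U.cobar.B s Y)).hom ≫ (inB U X s Y)⟦(1 : ℤ)⟧' := by
  induction s generalizing Y with
  | zero =>
    refine (congrArg (· ≫ _) (Category.id_comp _)).trans ((sw_bdry U X Y).trans ?_)
    exact congrArg _ ((congrArg _ (CategoryTheory.Functor.map_id _ _)).trans
      (Category.comp_id _)).symm
  | succ s ih =>
    have h1 := U.bd_naturality s (sw X U.J Y)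
    have h2 := ih (U.J ⊗ Y)
    rw [inB_succ U X (s + 1), inB_succ U X s Y, Functor.map_comp, Category.assoc]
    exact (congrArg _ h1).trans ((reassoc_of% h2) _)

theorem csh_sh (X : T) {Z Y : T} {k k' : ℤ} (hk : k + 1 = k') (g : Z⟦k⟧ ⟶ Y) :
    (csh X k' Z).inv ≫ (X ◁ sh k 1 k' hk g) ≫ (csh X 1 Y).hom =
      sh k 1 k' hk ((csh X k Z).inv ≫ (X ◁ g)) := by
  have h1 := csh_inv_add X Z k k' hk
  have h4 : (csh X k' Z).inv ≫ (X ◁ (shiftFunctorAdd' T k 1 k' hk).hom.app Z) ≫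
      (csh X 1 (Z⟦k⟧)).hom = (shiftFunctorAdd' T k 1 k' hk).hom.app (X ⊗ Z) ≫
        ((csh X k Z).inv)⟦(1 : ℤ)⟧' := by
    rw [Iso.inv_comp_eq, ← cancel_epi (X ◁ (shiftFunctorAdd' T k 1 k' hk).inv.app Z),
      ← MonoidalCategory.whiskerLeft_comp_assoc, Iso.inv_hom_id_app,
      MonoidalCategory.whiskerLeft_id, Category.id_comp, reassoc_of% h1,
      Iso.inv_hom_id_app_assoc, ← Functor.map_comp, Iso.hom_inv_id,
      CategoryTheory.Functor.map_id, Category.comp_id]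
  change (csh X k' Z).inv ≫ (X ◁ ((shiftFunctorAdd' T k 1 k' hk).hom.app Z ≫ g⟦(1 : ℤ)⟧')) ≫ _ =
    (shiftFunctorAdd' T k 1 k' hk).hom.app (X ⊗ Z) ≫ ((csh X k Z).inv ≫ (X ◁ g))⟦(1 : ℤ)⟧'
  rw [MonoidalCategory.whiskerLeft_comp, Category.assoc, csh_nat, reassoc_of% h4,
    Functor.map_comp]

/-- Tensoring with an object. -/
theorem dn_in (X : T) {Z A : T} (r : ℕ) {t t' : ℤ} (h : t + (r : ℤ) = t')
    (c : Z⟦t'⟧ ⟶ U.cobar.B r A) :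
    dn U r h ((csh X t' Z).inv ≫ (X ◁ c) ≫ inB U X r A) =
      (csh X t Z).inv ≫ (X ◁ dn U r h c) := by
  induction r generalizing t' with
  | zero =>
    obtain rfl : t' = t := by omega
    exact congrArg (fun z => (csh X t' Z).inv ≫ z) (Category.comp_id _)
  | succ r ih =>
    have h₂ : t + (r : ℤ) + 1 = t' := by push_cast at h; omega
    obtain ⟨c₁, hc⟩ := exists_down U h₂ c
    rw [dn_succ U h rfl h₂ c c₁ hc, ← ih rfl,
      dn_succ U h rfl h₂ _ ((csh X _ Z).inv ≫ (X ◁ c₁) ≫ inB U X r A)]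
    rw [Category.assoc, Category.assoc, inB_bd, ← MonoidalCategory.whiskerLeft_comp_assoc, ← hc,
      ← Category.assoc (csh X _ Z).inv (X ◁ c₁), sh_comp, ← csh_sh]
    simp only [Category.assoc]

/-! ### the comparison with the tower of the fibre of the unit -/

theorem csI_col {I : T} (ε : I ⟶ 𝟙_ T) (s : ℕ) (Z : T) :
    (csI I s Z).hom ≫ (IBcol ε s Z)⟦(1 : ℤ)⟧' = IBcol ε s (Z⟦(1 : ℤ)⟧) := by
  induction s generalizing Z with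
  | zero => exact (Category.id_comp _).trans (CategoryTheory.Functor.map_id _ _)
  | succ s ih =>
    have h := ih (I ⊗ Z)
    rw [csI_succ_hom, IBcol_succ, IBcol_succ, Functor.map_comp, Category.assoc, reassoc_of% h,
      IBcol_nat_assoc, csh_ep]

section Link

variable {U} {F : UFib R} (L : Link U F) {P : T}

theorem ΦB_dn (r : ℕ) (A : T) {t t' : ℤ} (h : t + (r : ℤ) = t') (c : P⟦t'⟧ ⟶ U.cobar.B r A) :
    L.ΦB P r A t t' h c ≫ IBcol F.ε r A = dn U r h c := by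
  induction r generalizing t' with
  | zero => exact Category.comp_id _
  | succ r ih =>
    have h₂ : t + (r : ℤ) + 1 = t' := by push_cast at h; omega
    rw [← IBc_col, ← Category.assoc, ← L.ΦB_i r A t (t + (r : ℤ)) t' rfl h₂ h c, ih]
    rfl

/-- The comparison for the stages. -/
noncomputable def toB (P : T) (r : ℕ) (A : T) {t t' : ℤ} (h : t + (r : ℤ) = t') :
    (P⟦t'⟧ ⟶ U.cobar.B r (U.J ⊗ A)) ≃+ (P⟦t⟧ ⟶ (IB F.I (r + 1) A)⟦(1 : ℤ)⟧) :=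
  (L.ΦB P r (U.J ⊗ A) t t' h).trans (postE _ (L.ψ r A))

/-- The comparison for the `E₁`-terms. -/
noncomputable def toR (P : T) (r : ℕ) (A : T) {t t' : ℤ} (h : t + (r : ℤ) = t') :
    (P⟦t'⟧ ⟶ R ⊗ U.cobar.B r (U.J ⊗ A)) ≃+ (P⟦t⟧ ⟶ (R ⊗ IB F.I (r + 1) A)⟦(1 : ℤ)⟧) :=
  (L.ΦR P r (U.J ⊗ A) t t' h).trans (postE _ (whiskerLeftIso R (L.ψ r A) ≪≫ csh R 1 _))

theorem toB_apply (r : ℕ) (A : T) {t t' : ℤ} (h : t + (r : ℤ) = t')
    (c : P⟦t'⟧ ⟶ U.cobar.B r (U.J ⊗ A)) :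
    toB L P r A h c = L.ΦB P r (U.J ⊗ A) t t' h c ≫ (L.ψ r A).hom := rfl

theorem toR_apply (r : ℕ) (A : T) {t t' : ℤ} (h : t + (r : ℤ) = t')
    (c : P⟦t'⟧ ⟶ R ⊗ U.cobar.B r (U.J ⊗ A)) :
    toR L P r A h c = L.ΦR P r (U.J ⊗ A) t t' h c ≫ (R ◁ (L.ψ r A).hom) ≫ (csh R 1 _).hom := rfl

theorem toB_col (r : ℕ) (A : T) {t t' : ℤ} (h : t + (r : ℤ) = t')
    (c : P⟦t'⟧ ⟶ U.cobar.B r (U.J ⊗ A)) :
    toB L P r A h c ≫ (IBcol F.ε r (F.I ⊗ A))⟦(1 : ℤ)⟧' = dn U r h c ≫ (L.χ A).hom := by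
  rw [toB_apply, L.ψ_hom, Category.assoc, Category.assoc, csI_col, IBcol_nat, ← ΦB_dn L,
    Category.assoc]

theorem toB_lift {r : ℕ} {A : T} {t t' : ℤ} (h : t + (r : ℤ) = t') (f : P⟦t⟧ ⟶ R ⊗ A)
    (c : P⟦t'⟧ ⟶ U.cobar.B r (U.J ⊗ A)) : dn U r h c = f ≫ (U.ρ ▷ A) ↔
      f ≫ F.bI A = (-toB L P r A h c) ≫ (IBcol F.ε r (F.I ⊗ A))⟦(1 : ℤ)⟧' := by
  rw [Preadditive.neg_comp, toB_col, ← cancel_mono (L.χ A).hom, Category.assoc, L.ρ_χ,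
    Preadditive.comp_neg, eq_comm, neg_eq_iff_eq_neg]

theorem toR_un (r : ℕ) (A : T) {t t' : ℤ} (h : t + (r : ℤ) = t')
    (c : P⟦t'⟧ ⟶ U.cobar.B r (U.J ⊗ A)) : toR L P r A h (c ≫ unitMap R _) =
      toB L P r A h c ≫ (unitMap R (IB F.I (r + 1) A))⟦(1 : ℤ)⟧' := by
  rw [toR_apply, toB_apply, L.ΦR_un, Category.assoc, Category.assoc, ← unitMap_nat_assoc,
    unitMap_csh]

theorem toR_oc {Z : T} (r : ℕ) (A : T) {n t t' m m' : ℤ} (h : t + (r : ℤ) = t') (h1 : n + t = m)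
    (h2 : m + (r : ℤ) = m') (h3 : n + t' = m') (x : P⟦n⟧ ⟶ R ⊗ Z)
    (c : Z⟦t'⟧ ⟶ U.cobar.B r (U.J ⊗ A)) : toR L P r A h2 (oc h3 x c) =
      oc h1 x (toB L Z r A h c) ≫ (csh R 1 _).hom := by
  rw [toR_apply, toB_apply, L.ΦR_oc r _ h h1 h2, oc_comp, Category.assoc]

theorem toR_mv (r : ℕ) {W A : T} (g : W ⟶ R ⊗ A) {t t' : ℤ} (h : t + (r : ℤ) = t')
    (c : P⟦t'⟧ ⟶ U.cobar.B r (U.J ⊗ W)) :
    toR L P r A h (c ≫ U.cobar.Bm (r + 1) g ≫ mvB U R (r + 1) A) =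
      toB L P r W h c ≫ (IBm F.I (r + 1) g)⟦(1 : ℤ)⟧' ≫ (IBmv F.I R (r + 1) A)⟦(1 : ℤ)⟧' := by
  have h1 : c ≫ U.cobar.Bm (r + 1) g ≫ mvB U R (r + 1) A =
      (c ≫ U.cobar.Bm r ((U.J ◁ g) ≫ sw U.J R A)) ≫ mvB U R r (U.J ⊗ A) := by
    rw [CobarData.Bm_comp, Category.assoc, Category.assoc]
    rfl
  have h2 := L.mv_ψ R r A
  have h3 := L.ψ_nat r g
  rw [h1, toR_apply, toB_apply, L.ΦR_mv, L.ΦB_nat, IBm_comp]
  simp only [Category.assoc]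
  rw [h2, reassoc_of% h3]

end Link

/-- **The Leibniz rule.** -/
theorem leibZ [IsTriangulated T] {q : ℕ} (hq : 1 ≤ q) {V A Z P : T} (i : 𝟙_ T ⟶ V)
    (a : V ⊗ A ⟶ A) (ha : uN i A ≫ a = 𝟙 A) {n M N tf te : ℤ} (hN : n + M = N)
    (htf : M + ((q + 1 : ℕ) : ℤ) = tf) (hte : N + ((q + 1 : ℕ) : ℤ) = te) (hoc : n + tf = te)
    (f : Z⟦M⟧ ⟶ R ⊗ A) (cf : Z⟦tf⟧ ⟶ U.cobar.B (q + 1) (U.J ⊗ A))
    (hf : dn U (q + 1) htf cf = f ≫ (U.ρ ▷ A)) (x : P⟦n⟧ ⟶ R ⊗ Z)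
    (cx : P⟦te⟧ ⟶ U.cobar.B (q + 1) (U.J ⊗ (V ⊗ Z⟦M⟧)))
    (hx : dn U (q + 1) hte cx = oc hN x (uN i (Z⟦M⟧)) ≫ (U.ρ ▷ (V ⊗ Z⟦M⟧))) :
    ∃ e : P⟦te⟧ ⟶ U.cobar.B (q + 1) (U.J ⊗ A),
      dn U (q + 1) hte e = (oc hN x f ≫ mulMap R A) ≫ (U.ρ ▷ A) ∧
      e ≫ unitMap R _ = oc hoc x cf +
        cx ≫ U.cobar.Bm (q + 2) (fV a f) ≫ mvB U R (q + 2) A := by
  obtain ⟨F, ⟨L⟩⟩ := exists_link U
  obtain ⟨Pk⟩ := H766.exists_npack F q hq
  have h3 : ∀ {Y : T} (g : Z⟦M⟧ ⟶ Y), (sh n M N hN x ≫ (csh R M Z).inv) ≫ (R ◁ g) =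
      oc hN x g := fun g => Category.assoc _ _ _
  obtain ⟨e, he1, he2⟩ := Pk.leibnizV i a ha f _ ((toB_lift L htf f cf).1 hf)
    (sh n M N hN x ≫ (csh R M Z).inv) _ (by rw [h3]; exact (toB_lift L hte _ cx).1 hx)
  rw [← Category.assoc _ (R ◁ f), h3] at he1
  rw [h3, oc_neg, Preadditive.neg_comp, Preadditive.neg_comp, ← neg_add] at he2
  obtain ⟨y, hy⟩ := (toB L P (q + 1) A hte).surjective (-e)
  refine ⟨y, (toB_lift L hte _ y).2 (by rw [hy, neg_neg, he1]), ?_⟩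
  apply (toR L P (q + 1) A hte).injective
  rw [toR_un, map_add, toR_oc L (q + 1) A htf hN hte hoc, toR_mv, hy, Preadditive.neg_comp]
  exact neg_eq_iff_eq_neg.2 he2

end Vale.Agent.P236T
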