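import Vale.Agent.P236T.Asm
import Vale.Agent.P257.H709.AlphaGen

/-!
# P236T: two products which vanish in filtration two
-/

open CategoryTheory MonoidalCategory Limits Pretriangulated MonObj

set_option linter.unusedSectionVars false

universe u

namespace Vale.Agent.P236T

open Vale.Agent.P251 Vale.Agent.P251.T Vale.Agent.P251.M Vale.Agent.P251.F Vale.Agent.P251.I
  Vale.Agent.P257 Vale.Agent.P257.H820 Vale.Agent.P257.H712
open Vale.Agent.P251.S hiding IC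

theorem cube_zero {ζ : HQ 1 54} {θ : HQ 2 54} (hb : bock rfl ζ = θ ∨ bock rfl ζ = -θ)
    (h : H.cup (n := 5) (u := 162) rfl rfl ζ (H.cup (n := 4) (u := 108) rfl rfl θ θ) = 0) :
    H.cup (n := 6) (u := 162) rfl rfl θ (H.cup (n := 4) (u := 108) rfl rfl θ θ) = 0 := by
  have h0 : bock (t := 3) rfl θ = 0 := by
    have h1 := bock_bock (t := 2) (r := 3) rfl rfl ζ
    rcases hb with hb | hb
    · rwa [hb] at h1
    · rwa [hb, map_neg, neg_eq_zero] at h1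
  have h1 := bock_cup (n := 4) (u := 108) (n' := 5) rfl rfl rfl rfl rfl θ θ
  have h2 := bock_cup (n := 5) (u := 162) (n' := 6) rfl rfl rfl rfl rfl ζ
    (H.cup (n := 4) (u := 108) rfl rfl θ θ)
  rw [h0, map_zero, map_zero, AddMonoidHom.zero_apply, smul_zero, add_zero] at h1
  rw [h, h1, map_zero, map_zero, smul_zero, add_zero] at h2
  rcases hb with hb | hb
  · rw [hb] at h2
    exact h2.symm
  · rw [hb, map_neg, AddMonoidHom.neg_apply, eq_comm, neg_eq_zero] at h2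
    exact h2

namespace Sk

variable {C : Couple.{u, u}} {S : Sk C} {θ : HQ 2 54} (Θ : S.Mu 2 54 106 θ)
  (hS : ∀ y : C.D 7 322, C.proj 322 (show 2 ≤ 7 by norm_num) y = 0)

include hS

theorem proj_six (y : C.D 6 322) (hy : S.jc (w := 164) rfl y = 0) :
    C.proj 322 (show 2 ≤ 6 by norm_num) y = 0 := by
  obtain ⟨y₁, h⟩ := S.of_jc _ y hy
  exact (h 2 (by norm_num)).trans (hS _)

theorem hs_one
    (h3 : H.cup (n := 6) (u := 162) rfl rfl θ (H.cup (n := 4) (u := 108) rfl rfl θ θ) = 0)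
    (v : C.D 0 4) : Θ.act (n := 216) (n' := 322) rfl (Θ.act (n := 110) rfl
      (Θ.μ (t := 2) rfl rfl v)) = 0 := by
  have h1 := Θ.proj_μ (b := 2) (s := 4) (t := 6) (r := 4) (n := 216) (n' := 322) (by norm_num)
    rfl rfl rfl (Θ.μ (s := 2) (n := 110) rfl rfl (Θ.μ rfl rfl v))
  refine Eq.trans (congrArg (C.proj 322 _) h1.symm) ((proj_proj C _ _ _).trans (proj_six (S := S) hS _ ?_))
  rw [Θ.jc_μ (s := 4) (t := 6) (n := 216) (n' := 322) (w := 110) (u := 164) rfl rfl rfl rfl rfl,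
    Θ.jc_μ (s := 2) (t := 4) (n := 110) (n' := 216) (w := 56) (u := 110) rfl rfl rfl rfl rfl,
    Θ.jc_μ (s := 0) (t := 2) (n := 4) (n' := 110) (w := 2) (u := 56) rfl rfl rfl rfl rfl,
    H.cup_assoc (a := 2) (b := 2) (c := 2) (ab := 4) (bc := 4) (n := 6) (u := 56) (v := 54)
      (w := 54) (uv := 110) (vw := 108) (r := 164) rfl rfl rfl rfl rfl rfl rfl rfl,
    H.cup_assoc (a := 0) (b := 2) (c := 4) (ab := 2) (bc := 6) (n := 6) (u := 2) (v := 54)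
      (w := 108) (uv := 56) (vw := 162) (r := 164) rfl rfl rfl rfl rfl rfl rfl rfl, h3, map_zero]

theorem hs_two (A : S.Mu 1 2 3 h0) (y : C.D 1 107)
    (h : H.cup (n := 5) (u := 162) rfl rfl (S.jc (w := 54) rfl y)
      (H.cup (n := 4) (u := 108) rfl rfl θ θ) = 0) :
    A.act (n := 319) (n' := 322) rfl (Θ.act (n := 213) rfl
      (Θ.μ (t := 2) rfl rfl (C.i 0 107 y))) = 0 := by
  have h1 := Θ.i_μ (s := 0) (t := 2) (n := 107) (n' := 213) rfl rfl y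
  have h2 := Θ.i_μ (s := 2) (t := 4) (n := 213) (n' := 319) rfl rfl (Θ.μ rfl rfl y)
  have h3 := A.proj_μ (b := 2) (s := 5) (t := 6) (r := 3) (n := 319) (n' := 322) (by norm_num)
    rfl rfl rfl (Θ.μ (s := 3) (n := 213) rfl rfl (Θ.μ rfl rfl y))
  have h4 : Θ.act (n := 213) (n' := 319) rfl (Θ.μ (t := 2) rfl rfl (C.i 0 107 y)) =
      C.proj 319 (show 2 ≤ 5 by norm_num) (Θ.μ (s := 3) (n := 213) rfl rfl (Θ.μ rfl rfl y)) := by
    rw [← h1, Mu.act, ← h2]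
    exact (C.proj_succ _ _ _).symm
  rw [h4]
  refine Eq.trans (congrArg (C.proj 322 _) h3.symm) ((proj_proj C _ _ _).trans (proj_six (S := S) hS _ ?_))
  rw [A.jc_μ (s := 5) (t := 6) (n := 319) (n' := 322) (w := 162) (u := 164) rfl rfl rfl rfl rfl,
    Θ.jc_μ (s := 3) (t := 5) (n := 213) (n' := 319) (w := 108) (u := 162) rfl rfl rfl rfl rfl,
    Θ.jc_μ (s := 1) (t := 3) (n := 107) (n' := 213) (w := 54) (u := 108) rfl rfl rfl rfl rfl,
    H.cup_assoc (a := 1) (b := 2) (c := 2) (ab := 3) (bc := 4) (n := 5) (u := 54) (v := 54)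
      (w := 54) (uv := 108) (vw := 108) (r := 162) rfl rfl rfl rfl rfl rfl rfl rfl, h,
    map_zero, AddMonoidHom.zero_apply]

end Sk

variable {T : Type u} [Category.{0} T] [Preadditive T] [HasZeroObject T] [HasShift T ℤ]
  [∀ n : ℤ, (shiftFunctor T n).Additive] [Pretriangulated T] [MonoidalCategory T]
  [SymmetricCategory T] [TensorTriangulated T] [HasCoproducts.{0} T] {D : MUData T} (G : Geo D)
  [MonoidalClosed T] [IsTriangulated T] [HasProducts.{0} T] [StableCat T]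

theorem tz_uN {e : ℤ} (g : (𝟙_ T)⟦e⟧ ⟶ 𝟙_ T) {V : T} (i : 𝟙_ T ⟶ V) (N : T) :
    tz g N ≫ uN i N = (sphTensor e N).inv ≫ ((g ≫ i) ▷ N) := by
  rw [tz, uN, comp_whiskerRight]
  simp only [Category.assoc, Iso.hom_inv_id_assoc]

/-- `π₃ M` is generated by `α₁`. -/
theorem Geo.pi_three {x : (𝟙_ T)⟦2 * (2 : ℤ)⟧ ⟶ G.U.cobar.B 1 (𝟙_ T)} (hx : G.Det x t1w)
    (y : (𝟙_ T)⟦(3 : ℤ)⟧ ⟶ G.M) :
    ∃ k : ℤ, y = k • (hat₁ G.U (e := 3) (by norm_num) x ≫ G.i) := by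
  have : Fact (Nat.Prime 3) := ⟨Nat.prime_three⟩
  obtain ⟨k, hk⟩ := H709.pi_gen D G.U (p := 3) (by norm_num) G.dist (v := 2) (by norm_num) isT1_t1
    isWt_t1 ((B.sphE T 2).inv ≫ (G.c 2).hom ≫ x) (by
      rw [Category.assoc, Category.assoc, Category.assoc, hx, G.ch_apply, Category.assoc,
        Iso.hom_inv_id_assoc]
      rfl) ((B.sphE T 2).inv ≫ (G.c 2).hom ≫ sh 3 1 (2 * 2) (by norm_num) y)
  refine ⟨k, (sh 3 1 (2 * 2) (by norm_num)).injective ?_⟩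
  rw [Category.assoc, Category.assoc, ← Preadditive.comp_zsmul, ← Preadditive.comp_zsmul,
    cancel_epi, cancel_epi] at hk
  rw [hk, map_zsmul, sh_comp, hat₁, AddEquiv.apply_symm_apply, Category.assoc]

theorem Geo.op_three {x : (𝟙_ T)⟦2 * (2 : ℤ)⟧ ⟶ G.U.cobar.B 1 (𝟙_ T)} (hx : G.Det x t1w)
    (a : (𝟙_ T)⟦(3 : ℤ)⟧ ⟶ 𝟙_ T) : ∃ k : ℤ, tz a (G.U.cobar.B 2 G.M) =
      k • tz (hat₁ G.U (e := 3) (by norm_num) x) (G.U.cobar.B 2 G.M) := by
  obtain ⟨k, hk⟩ := G.pi_three hx (a ≫ G.i)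
  obtain ⟨m, hm⟩ : ∃ m, uN G.i (G.U.cobar.B 2 G.M) ≫ m = 𝟙 _ := G.exists_action 1
  refine ⟨k, ?_⟩
  have h : tz a (G.U.cobar.B 2 G.M) ≫ uN G.i _ =
      (k • tz (hat₁ G.U (e := 3) (by norm_num) x) (G.U.cobar.B 2 G.M)) ≫ uN G.i _ := by
    rw [Preadditive.zsmul_comp, tz_uN, tz_uN, hk]
    exact (congrArg _ (tensorRight (G.U.cobar.B 2 G.M)).map_zsmul).trans
      (Preadditive.comp_zsmul _ _ _)
  rw [← Category.comp_id (tz a _), ← hm, reassoc_of% h, hm, Category.comp_id]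

/-- **The two products vanish.** -/
theorem Geo.hsurv (P : Top G.C) (hP : P.X = G.X)
    (hS : ∀ y : G.C.D 7 322, G.C.proj 322 (show 2 ≤ 7 by norm_num) y = 0)
    {z : Cob.wt Laz 1 54} (hz : Cc z) {y : G.C.D 1 107} (hy : G.C.j 1 107 y = G.cls rfl z)
    {b : Cob.wt Laz 2 54} (cb : Cc b)
    (hb : P236T.bock rfl (cl z.1 z.2 hz) = cl b.1 b.2 cb ∨
      P236T.bock rfl (cl z.1 z.2 hz) = -cl b.1 b.2 cb)
    {x : (𝟙_ T)⟦2 * (54 : ℤ)⟧ ⟶ G.U.cobar.B 2 (𝟙_ T)} (hx : G.Det x b)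
    (hE : ∀ u : HQ 4 108, H.cup (n := 5) (u := 162) rfl rfl (cl z.1 z.2 hz) u = 0) :
    (∀ v : (𝟙_ T)⟦(4 : ℤ)⟧ ⟶ G.M,
      op (hat₂ G.U (e := 106) (by norm_num) x) (G.U.cobar.B 2 G.M) (t := 218) (t' := 324) rfl
        (op (hat₂ G.U (e := 106) (by norm_num) x) _ (t := 112) rfl
          (sh 4 (2 * 54) 112 rfl v ≫ G.xM x)) = 0) ∧
    ∀ a : (𝟙_ T)⟦(3 : ℤ)⟧ ⟶ 𝟙_ T, op a (G.U.cobar.B 2 G.M) (t := 321) (t' := 324) rfl
      (op (hat₂ G.U (e := 106) (by norm_num) x) _ (t := 215) rfl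
        (sh 107 (2 * 54) 215 rfl (G.eD (t := 107) rfl (G.C.i 0 107 y)) ≫ G.xM x)) = 0 := by
  obtain ⟨X, V, A, B, td, lb, bk, un⟩ := P
  obtain rfl : X = G.X := hP
  let P : Top G.C := ⟨G.X, V, A, B, td, lb, bk, un⟩
  let Θ := P.mu (G.mulA (e := 106) (by norm_num) (by norm_num) b _ (G.xM_det hx)) cb (by norm_num)
  have hΘ : G.Act (by norm_num) x (hat₂ G.U (e := 106) (by norm_num) x) :=
    G.act_two _ _ ⟨54, rfl⟩ (by norm_num) x
  have k1 : ∀ {n n' t t' : ℤ} (hn : n + 106 = n') (h : n + ((2 : ℕ) : ℤ) = t)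
      (h' : n' + ((2 : ℕ) : ℤ) = t') (k : t + 106 = t'), ∃ ε : ℤ, ∀ w : G.C.D 2 n,
        op (hat₂ G.U (e := 106) (by norm_num) x) _ k (G.eD h w) = ε • G.eD h' (Θ.act hn w) := by
    intro n n' t t' hn h h' k
    subst h h'
    obtain ⟨ε, h1, h2⟩ := hΘ (s := 2) hn
    refine ⟨ε, fun w => ?_⟩
    refine Eq.trans ?_ (congrArg (ε • ·) (h2 w).symm)
    rcases h1 with rfl | rfl <;> simp
  have k2 : ∀ {n n' t t' : ℤ} (hn : n + 106 = n') (h : n + ((0 : ℕ) : ℤ) = t)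
      (h' : n' + ((2 : ℕ) : ℤ) = t') (k : t + 2 * 54 = t') (w : G.C.D 0 n),
      sh t (2 * 54) t' k (G.eD h w) ≫ G.xM x = G.eD h' (Θ.μ rfl hn w) := by
    intro n n' t t' hn h h' k w
    refine Eq.trans ?_ (G.eD_mu (by norm_num) (G.xM x) rfl hn h h' k w).symm
    exact congrArg _ ((Category.comp_id _).symm.trans (Category.id_comp _).symm)
  refine ⟨fun v => ?_, fun a => ?_⟩
  · obtain ⟨v, rfl⟩ := (G.eD (s := 0) (n := 4) (t := 4) rfl).surjective v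
    obtain ⟨ε₁, e₁⟩ := k1 (n := 110) (n' := 216) (t := 112) (t' := 218) rfl rfl rfl rfl
    obtain ⟨ε₂, e₂⟩ := k1 (n := 216) (n' := 322) (t := 218) (t' := 324) rfl rfl rfl rfl
    rw [k2 (n := 4) (n' := 110) (t := 4) (t' := 112) rfl rfl rfl, e₁, map_zsmul, e₂,
      Sk.hs_one Θ hS (cube_zero hb (hE _)), map_zero, smul_zero, smul_zero]
  · obtain ⟨α, hα⟩ := G.exists_alpha
    obtain ⟨k, hk⟩ := G.op_three hα a
    obtain ⟨ε₁, e₁⟩ := k1 (n := 213) (n' := 319) (t := 215) (t' := 321) rfl rfl rfl rfl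
    have hA : G.Act (by norm_num) α (hat₁ G.U (e := 3) (by norm_num) α) :=
      G.act_one _ _ ⟨2, rfl⟩ (by norm_num) α
    obtain ⟨ε, h1, h2⟩ := hA (s := 2) (n := 319) (n' := 322) rfl
    have h3 := Sk.hs_two Θ hS (P.mu (G.mulA (e := 3) (by norm_num) (by norm_num) t1w _
      (G.xM_det hα)) cc_t1 (by norm_num)) y
      ((congrArg (fun t => H.cup rfl rfl t _) (G.X.jc_eq rfl hy hz)).trans (hE _))
    have h4 := ((h2 _).symm.trans (congrArg _ h3)).trans (map_zero _)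
    have h5 : op (hat₁ G.U (e := 3) (by norm_num) α) (G.U.cobar.B 2 G.M) (t := 321) (t' := 324) rfl
        (G.eD (t := 321) rfl (Θ.act (n := 213) (n' := 319) rfl (Θ.μ (t := 2) rfl rfl (G.C.i 0 107 y)))) = 0 := by
      rcases h1 with rfl | rfl
      · exact (one_smul _ _).symm.trans h4
      · exact neg_eq_zero.1 ((neg_one_zsmul _).symm.trans h4)
    rw [k2 (n := 107) (n' := 213) (t := 107) (t' := 215) rfl rfl rfl, e₁, map_zsmul, op_apply, hk, Preadditive.comp_zsmul,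
      ← op_apply, h5, smul_zero, smul_zero]

end Vale.Agent.P236T
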