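import Vale.Agent.P236T.Geo

/-!
# P236T: exchanging two adjacent factors of the tower acts as `-1` on the second term
-/

open CategoryTheory MonoidalCategory Limits Pretriangulated MonObj Opposite

set_option linter.unusedSectionVars false

universe v u

namespace Vale.Agent.P236T

open Vale.Agent.P251 Vale.Agent.P251.T Vale.Agent.P251.M Vale.Agent.P251.F Vale.Agent.P251.I
  Vale.Agent.P257 Vale.Agent.P257.H314 Vale.Agent.P257.H820
open Vale.Agent.P251.S hiding IC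

variable {T : Type u} [Category.{v} T] [Preadditive T] [HasZeroObject T] [HasShift T ℤ]
  [∀ n : ℤ, (shiftFunctor T n).Additive] [Pretriangulated T] [MonoidalCategory T]
  [SymmetricCategory T] [TensorTriangulated T]

namespace Swap

variable {R : T} [MonObj R] [IsCommMonObj R] (U : UnitCof R)

variable (R) in
/-- The map of tensor powers with vertices `f 0, f 1, …`. -/
def am (m n : ℕ) (f : ℕ → ℕ) : Am R m ⟶ Am R (n + 1) :=
  Am.map R fun i : Fin m => (⟨min (f i) n, by omega⟩ : Fin (n + 1))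

instance (m n : ℕ) (f : ℕ → ℕ) : IsMonHom (am R m n f) := Am.isMonHom_map R _

theorem map_eq_am {m n : ℕ} (α : Fin m → Fin (n + 1)) (f : ℕ → ℕ)
    (h : ∀ i : Fin m, (α i : ℕ) = f i) : Am.map R α = am R m n f :=
  congrArg (Am.map R) (funext fun i => Fin.ext (by
    have := (α i).2
    simp only [← h i]
    omega))

theorem am_congr {m n : ℕ} {f g : ℕ → ℕ} (h : ∀ i < m, f i = g i) : am R m n f = am R m n g :=
  congrArg (Am.map R) (funext fun i => Fin.ext (by simp only [h i i.2]))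

theorem am_comp {l m n : ℕ} (f g : ℕ → ℕ) (hg : ∀ i < l, g i ≤ m) :
    am R l m g ≫ am R (m + 1) n f = am R l n fun i => f (g i) :=
  (Am.map_comp R _ _).symm.trans (congrArg (Am.map R) (funext fun i => Fin.ext (by
    simp only [Function.comp_apply, min_eq_left (hg i i.2)])))

theorem am_id (n : ℕ) : am R (n + 1) n (fun i => i) = 𝟙 _ :=
  (map_eq_am id _ fun _ => rfl).symm.trans (Am.map_id R)

theorem am_succ {m n : ℕ} {f : ℕ → ℕ} (hf : ∀ i < m, f i ≤ n) (hl : f m = n + 1) :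
    am R (m + 1) (n + 1) f = am R m n f ▷ R := by
  refine Am.map_eq_of R _ _ fun j => Fin.lastCases ?_ (fun k => ?_) j
  · rw [Am.v_last, inrM_whiskerRight, ← Am.v_last]
    exact congrArg (Am.v R) (Fin.ext (by simp only [Fin.val_last, hl, min_self]))
  · rw [Am.v_castSucc, Category.assoc, inlM_whiskerRight, am, Am.v_map_assoc, ← Am.v_castSucc]
    refine congrArg (Am.v R) (Fin.ext ?_)
    have := hf k k.2
    simp only [Fin.val_castSucc]
    omega

/-- The transposition of `i` and `i + 1`. -/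
def tr (i j : ℕ) : ℕ := if j = i then i + 1 else if j = i + 1 then i else j

theorem am_tr (p : ℕ) : am R (p + 3) (p + 2) (tr (p + 1)) =
    (α_ (Am R (p + 1)) R R).hom ≫ (Am R (p + 1) ◁ (β_ R R).hom) ≫ (α_ (Am R (p + 1)) R R).inv := by
  have h1 : inlM R R ≫ (β_ R R).hom = inrM R R := by
    rw [inlM, inrM, Category.assoc, BraidedCategory.braiding_naturality_right,
      braiding_tensorUnit_right]
    simp
  have h2 : inrM R R ≫ (β_ R R).hom = inlM R R := by
    rw [← h1, Category.assoc, SymmetricCategory.symmetry, Category.comp_id]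
  have h3 := inrM_associator (Am R (p + 1)) R R
  refine Am.map_eq_of R _ _ fun j => Fin.lastCases ?_ (fun k => Fin.lastCases ?_ (fun l => ?_) k) j
  · rw [Am.v_last, reassoc_of% h3, inrM_whiskerLeft_assoc, reassoc_of% h2, inrM_associator_inv,
      inlM_whiskerRight, ← Am.v_last, ← Am.v_castSucc]
    exact congrArg (Am.v R) (Fin.ext (by simp [tr]))
  · rw [Am.v_castSucc, Am.v_last, Category.assoc, inlM_associator_assoc, inrM_whiskerLeft_assoc,
      inrM_whiskerLeft_assoc, reassoc_of% h1, ← reassoc_of% h3, Iso.hom_inv_id, Category.comp_id]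
    exact (Am.v_last R (p + 2)).symm.trans (congrArg (Am.v R) (Fin.ext (by simp [tr])))
  · rw [Am.v_castSucc, Am.v_castSucc, Category.assoc, Category.assoc, inlM_associator_assoc,
      inlM_whiskerLeft_assoc, inlM_whiskerLeft_assoc, inlM_associator_inv, ← Category.assoc,
      ← Am.v_castSucc, ← Am.v_castSucc]
    refine congrArg (Am.v R) (Fin.ext ?_)
    have := l.2
    simp only [Fin.val_castSucc, tr]
    split_ifs <;> omega

/-- The projection to the first term of the tower. -/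
def tq (n : ℕ) (Y : T) : Am R (n + 1) ⊗ Y ⟶ R ⊗ U.cobar.B n Y :=
  (U.θ (n + 1) Y).inv ≫ U.cobar.q n Y

theorem tq_nat (n : ℕ) {X Y : T} (f : X ⟶ Y) :
    (Am R (n + 1) ◁ f) ≫ tq U n Y = tq U n X ≫ (R ◁ U.cobar.Bm n f) := by
  have h := U.θ_naturality (n + 1) f
  rw [tq, tq, Category.assoc, eq_comm, Iso.inv_comp_eq, ← reassoc_of% h, Iso.hom_inv_id_assoc]
  exact (U.cobar.q_naturality n f).symm

theorem tq_succ (n : ℕ) (Y : T) : tq U (n + 1) Y =
    (α_ (Am R (n + 1)) R Y).hom ≫ (Am R (n + 1) ◁ (U.ρ ▷ Y)) ≫ tq U n (U.J ⊗ Y) := by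
  have h := U.θ_naturality (n + 1) (U.ρ ▷ Y)
  rw [tq, tq, U.θ_succ (n + 1) Y, Iso.trans_inv, Iso.symm_inv, Category.assoc, CobarData.q_succ]
  congr 1
  rw [Iso.inv_comp_eq, ← reassoc_of% h, Iso.hom_inv_id_assoc]

theorem whisk_tq {A : T} {n : ℕ} (g : A ⟶ Am R (n + 1)) (Y : T) :
    ((g ▷ R) ▷ Y) ≫ tq U (n + 1) Y =
      (α_ A R Y).hom ≫ (A ◁ (U.ρ ▷ Y)) ≫ (g ▷ (U.J ⊗ Y)) ≫ tq U n (U.J ⊗ Y) := by
  rw [tq_succ, associator_naturality_left_assoc, whisker_exchange_assoc]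

theorem face {n j : ℕ} (h1 : 1 ≤ j) (h2 : j ≤ n) (Y : T) :
    (am R n n (sk j) ▷ Y) ≫ tq U n Y = 0 := by
  induction n generalizing Y with
  | zero => omega
  | succ n ih =>
    obtain h | rfl := h2.lt_or_eq
    · rw [am_succ (fun i hi => (sk_le j i).trans hi) (sk_of_le (by omega)), whisk_tq,
        ih (by omega), comp_zero, comp_zero]
    · have h3 : (inlM (Am R (n + 1)) R ▷ Y) ≫ (α_ _ _ _).hom = Am R (n + 1) ◁ unitMap R Y := by
        rw [inlM, unitMap]
        monoidal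
      rw [← map_eq_am Fin.castSucc _ fun i => (sk_of_lt i.2).symm, Am.map_castSucc, tq_succ,
        reassoc_of% h3, ← MonoidalCategory.whiskerLeft_comp_assoc, U.unitMap_ρ,
        MonoidalPreadditive.whiskerLeft_zero, zero_comp]

theorem miss {m n j : ℕ} {g : ℕ → ℕ} (h1 : 1 ≤ j) (h2 : j ≤ n + 1)
    (hg : ∀ i < m, g i ≠ j ∧ g i ≤ n + 1) (Y : T) :
    (am R m (n + 1) g ▷ Y) ≫ tq U (n + 1) Y = 0 := by
  rw [am_congr (g := fun i => sk j (if g i < j then g i else g i - 1)) fun i hi => by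
      have := hg i hi
      unfold sk
      split_ifs <;> omega,
    ← am_comp (m := n) _ _ fun i hi => by
      have := hg i hi
      split_ifs <;> omega,
    comp_whiskerRight, Category.assoc, face U h1 h2, comp_zero]

theorem tr_tq {p s n : ℕ} (h : p + 2 + s = n) (Y : T) :
    (am R (n + 1) n (tr (p + 1)) ▷ Y) ≫ tq U n Y = tq U n Y ≫ (R ◁ ((eB U h Y).inv ≫
      U.cobar.Bm p (sw U.J U.J (U.cobar.B s Y)) ≫ (eB U h Y).hom)) := by
  subst h
  induction s generalizing Y with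
  | zero =>
    have h1 : (((α_ (Am R (p + 1)) R R).hom ≫ (Am R (p + 1) ◁ (β_ R R).hom) ≫
        (α_ (Am R (p + 1)) R R).inv) ▷ Y) ≫ (α_ _ R Y).hom ≫ (α_ _ R (R ⊗ Y)).hom =
        (α_ _ R Y).hom ≫ (α_ _ R (R ⊗ Y)).hom ≫ (Am R (p + 1) ◁ sw R R Y) := by
      rw [sw]
      monoidal
    have h2 : tq U (p + 2) Y = (α_ _ R Y).hom ≫ (α_ _ R (R ⊗ Y)).hom ≫ (Am R (p + 1) ◁
        ((R ◁ (U.ρ ▷ Y)) ≫ (U.ρ ▷ (U.J ⊗ Y)))) ≫ tq U p (U.J ⊗ U.J ⊗ Y) := by
      rw [tq_succ, tq_succ, associator_naturality_right_assoc,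
        MonoidalCategory.whiskerLeft_comp_assoc]
    have h3 : sw R R Y ≫ (R ◁ (U.ρ ▷ Y)) ≫ (U.ρ ▷ (U.J ⊗ Y)) =
        ((R ◁ (U.ρ ▷ Y)) ≫ (U.ρ ▷ (U.J ⊗ Y))) ≫ sw U.J U.J Y := by
      rw [← sw_nat_left_assoc, ← sw_nat_mid, whisker_exchange, Category.assoc]
    change (am R (p + 3) (p + 2) (tr (p + 1)) ▷ Y) ≫ tq U (p + 2) Y =
      tq U (p + 2) Y ≫ (R ◁ (𝟙 _ ≫ U.cobar.Bm p (sw U.J U.J Y) ≫ 𝟙 _))
    rw [am_tr, h2, reassoc_of% h1, ← MonoidalCategory.whiskerLeft_comp_assoc, h3,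
      MonoidalCategory.whiskerLeft_comp, Category.assoc, tq_nat, Category.id_comp, Category.comp_id,
      Category.assoc, Category.assoc, Category.assoc]
  | succ s ih =>
    change (am R (p + 2 + s + 1 + 1) (p + 2 + s + 1) (tr (p + 1)) ▷ Y) ≫ tq U (p + 2 + s + 1) Y = _
    rw [am_succ (fun i hi => by unfold tr; split_ifs <;> omega)
      (by unfold tr; split_ifs <;> omega), whisk_tq, ih]
    exact ((congrArg (· ≫ _) (tq_succ U (p + 2 + s) Y)).trans
      ((Category.assoc _ _ _).trans (congrArg _ (Category.assoc _ _ _)))).symm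

theorem d_am {P : T} (n : ℕ) (Y : T) (c : P ⟶ Am R n ⊗ Y) {Z : T} (g : Am R (n + 1) ⊗ Y ⟶ Z) :
    c ≫ (U.θ n Y).inv ≫ U.cobar.d n Y ≫ (U.θ (n + 1) Y).hom ≫ g =
      ∑ k ∈ Finset.range (n + 1), (-1 : ℤ) ^ k • c ≫ (am R n n (sk k) ▷ Y) ≫ g := by
  have h := U.d_θ n Y
  rw [reassoc_of% h, Iso.inv_hom_id_assoc, Preadditive.sum_comp, Preadditive.comp_sum,
    ← Fin.sum_univ_eq_sum_range fun k => (-1 : ℤ) ^ k • c ≫ (am R n n (sk k) ▷ Y) ≫ g]
  refine Finset.sum_congr rfl fun i _ => ?_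
  rw [Preadditive.zsmul_comp, Preadditive.comp_zsmul, map_eq_am i.succAbove (sk i) fun j => ?_]
  simp only [Fin.succAbove, sk, Fin.lt_def, Fin.val_castSucc]
  split_ifs <;> rfl

/-- The degenerate simplex that gives the homotopy. -/
def ph (i j : ℕ) : ℕ := if j ≤ i + 1 then j else if j = i + 2 then i else j - 1

theorem swap {p s n : ℕ} (h : p + 2 + s = n + 1) {P Y : T} (f : P ⟶ R ⊗ U.cobar.B (n + 1) Y)
    (hf : f ≫ U.cobar.D (n + 1) Y = 0) : ∃ u : P ⟶ R ⊗ U.cobar.B n Y,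
      f ≫ (R ◁ ((eB U h Y).inv ≫ U.cobar.Bm p (sw U.J U.J (U.cobar.B s Y)) ≫ (eB U h Y).hom)) =
        -f + u ≫ U.cobar.D n Y := by
  obtain ⟨c₀, hc, hq⟩ : ∃ c : P ⟶ U.cobar.Q (n + 2) Y,
      c ≫ U.cobar.d (n + 2) Y = 0 ∧ c ≫ U.cobar.q (n + 1) Y = f :=
    U.cobar.exists_cocycle (F := preadditiveCoyoneda.obj (op P)) (n + 1) Y f hf
  obtain ⟨c, rfl⟩ : ∃ c : P ⟶ Am R (n + 2) ⊗ Y, c₀ = c ≫ (U.θ (n + 2) Y).inv :=
    ⟨c₀ ≫ (U.θ (n + 2) Y).hom, by rw [Category.assoc, Iso.hom_inv_id, Category.comp_id]⟩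
  obtain rfl : c ≫ tq U (n + 1) Y = f := (Category.assoc _ _ _).symm.trans hq
  let F : ℕ → (P ⟶ R ⊗ U.cobar.B (n + 1) Y) := fun k =>
    c ≫ (am R (n + 2) (n + 1) (fun j => ph (p + 1) (sk k j)) ▷ Y) ≫ tq U (n + 1) Y
  have h1 : ∑ k ∈ Finset.range (n + 3), (-1 : ℤ) ^ k • F k = 0 := by
    have := d_am U (n + 2) Y c ((am R (n + 3) (n + 1) (ph (p + 1)) ▷ Y) ≫ tq U (n + 1) Y)
    rw [reassoc_of% hc, zero_comp] at this
    refine Eq.trans (Finset.sum_congr rfl fun k _ => ?_) this.symm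
    rw [← comp_whiskerRight_assoc, am_comp _ _ fun i hi => (sk_le k i).trans hi]
  have h2 : ∑ k ∈ {0, p + 1, p + 3}, (-1 : ℤ) ^ k • F k = 0 := by
    refine (Finset.sum_subset (fun k hk => ?_) fun k hk hk' => ?_).trans h1
    · simp only [Finset.mem_insert, Finset.mem_singleton, Finset.mem_range] at hk ⊢
      omega
    · simp only [Finset.mem_insert, Finset.mem_singleton, Finset.mem_range] at hk hk'
      have h3 : F k = c ≫ 0 := congrArg _ (miss U (j := if k ≤ p + 2 then k else k - 1)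
        (by split_ifs <;> omega) (by split_ifs <;> omega)
        (fun i hi => by unfold ph sk; split_ifs <;> omega) Y)
      rw [h3, comp_zero, smul_zero]
  let u : P ⟶ Am R (n + 1) ⊗ Y := c ≫ (am R (n + 2) n (fun j => ph (p + 1) (j + 1) - 1) ▷ Y)
  have h3 : F 0 = (u ≫ tq U n Y) ≫ U.cobar.D n Y := by
    have h4 := d_am U (n + 1) Y u (tq U (n + 1) Y)
    rw [Finset.sum_eq_single_of_mem 0 (Finset.mem_range.2 (by omega)) fun k hk hk' => by
      rw [face U (by omega) (by have := Finset.mem_range.1 hk; omega), comp_zero, smul_zero],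
      pow_zero, one_smul] at h4
    refine Eq.trans ?_ (h4.symm.trans ?_)
    · rw [Category.assoc, ← comp_whiskerRight_assoc,
        am_comp _ _ fun i hi => by unfold ph; split_ifs <;> omega,
        am_congr (g := fun j => ph (p + 1) (sk 0 j)) fun i hi => by
          unfold ph sk; split_ifs <;> omega]
    · rw [tq, tq, Iso.hom_inv_id_assoc, CobarData.d_q, Category.assoc u,
        Category.assoc (U.θ (n + 1) Y).inv]
  have h4 : F (p + 1) = (c ≫ tq U (n + 1) Y) ≫ (R ◁ ((eB U h Y).inv ≫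
      U.cobar.Bm p (sw U.J U.J (U.cobar.B s Y)) ≫ (eB U h Y).hom)) := by
    rw [Category.assoc, ← tr_tq U h Y, am_congr (g := fun j => ph (p + 1) (sk (p + 1) j))
      fun i hi => by unfold tr ph sk; split_ifs <;> omega]
  have h5 : F (p + 3) = c ≫ tq U (n + 1) Y := by
    change c ≫ (_ ▷ Y) ≫ _ = _
    rw [am_congr (g := fun j => j) fun i hi => by unfold ph sk; split_ifs <;> omega, am_id,
      id_whiskerRight, Category.id_comp]
  rw [Finset.sum_insert (by simp), Finset.sum_pair (by omega), h3, h4, h5, pow_zero, one_smul,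
    show p + 3 = p + 1 + 2 from rfl, pow_add _ (p + 1), neg_one_sq, _root_.mul_one, ← smul_add] at h2
  refine ⟨-((-1 : ℤ) ^ (p + 1) • u ≫ tq U n Y), ?_⟩
  rw [Preadditive.neg_comp, Preadditive.zsmul_comp, eq_neg_of_add_eq_zero_left h2, smul_neg, neg_neg,
    smul_smul, ← mul_pow, neg_one_mul, neg_neg, one_pow, one_smul, neg_add_cancel_comm_assoc]

end Swap

variable [HasCoproducts.{0} T] {D : MUData T} (G : Geo D)

/-- Exchanging two adjacent factors acts as `-1` on cocycles modulo coboundaries. -/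
theorem Geo.swap {p s n : ℕ} (h : p + 2 + s = n + 1) {w : ℤ}
    (f : (𝟙_ T)⟦2 * w⟧ ⟶ D.R ⊗ G.U.cobar.B (n + 1) G.M)
    (hf : f ≫ G.U.cobar.D (n + 1) G.M = 0) :
    ∃ u : (𝟙_ T)⟦2 * w⟧ ⟶ D.R ⊗ G.U.cobar.B n G.M,
      f ≫ (D.R ◁ ((eB G.U h G.M).inv ≫ G.U.cobar.Bm p (sw G.U.J G.U.J (G.U.cobar.B s G.M)) ≫
        (eB G.U h G.M).hom)) = -f + u ≫ G.U.cobar.D n G.M :=
  Swap.swap G.U h f hf

end Vale.Agent.P236T
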