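import Vale.Agent.P236T.Leib1
import Vale.Agent.P236T.CupG
import Vale.Agent.P236T.Swap

/-!
# P236T: the Leibniz rule in the couple of the Moore spectrum
-/

open CategoryTheory MonoidalCategory Limits Pretriangulated MonObj

set_option linter.unusedSectionVars false

universe v u

namespace Vale.Agent.P236T

open Vale.Agent.P251 Vale.Agent.P251.T Vale.Agent.P251.M Vale.Agent.P251.F Vale.Agent.P251.I
  Vale.Agent.P257 Vale.Agent.P257.H820 Vale.Agent.P257.H712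
open Vale.Agent.P251.S hiding IC

variable {T : Type u} [Category.{v} T] [Preadditive T] [HasZeroObject T] [HasShift T ℤ]
  [∀ n : ℤ, (shiftFunctor T n).Additive] [Pretriangulated T] [MonoidalCategory T]
  [SymmetricCategory T] [TensorTriangulated T] [HasCoproducts.{0} T] {D : MUData T} (G : Geo D)

namespace Geo

theorem dn_proj {r s b : ℕ} (h : r + s = b) {m t t' : ℤ} (h₁ : m + s = t) (h₂ : m + b = t')
    (h₃ : t + r = t') (y : G.C.D b m) : dn G.U r h₃ (G.eD h₂ y ≫ (eB G.U h G.M).inv) =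
      G.eD h₁ (G.C.proj m (show s ≤ b by omega) y) := by
  induction r generalizing b t' with
  | zero =>
    obtain rfl : s = b := by omega
    obtain rfl : t = t' := by omega
    rw [Couple.proj_self]
    exact Category.comp_id _
  | succ r ih =>
    obtain ⟨b, rfl⟩ : ∃ b', b = b' + 1 := ⟨r + s, by omega⟩
    have hb : r + s = b := by omega
    have h₄ : m + b = t + r := by omega
    have h₅ : t + r + 1 = t' := by push_cast at h₃; omega
    rw [Couple.proj_succ _ _ (show s ≤ b by omega), ← ih hb h₄ rfl]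
    refine dn_succ G.U h₃ rfl h₅ _ _ ?_
    rw [sh_comp, G.eD_i h₄ h₂ h₅, Category.assoc, Category.assoc, ← cancel_mono
      (((eB G.U hb G.M).hom)⟦(1 : ℤ)⟧'), Category.assoc, Category.assoc, Category.assoc,
      Category.assoc, ← Functor.map_comp, Iso.inv_hom_id, CategoryTheory.Functor.map_id,
      Category.comp_id, ← eB_bd G.U hb h, Iso.inv_hom_id_assoc]

/-- Lifts of boundaries. -/
theorem lift_iff {r s b : ℕ} (h : r + 1 + s = b) {n m t t' : ℤ} (hm : n = m + 1) (h₁ : n + s = t)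
    (h₂ : m + b = t') (h₃ : t + r = t') (e : G.C.E s n) (y : G.C.D b m) :
    G.C.proj m (show s + 1 ≤ b by omega) y = G.C.k s n m hm e ↔
      dn G.U r (A := G.U.J ⊗ G.U.cobar.B s G.M) h₃ (G.eD h₂ y ≫ (eB G.U h G.M).inv) =
        G.eE h₁ e ≫ (G.U.ρ ▷ G.U.cobar.B s G.M) := by
  have h' : r + (s + 1) = b := by omega
  have h₄ : m + ((s + 1 : ℕ) : ℤ) = t := by push_cast; omega
  have h2 : G.U.cobar.Bm r (eB G.U (Nat.add_comm 1 s) G.M).hom ≫ (eB G.U h' G.M).hom =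
      (eB G.U h G.M).hom := (Bm_eB G.U _ h' h rfl G.M).trans (Category.id_comp _)
  have h4 : (eB G.U h' G.M).inv =
      (eB G.U h G.M).inv ≫ G.U.cobar.Bm r (eB G.U (Nat.add_comm 1 s) G.M).hom := by
    rw [Iso.eq_inv_comp, ← h2, Category.assoc, Iso.hom_inv_id, Category.comp_id]
  rw [← (G.eD h₄).injective.eq_iff, G.eD_k hm h₁ h₄, ← G.dn_proj h' h₄ h₂ h₃, h4, k_eq,
    ← Category.assoc, ← Category.assoc, dn_nat]
  exact cancel_mono _

theorem cE_D {s : ℕ} {w : ℤ} {z : Cob.wt Laz s w} (hz : Cc z) :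
    G.cE z ≫ G.U.cobar.D s G.M = 0 := by
  rw [← G.cE_d, cE_eq, (G.chM_eq_zero (z := Cob.dwt Laz s w z)).2 hz, zero_comp]

theorem prim_cE {s : ℕ} {w : ℤ} {z : Cob.wt Laz s w} (hz : Cc z) :
    G.cE z ≫ unitMap D.R _ = G.cE z ≫ (D.R ◁ unitMap D.R (G.U.cobar.B s G.M)) := by
  have h : G.cE z ≫ G.U.cobar.k s G.M ≫ unitMap D.R _ = 0 := G.cE_D hz
  rw [k_eq, Category.assoc, unitMap_nat, ← Category.assoc, ← Category.assoc,
    Preadditive.IsIso.comp_right_eq_zero, Category.assoc] at h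
  exact prim_of G.U _ h

theorem cE_eq_q {s : ℕ} {w : ℤ} (z : Cob.wt Laz s w) : G.cE z =
    (G.ch z ≫ G.U.cobar.q s (𝟙_ T)) ≫ (D.R ◁ G.U.cobar.Bm s G.i) := by
  rw [cE_apply, CobarData.q_naturality, Category.assoc]

/-- The product with a cocycle. -/
theorem cE_cpw {a s t : ℕ} {v w u : ℤ} (hs : a + s = t) (hw : v + w = u)
    (k : 2 * v + 2 * w = 2 * u) (y : Cob.wt Laz a v) {z : Cob.wt Laz s w} (hz : Cc z) :
    G.cE (cpw hs hw y z) = (oc k (G.ch y ≫ G.U.cobar.q a (𝟙_ T)) (rf G.U (G.cE z) a) ≫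
      mulMap D.R _) ≫ (D.R ◁ (eB G.U hs G.M).hom) := by
  have hs' : a + (s + 1) = t + 1 := by omega
  have h1 := prim_q G.U _ (G.prim_cE hz) a
  have h2 : ((D.R ◁ G.ch z) ≫ om G.U s (𝟙_ T)) ≫ G.U.cobar.Qm (s + 1) G.i ≫
      G.U.cobar.q s G.M = (D.R ◁ G.cE z) ≫ mulMap D.R _ := by
    rw [cE_apply, MonoidalCategory.whiskerLeft_comp, MonoidalCategory.whiskerLeft_comp,
      Category.assoc, Category.assoc, Category.assoc, om_q, om_nat_assoc]
  have h3 := G.U.κQ_q (2 * w) a (𝟙_ T)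
  rw [cE_apply, G.ch_cpw hs hw hs' k, oc, rf, sh_comp, MonoidalCategory.whiskerLeft_comp]
  simp only [Category.assoc]
  rw [← eQ_nat_assoc, eQ_q G.U hs hs', ← CobarData.Qm_comp_assoc, ← CobarData.Qm_comp_assoc,
    Category.assoc, h2, ← reassoc_of% h3]
  exact congrArg _ (congrArg _ ((reassoc_of% h1) _))

/-- The action of the cyclic permutations on the `E₂`-term. -/
theorem rot_sign (r : ℕ) {s n : ℕ} (h : r + s = n) {w : ℤ}
    (f : (𝟙_ T)⟦2 * w⟧ ⟶ D.R ⊗ G.U.cobar.B (n + 1) G.M)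
    (hf : f ≫ G.U.cobar.D (n + 1) G.M = 0) : ∃ u : (𝟙_ T)⟦2 * w⟧ ⟶ D.R ⊗ G.U.cobar.B n G.M,
      f ≫ (D.R ◁ rot G.U r s h G.M) = (-1 : ℤ) ^ r • f + u ≫ G.U.cobar.D n G.M := by
  induction r generalizing s with
  | zero => exact ⟨0, by rw [rot_zero, MonoidalCategory.whiskerLeft_id]; simp⟩
  | succ r ih =>
    obtain ⟨u, hu⟩ := ih (show r + (s + 1) = n by omega)
    have h'' : r + 2 + s = n + 1 := by omega
    obtain ⟨u', hu'⟩ := G.swap h'' ((-1 : ℤ) ^ r • f + u ≫ G.U.cobar.D n G.M) (by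
      rw [Preadditive.add_comp, Preadditive.zsmul_comp, hf, Category.assoc, CobarData.D_D]
      simp)
    refine ⟨u' - u, ?_⟩
    rw [rot_succ G.U h (by omega) h'', MonoidalCategory.whiskerLeft_comp, reassoc_of% hu, hu',
      Preadditive.sub_comp, pow_succ, mul_neg_one, neg_smul]
    abel

variable [MonoidalClosed T] [IsTriangulated T] [HasProducts.{0} T] [StableCat T]

theorem exists_action (s : ℕ) : ∃ a : G.M ⊗ (G.U.J ⊗ G.U.cobar.B s G.M) ⟶
    G.U.J ⊗ G.U.cobar.B s G.M, uN G.i _ ≫ a = 𝟙 _ := by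
  obtain ⟨g, hg⟩ : ∃ g : G.U.cobar.B s G.M ⊗ G.M ⟶ G.U.cobar.B s G.M,
      𝟙 (G.U.cobar.B s G.M) = ((ρ_ _).inv ≫ (_ ◁ G.i)) ≫ g :=
    Triangle.yoneda_exact₂ _ (redTri_distinguished G.dist _) (𝟙 _)
      ((Category.comp_id _).trans (G.three_B s))
  refine ⟨sw _ _ _ ≫ (G.U.J ◁ ((β_ _ _).hom ≫ g)), ?_⟩
  rw [uN_sw_assoc, ← MonoidalCategory.whiskerLeft_comp, ← MonoidalCategory.whiskerLeft_id, hg, uN,
    Category.assoc, BraidedCategory.braiding_naturality_left_assoc,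
    leftUnitor_inv_braiding_assoc, Category.assoc]

/-- **The Leibniz rule.** -/
theorem leib : G.X.Leib := by
  intro s s₁ s₅ s₆ v w u v' w' u' nx mx nz mz n m hw e₁ e₅ e₆ k k₁ k₂ hx hmx hx' hz hmz hz' h hm h'
    x yx θ z yz γ cx cz cγ rx rz
  subst e₅ e₆
  obtain ⟨a, ha⟩ := G.exists_action s
  have t1 : 2 * v + ((3 + 1 : ℕ) : ℤ) = 2 * v' := by push_cast at *; omega
  have t2 : 2 * w + ((3 + 1 : ℕ) : ℤ) = 2 * w' := by push_cast at *; omega
  have t3 : 2 * u + ((3 + 1 : ℕ) : ℤ) = 2 * u' := by push_cast at *; omega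
  have k0 : 2 * v + 2 * w = 2 * u := by omega
  have k1 : 2 * v' + 2 * w = 2 * u' := by omega
  have k2 : 2 * v + 2 * w' = 2 * u' := by omega
  have g5 : 3 + 1 + 1 + s = s + 5 := by omega
  have g6 : 6 + s = s + 5 + 1 := by omega
  have g7 : 3 + 1 + 1 + s₁ = s + 5 + 1 := by omega
  have g8 : 1 + (s + 5) = s + 5 + 1 := by omega
  have hf := (G.lift_iff g5 hmz hz hz' t2 _ yz).1 rz.1
  have hy := (G.lift_iff (show 3 + 1 + 1 + 1 = 6 from rfl) hmx hx hx' t1 _ yx).1 rx.1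
  have jz := (G.j_eq_cls hz' yz γ).1 rz.2
  have jx := (G.j_eq_cls hx' yx θ).1 rx.2
  rw [X_cls, eE_cls] at hf hy
  rw [cE_eq_q] at hy jx
  obtain ⟨e, he1, he2⟩ := leibC G.U (q := 3) (by norm_num) G.i a ha
    ⟨w.toNat, by rw [Int.toNat_of_nonneg hw]⟩ k0 t1 t2 t3 k2 k1 _ _ hf _ (G.eD hx' yx)
    ((congrArg _ (Category.comp_id _).symm).trans hy) _ jx
  have h1 : G.cE (cpw g8 k₂ x γ) = oc k2 (G.ch x ≫ G.U.cobar.q 1 (𝟙_ T))
      ((csh G.U.J (2 * w') (𝟙_ T)).inv ≫ (G.U.J ◁ G.eD hz' yz)) ≫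
        (D.R ◁ (eB G.U g8 G.M).hom) := by
    rw [G.cE_cpw g8 k₂ k2 x cγ, rf_one, ← jz, MonoidalCategory.whiskerLeft_comp, Category.assoc,
      Category.assoc, whisker_unitMap_sw, ← Category.assoc (csh _ _ _).inv, oc_comp,
      Category.assoc, whiskerLeft_unitMap_mulMap_assoc]
  obtain ⟨b, hb⟩ := G.rot_sign 5 g5 _ (G.cE_D (z := cpw g8 k₂ x γ) (d_cp_mem g8 cx cγ))
  have h2 : m + 1 + ((s + 5 : ℕ) : ℤ) = 2 * u' := by push_cast at *; omega
  refine ⟨(G.eD h').symm (e ≫ (eB G.U g6 G.M).hom), ?_, -G.C.k (s + 5) (m + 1) m rfl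
    ((G.eE h2).symm b), fun r hr => ?_, ?_⟩
  · rw [G.lift_iff g7 hm h h' t3, AddEquiv.apply_symm_apply, X_cls, eE_cls,
      G.cE_cpw e₁ k k0 x cz, Category.assoc, Category.assoc _ (D.R ◁ _), whisker_exchange,
      ← Category.assoc _ (G.U.ρ ▷ _), ← he1, ← dn_nat]
    refine congrArg _ (congrArg _ ?_)
    rw [Iso.comp_inv_eq]
    exact ((Bm_eB G.U (p := 5) e₁ g7 g6 rfl G.M).trans (Category.id_comp _)).symm
  · obtain rfl : r = s + 5 := by omega
    rw [Couple.proj_succ _ _ le_rfl, Couple.proj_self, map_neg, G.C.i_k, neg_zero]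
  · apply (G.eE h').injective
    have h3 := G.eE_d (s := s + 5) rfl h2 h' ((G.eE h2).symm b)
    rw [AddEquiv.apply_symm_apply] at h3
    rw [X_cls, eE_cls, map_add, map_add, map_neg, map_neg, eE_j, AddEquiv.apply_symm_apply,
      Category.assoc, unitMap_nat, reassoc_of% he2, Preadditive.add_comp, map_sub,
      G.cE_cpw g6 k₁ k1 θ cz]
    refine (congrArg (fun t => _ + -t) h3).trans ?_
    have h4 : (oc k2 (G.ch x ≫ G.U.cobar.q 1 (𝟙_ T)) ((csh G.U.J (2 * w') (𝟙_ T)).inv ≫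
        (G.U.J ◁ (G.eD hz' yz ≫ (eB G.U g5 G.M).inv))) ≫
          (D.R ◁ inB G.U G.U.J (3 + 2) (G.U.cobar.B s G.M))) ≫ (D.R ◁ (eB G.U g6 G.M).hom) =
        G.cE (cpw g8 k₂ x γ) ≫ (D.R ◁ rot G.U 5 s g5 G.M) := by
      rw [h1, rot, Category.assoc, Category.assoc, ← MonoidalCategory.whiskerLeft_comp,
        ← MonoidalCategory.whiskerLeft_comp, Iso.hom_inv_id_assoc, ← oc_comp, ← oc_comp,
        MonoidalCategory.whiskerLeft_comp]
      simp only [Category.assoc]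
    refine (congrArg (fun t => t + _ + -_) (h4.trans hb)).trans ?_
    rw [show (-1 : ℤ) ^ 5 = -1 from rfl, neg_one_zsmul]
    abel

end Geo

end Vale.Agent.P236T
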