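import Vale.Agent.P236T.Dn

/-!
# P236T: the Leibniz rule for left multiplication by a class of degree one
-/

open CategoryTheory MonoidalCategory Limits Pretriangulated MonObj

set_option linter.unusedSectionVars false

universe v u

namespace Vale.Agent.P236T

open Vale.Agent.P251 Vale.Agent.P251.T Vale.Agent.P257 Vale.Agent.P257.H820
  Vale.Agent.P257.H712
open Vale.Agent.P251.S hiding IC

variable {T : Type u} [Category.{v} T] [Preadditive T] [HasZeroObject T] [HasShift T ℤ]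
  [∀ n : ℤ, (shiftFunctor T n).Additive] [Pretriangulated T] [MonoidalCategory T]
  [SymmetricCategory T] [TensorTriangulated T]

variable {R : T} [MonObj R] (U : UnitCof R)

theorem oc_unit {P X Y : T} {n k m : ℤ} (h : n + k = m) (y : P⟦n⟧ ⟶ X) (H : X⟦k⟧ ⟶ R ⊗ Y) :
    oc h (y ≫ unitMap R X) H ≫ mulMap R Y = sh n k m h y ≫ H := by
  rw [oc, sh_comp, ← unitMap_csh]
  simp only [Category.assoc, Iso.hom_inv_id_assoc]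
  rw [← unitMap_nat_assoc, unitMap_mulMap, Category.comp_id]

theorem oc_post {P X Z Z' Y : T} {n k m : ℤ} (h : n + k = m) (x : P⟦n⟧ ⟶ X ⊗ Z) (u : Z ⟶ Z')
    (H : Z'⟦k⟧ ⟶ Y) : oc h (x ≫ (X ◁ u)) H = oc h x (u⟦k⟧' ≫ H) := by
  rw [oc, oc, sh_comp, Category.assoc, csh_inv_nat_assoc, MonoidalCategory.whiskerLeft_comp]

/-- Cocycles of the `E₁`-term are primitive. -/
theorem prim_of {X A : T} (f : X ⟶ R ⊗ A) (hf : f ≫ (U.ρ ▷ A) ≫ unitMap R (U.J ⊗ A) = 0) :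
    f ≫ unitMap R (R ⊗ A) = f ≫ (R ◁ unitMap R A) := by
  obtain ⟨σ, -, h⟩ : ∃ σ : R ⊗ (U.J ⊗ A) ⟶ R ⊗ (R ⊗ A), σ ≫ (R ◁ (U.ρ ▷ A)) = 𝟙 _ ∧
    (R ◁ (U.ρ ▷ A)) ≫ σ = 𝟙 _ - mulMap R A ≫ (R ◁ unitMap R A) := U.cobar.split A
  rw [unitMap_nat] at hf
  have h1 : f ≫ unitMap R (R ⊗ A) ≫ (R ◁ (U.ρ ▷ A)) ≫ σ = 0 := by rw [reassoc_of% hf, zero_comp]
  rw [h, Preadditive.comp_sub, Preadditive.comp_sub, Category.comp_id, unitMap_mulMap_assoc] at h1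
  exact sub_eq_zero.1 h1

/-- The right factor of a product in the `E₁`-term. -/
noncomputable def rf {A : T} {k : ℤ} (f : (𝟙_ T)⟦k⟧ ⟶ R ⊗ A) (a : ℕ) :
    (U.cobar.B a (𝟙_ T))⟦k⟧ ⟶ R ⊗ U.cobar.B a A :=
  U.κB k a (𝟙_ T) ≫ U.cobar.Bm a f ≫ mvB U R a A

theorem rf_one {A : T} {k : ℤ} (f : (𝟙_ T)⟦k⟧ ⟶ R ⊗ A) :
    rf U f 1 = (csh U.J k (𝟙_ T)).inv ≫ (U.J ◁ f) ≫ sw U.J R A :=
  congrArg₂ (· ≫ ·) (Category.id_comp _) (congrArg (fun z => (U.J ◁ f) ≫ z) (Category.comp_id _))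

theorem rf_succ {A : T} {k : ℤ} (f : (𝟙_ T)⟦k⟧ ⟶ R ⊗ A) (a : ℕ) : rf U f (a + 1) =
    U.κB k a (U.J ⊗ 𝟙_ T) ≫ U.cobar.Bm a (rf U f 1) ≫ mvB U R a (U.J ⊗ A) := by
  rw [rf_one, CobarData.Bm_comp, CobarData.Bm_comp, rf, U.κB_succ, mvB_succ]
  simp only [Category.assoc]
  rfl

/-- **The Leibniz rule**, for `x` in degree one. -/
theorem leibC [IsTriangulated T] {q : ℕ} (hq : 1 ≤ q) {V A P : T} (i : 𝟙_ T ⟶ V)
    (a : V ⊗ (U.J ⊗ A) ⟶ U.J ⊗ A) (ha : uN i (U.J ⊗ A) ≫ a = 𝟙 _) {n n' k N tf te : ℤ}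
    (hk : ∃ l : ℕ, k = 2 * (l : ℤ)) (hN : n + k = N) (hn' : n + ((q + 1 : ℕ) : ℤ) = n')
    (htf : k + ((q + 1 : ℕ) : ℤ) = tf) (hte : N + ((q + 1 : ℕ) : ℤ) = te) (hoc : n + tf = te)
    (hoc' : n' + k = te) (f : (𝟙_ T)⟦k⟧ ⟶ R ⊗ A)
    (c : (𝟙_ T)⟦tf⟧ ⟶ U.cobar.B (q + 1) (U.J ⊗ A)) (hf : dn U (q + 1) htf c = f ≫ (U.ρ ▷ A))
    (x : P⟦n⟧ ⟶ R ⊗ (U.J ⊗ 𝟙_ T)) (y : P⟦n'⟧ ⟶ U.cobar.B (q + 1) (U.J ⊗ (U.J ⊗ V)))
    (hx : dn U (q + 1) hn' y = (x ≫ (R ◁ (U.J ◁ i))) ≫ (U.ρ ▷ (U.J ⊗ V)))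
    (θ : P⟦n'⟧ ⟶ R ⊗ U.cobar.B (q + 3) (𝟙_ T))
    (hθ : y ≫ unitMap R _ = θ ≫ (R ◁ U.cobar.Bm (q + 3) i)) :
    ∃ e : P⟦te⟧ ⟶ U.cobar.B (q + 1) (U.J ⊗ (U.J ⊗ A)),
      dn U (q + 1) hte e = (oc hN x (rf U f 1) ≫ mulMap R _) ≫ (U.ρ ▷ (U.J ⊗ A)) ∧
      e ≫ unitMap R _ = oc hoc x ((csh U.J tf (𝟙_ T)).inv ≫ (U.J ◁ c)) ≫
        (R ◁ inB U U.J (q + 2) A) + oc hoc' θ (rf U f (q + 3)) ≫ mulMap R _ := by
  obtain ⟨g, hg⟩ : ∃ g : (U.J ⊗ V)⟦k⟧ ⟶ V ⊗ (U.J ⊗ 𝟙_ T)⟦k⟧,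
      (U.J ◁ i)⟦k⟧' ≫ g = uN i ((U.J ⊗ 𝟙_ T)⟦k⟧) := by
    refine ⟨((U.J ◁ (ρ_ V).inv) ≫ sw U.J V (𝟙_ T))⟦k⟧' ≫ (csh V k _).inv, ?_⟩
    have h1 : i ≫ (ρ_ V).inv = uN i (𝟙_ T) := by
      rw [uN, unitors_inv_equal, rightUnitor_inv_naturality]
    rw [← Functor.map_comp_assoc, ← MonoidalCategory.whiskerLeft_comp_assoc, h1, whisker_uN_sw,
      ← uN_csh, Category.assoc, Iso.hom_inv_id, Category.comp_id]
  have hf' : dn U (q + 1) htf (((csh U.J tf (𝟙_ T)).inv ≫ (U.J ◁ c)) ≫ inB U U.J (q + 2) A) =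
      rf U f 1 ≫ (U.ρ ▷ (U.J ⊗ A)) := by
    have h1 : ((csh U.J tf (𝟙_ T)).inv ≫ (U.J ◁ c)) ≫ inB U U.J (q + 2) A =
        ((csh U.J tf (𝟙_ T)).inv ≫ (U.J ◁ c) ≫ inB U U.J (q + 1) (U.J ⊗ A)) ≫
          U.cobar.Bm (q + 1) (sw U.J U.J A) := by
      rw [inB_succ]
      simp only [Category.assoc]
    rw [h1, dn_nat, dn_in, hf, rf_one, MonoidalCategory.whiskerLeft_comp]
    simp only [Category.assoc]
    rw [sw_nat_mid]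
  have hx' : dn U (q + 1) hte (sh n' k te hoc' y ≫ U.κB k (q + 2) (U.J ⊗ V) ≫
      U.cobar.Bm (q + 2) g) = oc hN x (uN i _) ≫ (U.ρ ▷ (V ⊗ (U.J ⊗ 𝟙_ T)⟦k⟧)) := by
    have h1 : sh n' k te hoc' y ≫ U.κB k (q + 2) (U.J ⊗ V) ≫ U.cobar.Bm (q + 2) g =
        (sh n' k te hoc' y ≫ U.κB k (q + 1) (U.J ⊗ (U.J ⊗ V))) ≫
          U.cobar.Bm (q + 1) ((csh U.J k (U.J ⊗ V)).inv ≫ (U.J ◁ g)) := by
      rw [U.κB_succ k (q + 1), CobarData.Bm_comp]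
      simp only [Category.assoc]
      rfl
    rw [h1, dn_nat, dn_shift U hk (q + 1) hn' hte hN hoc', hx, ← hg, ← oc_post, oc, sh_comp,
      Category.assoc, csh_inv_tlMap_assoc, ← whisker_exchange, Category.assoc, Category.assoc]
  obtain ⟨e, h1, h2⟩ := leibZ U hq i a ha hN htf hte hoc _ _ hf' x _ hx'
  refine ⟨e, h1, h2.trans (congrArg₂ (· + ·) (oc_comp _ _ _ _) ?_)⟩
  rw [Category.assoc, ← oc_unit, hθ, oc_post]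
  congr 2
  have h3 := U.κB_nat k (q + 2) (U.J ◁ i)
  have h4 : U.cobar.Bm (q + 2) ((U.J ◁ i)⟦k⟧') ≫ U.cobar.Bm (q + 2) g ≫
      U.cobar.Bm (q + 2) (fV a (rf U f 1)) = U.cobar.Bm (q + 2) (rf U f 1) := by
    rw [← CobarData.Bm_comp, ← CobarData.Bm_comp, reassoc_of% hg, uN_fV i a ha]
  rw [rf_succ U f (q + 2), ← h4]
  simp only [Category.assoc]
  exact (reassoc_of% h3) _

/-! ### moving a factor through the tower -/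

theorem Bm_eqToHom (r : ℕ) {X Y : T} (h : X = Y) :
    U.cobar.Bm r (eqToHom h) = eqToHom (congrArg (U.cobar.B r) h) := by
  subst h
  exact U.cobar.Bm_id r X

@[reassoc]
theorem Bm_eB {p r s m n l : ℕ} (h₁ : r + s = n) (h₂ : p + n = l) (h₃ : m + s = l)
    (h₄ : p + r = m) (Y : T) : U.cobar.Bm p (eB U h₁ Y).hom ≫ (eB U h₂ Y).hom =
      (eB U h₄ (U.cobar.B s Y)).hom ≫ (eB U h₃ Y).hom := by
  simp only [eB, eqToIso.hom, Bm_eqToHom, eqToHom_trans]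

theorem k_eq (s : ℕ) (Y : T) :
    U.cobar.k s Y = (U.ρ ▷ U.cobar.B s Y) ≫ (eB U (Nat.add_comm 1 s) Y).hom :=
  ((congrArg (· ≫ U.cobar.k s Y) (MonoidalCategory.whiskerLeft_id R _)).trans
    (Category.id_comp _)).symm.trans (eB_k U (Nat.zero_add s) _ Y)

/-- The cyclic permutation of the first `r + 1` factors. -/
noncomputable def rot (r s : ℕ) {n : ℕ} (h : r + s = n) (Y : T) :
    U.cobar.B (n + 1) Y ⟶ U.cobar.B (n + 1) Y :=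
  (eB U (Nat.add_comm 1 n) Y).inv ≫ (U.J ◁ (eB U h Y).inv) ≫ inB U U.J r (U.cobar.B s Y) ≫
    (eB U (show r + 1 + s = n + 1 by omega) Y).hom

theorem rot_zero {s n : ℕ} (h : 0 + s = n) (Y : T) : rot U 0 s h Y = 𝟙 _ := by
  rw [rot, inB_zero]
  simp only [eB, eqToIso.hom, eqToIso.inv, whiskerLeft_eqToHom]
  erw [Category.id_comp]
  simp

theorem rot_succ {r s n : ℕ} (h : r + 1 + s = n) (h' : r + (s + 1) = n)
    (h'' : r + 2 + s = n + 1) (Y : T) : rot U (r + 1) s h Y = rot U r (s + 1) h' Y ≫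
      (eB U h'' Y).inv ≫ U.cobar.Bm r (sw U.J U.J (U.cobar.B s Y)) ≫ (eB U h'' Y).hom := by
  have h1 := inB_nat U U.J r (eB U (Nat.add_comm 1 s) Y).hom
  have h2 : U.cobar.Bm r (eB U (Nat.add_comm 1 s) Y).hom ≫ (eB U h' Y).hom = (eB U h Y).hom :=
    (Bm_eB U _ h' h rfl Y).trans (Category.id_comp _)
  have h3 : U.cobar.Bm r (U.J ◁ (eB U (Nat.add_comm 1 s) Y).hom) ≫
      (eB U (show r + 1 + (s + 1) = n + 1 by omega) Y).hom = (eB U h'' Y).hom :=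
    (Bm_eB U (p := r + 1) _ _ h'' rfl Y).trans (Category.id_comp _)
  have h4 : (eB U h' Y).inv = (eB U h Y).inv ≫ U.cobar.Bm r (eB U (Nat.add_comm 1 s) Y).hom := by
    rw [Iso.eq_inv_comp, ← h2, Category.assoc, Iso.hom_inv_id, Category.comp_id]
  rw [rot, rot, inB_succ, h4, MonoidalCategory.whiskerLeft_comp]
  simp only [Category.assoc]
  refine congrArg _ (congrArg _ ?_)
  refine Eq.trans ?_ ((reassoc_of% h1) _).symm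
  refine congrArg _ ?_
  refine Eq.trans ?_ ((reassoc_of% h3) _).symm
  exact (Iso.hom_inv_id_assoc _ _).symm

end Vale.Agent.P236T
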