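import Vale.Agent.P236T.Geo

/-!
# P236T: the action of the stable stems
-/

open CategoryTheory MonoidalCategory Limits Pretriangulated MonObj

set_option linter.unusedSectionVars false

universe v u

namespace Vale.Agent.P236T

open Vale.Agent.P251 Vale.Agent.P251.T Vale.Agent.P251.M Vale.Agent.P251.F Vale.Agent.P251.I
  Vale.Agent.P257 Vale.Agent.P257.H820
open Vale.Agent.P251.S hiding IC

variable {T : Type u} [Category.{v} T] [Preadditive T] [HasZeroObject T] [HasShift T ℤ]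
  [∀ n : ℤ, (shiftFunctor T n).Additive] [Pretriangulated T] [MonoidalCategory T]
  [SymmetricCategory T] [TensorTriangulated T]

/-- The self map of `N` defined by an element of a stable stem. -/
noncomputable def tz {e : ℤ} (g : (𝟙_ T)⟦e⟧ ⟶ 𝟙_ T) (N : T) : N⟦e⟧ ⟶ N :=
  (sphTensor e N).inv ≫ (g ▷ N) ≫ (λ_ N).hom

@[reassoc]
theorem tz_nat {e : ℤ} (g : (𝟙_ T)⟦e⟧ ⟶ 𝟙_ T) {N N' : T} (f : N ⟶ N') :
    f⟦e⟧' ≫ tz g N' = tz g N ≫ f := by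
  rw [tz, tz, Category.assoc, Category.assoc, ← leftUnitor_naturality, ← whisker_exchange_assoc,
    ← Category.assoc, ← Category.assoc (sphTensor e N).inv]
  congr 1
  rw [Iso.comp_inv_eq, Category.assoc, sphTensor_naturality, Iso.inv_hom_id_assoc]

/-- The action of an element of a stable stem on the homotopy groups of `N`. -/
noncomputable def op {e : ℤ} (g : (𝟙_ T)⟦e⟧ ⟶ 𝟙_ T) (N : T) {t t' : ℤ} (h : t + e = t') :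
    ((𝟙_ T)⟦t⟧ ⟶ N) →+ ((𝟙_ T)⟦t'⟧ ⟶ N) :=
  AddMonoidHom.mk' (fun y => sh t e t' h y ≫ tz g N) fun _ _ => by
    rw [map_add, Preadditive.add_comp]

theorem op_apply {e : ℤ} (g : (𝟙_ T)⟦e⟧ ⟶ 𝟙_ T) (N : T) {t t' : ℤ} (h : t + e = t')
    (y : (𝟙_ T)⟦t⟧ ⟶ N) : op g N h y = sh t e t' h y ≫ tz g N := rfl

/-- The image in filtration zero of an element of filtration one. -/
noncomputable def hat₁ {R : T} [MonObj R] (U : UnitCof R) {e k : ℤ} (h : e + 1 = k)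
    (x : (𝟙_ T)⟦k⟧ ⟶ U.cobar.B 1 (𝟙_ T)) : (𝟙_ T)⟦e⟧ ⟶ 𝟙_ T :=
  (sh (P := 𝟙_ T) (Y := 𝟙_ T) e 1 k h).symm (x ≫ U.bd 0 (𝟙_ T))

/-- The image in filtration zero of an element of filtration two. -/
noncomputable def hat₂ {R : T} [MonObj R] (U : UnitCof R) {e k : ℤ} (h : e + 1 + 1 = k)
    (x : (𝟙_ T)⟦k⟧ ⟶ U.cobar.B 2 (𝟙_ T)) : (𝟙_ T)⟦e⟧ ⟶ 𝟙_ T :=
  (sh (P := 𝟙_ T) (Y := 𝟙_ T) e 1 (e + 1) rfl).symm
    ((sh (P := 𝟙_ T) (Y := (𝟙_ T)⟦(1 : ℤ)⟧) (e + 1) 1 k h).symm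
      (x ≫ U.bd 1 (𝟙_ T) ≫ (U.bd 0 (𝟙_ T))⟦(1 : ℤ)⟧'))

/-- The relations `α β³ = 0` and `β ∈ ⟨α, α, α⟩` for the action on the homotopy groups of `N`. -/
structure OpRel (α : (𝟙_ T)⟦(3 : ℤ)⟧ ⟶ 𝟙_ T) (β : (𝟙_ T)⟦(10 : ℤ)⟧ ⟶ 𝟙_ T) (N : T) : Prop where
  bbba : ∀ {n₀ n₁ n₂ n₃ n₄ : ℤ} (h₁ : n₀ + 3 = n₁) (h₂ : n₁ + 10 = n₂)
    (h₃ : n₂ + 10 = n₃) (h₄ : n₃ + 10 = n₄) (y : (𝟙_ T)⟦n₀⟧ ⟶ N),
    op β N h₄ (op β N h₃ (op β N h₂ (op α N h₁ y))) = 0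
  abbb : ∀ {n₀ n₁ n₂ n₃ n₄ : ℤ} (h₁ : n₀ + 10 = n₁) (h₂ : n₁ + 10 = n₂)
    (h₃ : n₂ + 10 = n₃) (h₄ : n₃ + 3 = n₄) (y : (𝟙_ T)⟦n₀⟧ ⟶ N),
    op α N h₄ (op β N h₃ (op β N h₂ (op β N h₁ y))) = 0
  bracket : ∀ {n₀ n₁ n₂ n₃ : ℤ} (h₁ : n₀ + 3 = n₁) (h₂ : n₀ + 10 = n₃) (h₃ : n₂ + 3 = n₃)
    (y : (𝟙_ T)⟦n₀⟧ ⟶ N), op α N h₁ y = 0 →
      ∃ Y : (𝟙_ T)⟦n₂⟧ ⟶ N, op β N h₂ y = op α N h₃ Y

variable [HasCoproducts.{0} T] {D : MUData T} (G : Geo D)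

/-- The image in the filtration of `y` of the product of `y` and `x` is, up to a sign, the product
of `y` and `g`. -/
def Geo.Act {a : ℕ} {k e : ℤ} (he : e + a = k) (x : (𝟙_ T)⟦k⟧ ⟶ G.U.cobar.B a (𝟙_ T))
    (g : (𝟙_ T)⟦e⟧ ⟶ 𝟙_ T) : Prop :=
  ∀ {s : ℕ} {n n' : ℤ} (hn : n + e = n'), ∃ ε : ℤ, (ε = 1 ∨ ε = -1) ∧ ∀ y : G.C.D s n,
    G.eD rfl (G.C.proj n' (Nat.le_add_right s a) (G.mu he (G.xM x) rfl hn y)) =
      ε • op g (G.U.cobar.B s G.M) (show n + s + e = n' + s by omega) (G.eD rfl y)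

variable [MonoidalClosed T] [IsTriangulated T] [HasProducts.{0} T] [StableCat T]

theorem Geo.three_B (s : ℕ) : ((3 : ℕ) : ℤ) • 𝟙 (G.U.cobar.B s G.M) = 0 := by
  have h : ∀ (n : ℕ) {X Y : T} (f : X ⟶ Y), G.U.cobar.Bm s (n • f) = n • G.U.cobar.Bm s f := by
    intro n X Y f
    induction n with
    | zero => rw [zero_smul, zero_smul, CobarData.Bm_zero']
    | succ n ih => rw [succ_nsmul, succ_nsmul, CobarData.Bm_add, ih]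
  have h1 := G.three_id
  rw [natCast_zsmul] at h1 ⊢
  rw [← CobarData.Bm_id, ← h, h1, CobarData.Bm_zero']

/-- The relations on the stages of the tower. -/
theorem Geo.toda_of {x : (𝟙_ T)⟦2 * (2 : ℤ)⟧ ⟶ G.U.cobar.B 1 (𝟙_ T)}
    {y : (𝟙_ T)⟦2 * (6 : ℤ)⟧ ⟶ G.U.cobar.B 2 (𝟙_ T)} {α : (𝟙_ T)⟦(3 : ℤ)⟧ ⟶ 𝟙_ T}
    {β : (𝟙_ T)⟦(10 : ℤ)⟧ ⟶ 𝟙_ T} (hα : G.Act (by norm_num) x α) (hβ : G.Act (by norm_num) y β)
    (h : ∀ s, OpRel α β (G.U.cobar.B s G.M)) (A : MulA G.X t1w 3) (B : MulA G.X b0w 10)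
    (hA : ∀ {s t : ℕ} {n n' : ℤ} (hs : s + 1 = t) (hn : n + 3 = n'),
      A.μ hs hn = G.mu (by norm_num) (G.xM x) hs hn)
    (hB : ∀ {s t : ℕ} {n n' : ℤ} (hs : s + 2 = t) (hn : n + 10 = n'),
      B.μ hs hn = G.mu (by norm_num) (G.xM y) hs hn) : Toda A B := by
  have kA : ∀ {s : ℕ} {n n' : ℤ} (hn : n + 3 = n'), ∃ ε : ℤ, ε * ε = 1 ∧ ∀ z : G.C.D s n,
      G.eD rfl (A.act hn z) =
        ε • op α (G.U.cobar.B s G.M) (show n + s + 3 = n' + s by omega) (G.eD rfl z) := by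
    intro s n n' hn
    obtain ⟨ε, h1, h2⟩ := hα (s := s) hn
    exact ⟨ε, by rcases h1 with rfl | rfl <;> norm_num, fun z => by rw [MulA.act, hA, h2]⟩
  have kB : ∀ {s : ℕ} {n n' : ℤ} (hn : n + 10 = n'), ∃ ε : ℤ, ε * ε = 1 ∧ ∀ z : G.C.D s n,
      G.eD rfl (B.act hn z) =
        ε • op β (G.U.cobar.B s G.M) (show n + s + 10 = n' + s by omega) (G.eD rfl z) := by
    intro s n n' hn
    obtain ⟨ε, h1, h2⟩ := hβ (s := s) hn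
    exact ⟨ε, by rcases h1 with rfl | rfl <;> norm_num, fun z => by rw [MulA.act, hB, h2]⟩
  refine ⟨fun {s _ _ _ _ _} h₁ h₂ h₃ h₄ z => ?_, fun {s _ _ _ _ _} h₁ h₂ h₃ h₄ z => ?_,
    fun {s n₀ _ n₂ n₃} h₁ h₂ h₃ z hz => ?_⟩
  · obtain ⟨_, -, e₁⟩ := kA (s := s) h₁
    obtain ⟨_, -, e₂⟩ := kB (s := s) h₂
    obtain ⟨_, -, e₃⟩ := kB (s := s) h₃
    obtain ⟨_, -, e₄⟩ := kB (s := s) h₄
    apply (G.eD rfl).injective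
    rw [e₄, e₃, e₂, e₁]
    simp only [map_zsmul, (h s).bbba, smul_zero, map_zero]
  · obtain ⟨_, -, e₁⟩ := kB (s := s) h₁
    obtain ⟨_, -, e₂⟩ := kB (s := s) h₂
    obtain ⟨_, -, e₃⟩ := kB (s := s) h₃
    obtain ⟨_, -, e₄⟩ := kA (s := s) h₄
    apply (G.eD rfl).injective
    rw [e₄, e₃, e₂, e₁]
    simp only [map_zsmul, (h s).abbb, smul_zero, map_zero]
  · obtain ⟨ε₁, f₁, e₁⟩ := kA (s := s) h₁
    obtain ⟨ε₂, -, e₂⟩ := kB (s := s) h₂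
    obtain ⟨ε₃, f₃, e₃⟩ := kA (s := s) h₃
    have h1 := congrArg (ε₁ • ·) (e₁ z)
    simp only [hz, map_zero, smul_zero, smul_smul, f₁, one_smul] at h1
    obtain ⟨Y, hY⟩ := (h s).bracket _ (show n₀ + s + 10 = n₃ + s by omega)
      (show n₂ + s + 3 = n₃ + s by omega) _ h1.symm
    refine ⟨(G.eD rfl).symm ((ε₃ * ε₂) • Y), (G.eD rfl).injective ?_⟩
    rw [e₂, e₃, hY, AddEquiv.apply_symm_apply, map_zsmul, smul_smul, ← _root_.mul_assoc, f₃, _root_.one_mul]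

end Vale.Agent.P236T
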