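import Vale.Agent.P236T.Iface
import Vale.Agent.P257.H712.Survive

/-!
# P236T: the properties of the exact couple of the Moore spectrum

`Cls C`: the `E₁`-term of the couple `C` is described by the cochains `Cob Laz` modulo three.
`MulA`: multiplication by a permanent cycle.  `Top C`: everything which the topological side has
to provide.
-/

universe u v

namespace Vale.Agent.P236T

open Vale.Agent.P251 Vale.Agent.P251.F Vale.Agent.P251.I Vale.Agent.P257.H314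
open Vale.Agent.P251.S hiding IC

/-- The cup product of homogeneous cochains. -/
noncomputable def cpw {a b n : ℕ} {v w u : ℤ} (h : a + b = n) (k : v + w = u)
    (x : Cob.wt Laz a v) (y : Cob.wt Laz b w) : Cob.wt Laz n u :=
  ⟨cp h x.1 y.1, isWt_cp h k x.2 y.2⟩

/-- A cocycle modulo three. -/
def Cc {s : ℕ} {w : ℤ} (z : Cob.wt Laz s w) : Prop := Cob.d s z.1 ∈ IC 3 1 (s + 1)

/-- The description of the `E₁`-term by cochains. -/
structure Cls (C : Couple.{u, v}) where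
  /-- the class of a cochain -/
  cls : ∀ {s : ℕ} {w n : ℤ}, n + s = 2 * w → Cob.wt Laz s w →+ C.E s n
  cls_IC : ∀ {s : ℕ} {w n : ℤ} (h : n + s = 2 * w) (z : Cob.wt Laz s w), z.1 ∈ IC 3 1 s →
    cls h z = 0
  cls_d : ∀ {s : ℕ} {w n m : ℤ} (h : n + s = 2 * w) (hm : n = m + 1)
    (h' : m + ((s + 1 : ℕ) : ℤ) = 2 * w) (z : Cob.wt Laz s w),
    C.d s n m hm (cls h z) = cls h' (Cob.dwt Laz s w z)
  surj : ∀ {s : ℕ} {w n : ℤ} (h : n + s = 2 * w) (e : C.E s n), C.IsCocycle e →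
    ∃ z, Cc z ∧ e = cls h z
  inj_zero : ∀ {w n : ℤ} (h : n + ((0 : ℕ) : ℤ) = 2 * w) (z : Cob.wt Laz 0 w), cls h z = 0 →
    z.1 ∈ IC 3 1 0
  inj_succ : ∀ {s : ℕ} {w n : ℤ} (h : n + ((s + 1 : ℕ) : ℤ) = 2 * w)
    (z : Cob.wt Laz (s + 1) w), Cc z → C.IsCobdy (cls h z) →
      ∃ y : Cob Laz s, z.1 - Cob.d s y ∈ IC 3 1 (s + 1)
  odd : ∀ {s : ℕ} {n : ℤ}, ¬ 2 ∣ n + s → ∀ e : C.E s n, e = 0
  conv : ∀ {s : ℕ} {m : ℤ}, m < s → ∀ y : C.D s m, y = 0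

variable {C : Couple.{u, v}}

/-- `y` lifts the boundary of the class of `z`, and has the class `γ`. -/
def Cls.Rel (X : Cls C) {s t : ℕ} {w u n m : ℤ} (h : n + s = 2 * w) (hm : n = m + 1)
    (hst : s + 1 ≤ t) (h' : m + t = 2 * u) (z : Cob.wt Laz s w) (y : C.D t m)
    (γ : Cob.wt Laz t u) : Prop :=
  C.proj m hst y = C.k s n m hm (X.cls h z) ∧ C.j t m y = X.cls h' γ

/-- The multiplication (on the right) by a permanent cycle `ζ` of filtration `a`, weight `v` and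
stem `e = 2 v - a`. -/
structure MulA (X : Cls C) {a : ℕ} {v : ℤ} (ζ : Cob.wt Laz a v) (e : ℤ) where
  /-- the multiplication -/
  μ : ∀ {s t : ℕ} {n n' : ℤ}, s + a = t → n + e = n' → C.D s n →+ C.D t n'
  i_μ : ∀ {s t : ℕ} {n n' : ℤ} (hs : s + a = t) (hn : n + e = n') (y : C.D (s + 1) n),
    C.i t n' (μ (show s + 1 + a = t + 1 by omega) hn y) = μ hs hn (C.i s n y)
  j_μ : ∀ {s t : ℕ} {n n' w u : ℤ} (hs : s + a = t) (hn : n + e = n') (hw : w + v = u)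
    (h : n + s = 2 * w) (h' : n' + t = 2 * u) (y : C.D s n) (z : Cob.wt Laz s w),
    C.j s n y = X.cls h z → C.j t n' (μ hs hn y) = X.cls h' (cpw hs hw z ζ)
  k_μ : ∀ {s t : ℕ} {n n' m m' w u : ℤ} (hs : s + a = t) (hm : m + e = m') (hw : w + v = u)
    (h : n + s = 2 * w) (h' : n' + t = 2 * u) (k : n = m + 1) (k' : n' = m' + 1)
    (z : Cob.wt Laz s w), μ (show s + 1 + a = t + 1 by omega) hm (C.k s n m k (X.cls h z)) =
      C.k t n' m' k' (X.cls h' (cpw hs hw z ζ))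

/-- The action of the image of the permanent cycle in filtration zero. -/
def MulA.act {X : Cls C} {a : ℕ} {v : ℤ} {ζ : Cob.wt Laz a v} {e : ℤ} (P : MulA X ζ e) {s : ℕ}
    {n n' : ℤ} (hn : n + e = n') (y : C.D s n) : C.D s n' :=
  C.proj n' (Nat.le_add_right s a) (P.μ rfl hn y)

/-- The Leibniz rule for `d₅` and left multiplication by a class of degree one. -/
def Cls.Leib (X : Cls C) : Prop :=
  ∀ {s s₁ s₅ s₆ : ℕ} {v w u v' w' u' nx mx nz mz n m : ℤ} (_ : 0 ≤ w) (e₁ : 1 + s = s₁)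
    (e₅ : s + 5 = s₅) (e₆ : s + 6 = s₆) (k : v + w = u) (k₁ : v' + w = u') (k₂ : v + w' = u')
    (hx : nx + ((1 : ℕ) : ℤ) = 2 * v) (hmx : nx = mx + 1) (hx' : mx + ((6 : ℕ) : ℤ) = 2 * v')
    (hz : nz + s = 2 * w) (hmz : nz = mz + 1) (hz' : mz + s₅ = 2 * w')
    (h : n + s₁ = 2 * u) (hm : n = m + 1) (h' : m + s₆ = 2 * u')
    (x : Cob.wt Laz 1 v) (yx : C.D 6 mx) (θ : Cob.wt Laz 6 v')
    (z : Cob.wt Laz s w) (yz : C.D s₅ mz) (γ : Cob.wt Laz s₅ w'),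
    Cc x → Cc z → Cc γ → X.Rel hx hmx (by omega) hx' x yx θ → X.Rel hz hmz (by omega) hz' z yz γ →
    ∃ y : C.D s₆ m, C.proj m (show s₁ + 1 ≤ s₆ by omega) y =
        C.k s₁ n m hm (X.cls h (cpw e₁ k x z)) ∧
      ∃ g : C.D s₆ m, (∀ (r : ℕ) (hr : r + 1 = s₆), C.proj m (show r ≤ s₆ by omega) g = 0) ∧
        C.j s₆ m (y + g) = X.cls h' (cpw (show 6 + s = s₆ by omega) k₁ θ z -
          cpw (show 1 + s₅ = s₆ by omega) k₂ x γ)

/-- The differential anticommutes with the Bockstein homomorphism. -/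
def Cls.Bock (X : Cls C) : Prop :=
  ∀ {s t : ℕ} {w u n m l : ℤ} (_ : s + 5 = t) (h : n + s = 2 * w) (hm : n = m + 1)
    (hl : m = l + 1) (h' : m + t = 2 * u) (h₁ : m + ((s + 1 : ℕ) : ℤ) = 2 * w)
    (h₁' : l + ((t + 1 : ℕ) : ℤ) = 2 * u) (x : Cob.wt Laz s w) (b : Cob.wt Laz (s + 1) w)
    (y : C.D t m) (γ : Cob.wt Laz t u) (c : Cob.wt Laz (t + 1) u),
    (3 : ℤ) • b.1 = Cob.d s x.1 → (3 : ℤ) • c.1 = Cob.d t γ.1 →
    X.Rel h hm (by omega) h' x y γ → ∃ y' : C.D (t + 1) l, X.Rel h₁ hl (by omega) h₁' b y' (-c)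

/-- `v₁` -/
noncomputable def v1w : Cob.wt Laz 0 2 := ⟨MvPolynomial.C (Laz.v 3 1), isWt_v1⟩

/-- `t₁` -/
noncomputable def t1w : Cob.wt Laz 1 2 := ⟨t1, isWt_t1⟩

/-- `b₀` -/
noncomputable def b0w : Cob.wt Laz 2 6 := ⟨bcls 3 t1, isWt_b⟩

/-- The relations between `α₁` and `β₁` on the stages of the tower: `α₁ β₁³ = 0` and
`β₁ ∈ ⟨α₁, α₁, α₁⟩`. -/
structure Toda {X : Cls C} (A : MulA X t1w 3) (B : MulA X b0w 10) : Prop where
  bbba : ∀ {s : ℕ} {n₀ n₁ n₂ n₃ n₄ : ℤ} (h₁ : n₀ + 3 = n₁) (h₂ : n₁ + 10 = n₂)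
    (h₃ : n₂ + 10 = n₃) (h₄ : n₃ + 10 = n₄) (y : C.D s n₀),
    B.act h₄ (B.act h₃ (B.act h₂ (A.act h₁ y))) = 0
  abbb : ∀ {s : ℕ} {n₀ n₁ n₂ n₃ n₄ : ℤ} (h₁ : n₀ + 10 = n₁) (h₂ : n₁ + 10 = n₂)
    (h₃ : n₂ + 10 = n₃) (h₄ : n₃ + 3 = n₄) (y : C.D s n₀),
    A.act h₄ (B.act h₃ (B.act h₂ (B.act h₁ y))) = 0
  bracket : ∀ {s : ℕ} {n₀ n₁ n₂ n₃ : ℤ} (h₁ : n₀ + 3 = n₁) (h₂ : n₀ + 10 = n₃)
    (h₃ : n₂ + 3 = n₃) (y : C.D s n₀), A.act h₁ y = 0 →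
      ∃ Y : C.D s n₂, B.act h₂ y = A.act h₃ Y

/-- Everything which the topological side provides. -/
structure Top (C : Couple.{u, v}) where
  /-- the description of the `E₁`-term -/
  X : Cls C
  /-- multiplication by `v₁` -/
  V : MulA X v1w 4
  /-- multiplication by `α₁` -/
  A : MulA X t1w 3
  /-- multiplication by `β₁` -/
  B : MulA X b0w 10
  toda : Toda A B
  leib : X.Leib
  bock : X.Bock
  unit : ∃ y : C.D 0 0, C.j 0 0 y = X.cls (w := 0) rfl ⟨1, Cob.isWt_one⟩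

/-- A cocycle modulo three which lifts a unit multiple of `t₁ ^ q` is a permanent cycle. -/
def Cls.Perm (X : Cls C) (q : ℕ) (w n : ℤ) (h : n + ((1 : ℕ) : ℤ) = 2 * w) : Prop :=
  ∃ (z : Cob.wt Laz 1 w) (c : ℤ) (r : ℕ) (y : C.D 1 n), ¬ 3 ∣ c ∧ Cc z ∧
    z.1 - c * t1 ^ q ∈ IC 3 r 1 ∧ C.j 1 n y = X.cls h z

end Vale.Agent.P236T
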